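import Crest.Agent.N255.Ce.Co
import Crest.Agent.N255.Ch.Abs

/-!
# Row 255 (helper16): the quadrants have no compactly supported cohomology
-/

set_option autoImplicit false

noncomputable section

namespace Crest.Agent.N255.Fa

open Ra Ce Ce.Mir Ce.Mir.Cell Finsupp

section group

variable {S : Type} {Γ : SimpleGraph S} {a s t : S} {v : W Γ} {ρ : Finset S}

theorem Init_up (hs : s ∉ In v) (h : a ∈ Init v) : a ∈ Init (v * gen Γ s) := by
  have h1 := len_nmem hs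
  have h2 := len_mem' h
  have h3 := len_mul_le (gen Γ a * v) (gen Γ s)
  rw [len_gen, mul_assoc] at h3
  change len _ < len _
  omega

theorem In_left (ha : a ∉ Init v) (h : t ∈ In v) : t ∈ In (gen Γ a * v) := by
  have h1 := len_nmem' ha
  have h2 := len_mem h
  have h3 := len_mul_le (gen Γ a) (v * gen Γ t)
  rw [len_gen, ← mul_assoc] at h3
  change len _ < len _
  omega

theorem nmem_of_cross (h1 : a ∉ Init v) (h2 : a ∈ Init (v * gen Γ s)) : s ∉ In v := fun h =>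
  h1 (by simpa using Init_up (v := v * gen Γ s) (s := s) (fun k => mem_In_mul_self.1 k h) h2)

/-- an edge which crosses the wall of `a` is flipped by `a` -/
theorem cross (v : W Γ) : ∀ s, a ∉ Init v → a ∈ Init (v * gen Γ s) → v * gen Γ s = gen Γ a * v := by
  induction v using ind_red with
  | one =>
    intro s _ h
    rw [one_mul, Init_eq, gen_inv, In_gen] at h
    rw [h, one_mul, mul_one]
  | mul v t ht ih =>
    intro s h1 h2
    have h3 := nmem_of_cross h1 h2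
    have h4 : t ∈ In (v * gen Γ t) := mem_In_mul_self.2 ht
    have l1 := len_nmem h3
    have l2 := len_nmem' h1
    have l3 := len_mem' h2
    have h5 : s ∈ In (gen Γ a * (v * gen Γ t)) := by
      change len _ < len _
      rw [mul_assoc]; omega
    have h6 : Γ.Adj t s := In_clique _ (In_left h1 h4) h5 fun e => h3 (e ▸ h4)
    have h7 : s ∉ In v := fun k => h3 ((mem_In_mul_adj h6).2 k)
    have h8 : s ∈ In (gen Γ a * v) := (mem_In_mul_adj h6).1 (by rwa [mul_assoc])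
    have h9 : a ∉ Init v := fun k => h1 (Init_up ht k)
    have l4 := len_mem h8
    have l5 := len_nmem' h9
    have l6 := len_nmem h7
    have := ih s h9 (by
      change len _ < len _
      rw [← mul_assoc]; omega)
    rw [mul_assoc, (gen_comm h6).eq, ← mul_assoc, this, mul_assoc]

variable [DecidableEq S]

theorem Init_up_pr (hρ : Γ.IsClique (ρ : Set S)) (d : ∀ s ∈ ρ, s ∉ In v) (h : a ∈ Init v) :
    a ∈ Init (v * pr Γ ρ) := by
  have h1 := len_mul_pr_up hρ d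
  have h2 := len_mem' h
  have h3 := len_mul_le (gen Γ a * v) (pr Γ ρ)
  rw [len_pr hρ, mul_assoc] at h3
  change len _ < len _
  omega

theorem cross_pr (hρ : Γ.IsClique (ρ : Set S)) (h1 : a ∉ Init v) (h2 : a ∈ Init (v * pr Γ ρ)) :
    ∃ s ∈ ρ, v * gen Γ s = gen Γ a * v := by
  induction ρ using Finset.induction_on with
  | empty => exact (h1 (by simpa using h2)).elim
  | insert s ρ hs ih =>
    by_cases k : a ∈ Init (v * pr Γ ρ)
    · obtain ⟨t, ht, e⟩ := ih (hρ.subset (by simp)) k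
      exact ⟨t, Finset.mem_insert_of_mem ht, e⟩
    · rw [pr_insert hρ hs, ← mul_assoc] at h2
      have := cross _ s k h2
      rw [mul_assoc, ← pr_insert hρ hs, pr_insert' hρ hs, ← mul_assoc, ← mul_assoc] at this
      exact ⟨s, Finset.mem_insert_self _ _, mul_right_cancel this⟩

omit [DecidableEq S] in
theorem fin_cross (τ : Finset S) (v : W Γ) : {s | ∃ a ∈ τ, v * gen Γ s = gen Γ a * v}.Finite :=
  ((τ.finite_toSet.image fun a => v⁻¹ * (gen Γ a * v)).preimage gen_injective.injOn).subset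
    fun _ ⟨a, ha, e⟩ => ⟨a, ha, by simp only [← e, inv_mul_cancel_left]⟩

/-- the mirrors of the chamber `v` in the quadrant `τ` -/
def mir (τ : Finset S) (v : W Γ) : Finset S := InF v ∪ (fin_cross τ v).toFinset

theorem mem_mir {τ : Finset S} :
    s ∈ mir τ v ↔ s ∈ In v ∨ ∃ a ∈ τ, v * gen Γ s = gen Γ a * v := by simp [mir]

theorem mir_clique {τ : Finset S} (hτ : Γ.IsClique (τ : Set S)) (h : ∀ a ∈ τ, a ∉ Init v) :
    Γ.IsClique (mir τ v : Set S) := by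
  have key : ∀ s t a, a ∈ τ → v * gen Γ s = gen Γ a * v → t ∈ In v → s ≠ t → Γ.Adj s t :=
    fun s t a ha e ht n => by
      have h1 : s ∈ In (gen Γ a * v) := by
        have := len_nmem' (h a ha)
        change len _ < len _
        rw [← e, mul_gen_gen, e]; omega
      exact In_clique _ h1 (In_left (h a ha) ht) n
  intro s hs t ht n
  rcases mem_mir.1 hs with hs | ⟨a, ha, e⟩ <;> rcases mem_mir.1 ht with ht | ⟨b, hb, e'⟩
  · exact In_clique _ hs ht n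
  · exact (key t s b hb e' hs n.symm).symm
  · exact key s t a ha e ht n
  · refine adj_of_comm n (mul_left_cancel (a := v) ?_)
    rw [← mul_assoc, ← mul_assoc, e, e', mul_assoc, mul_assoc, e, e', ← mul_assoc, ← mul_assoc,
      (gen_comm' (hτ ha hb)).eq]

theorem mir_ne {τ : Finset S} (hτ : τ.Nonempty) (v : W Γ) : mir τ v ≠ ∅ := by
  refine Finset.nonempty_iff_ne_empty.1 ?_
  by_cases e : v = 1
  · obtain ⟨a, ha⟩ := hτ
    exact ⟨a, mem_mir.2 (Or.inr ⟨a, ha, by simp [e]⟩)⟩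
  · obtain ⟨s, hs⟩ := In_nonempty e
    exact ⟨s, mem_mir.2 (Or.inl hs)⟩

end group

variable {S K F Nd Ed : Type} [DecidableEq S] [Group F] [MulAction F Nd] [MulAction F Ed]
  [LinearOrder K] (M : Mir S K F Nd Ed)

/-- the quadrant: cells on the side of the base chamber of all walls in `τ` -/
def Z0 (τ : Finset S) : Set M.Cell := {x | ∀ a ∈ τ, a ∉ Init (top x.w x.τ)}

variable {M} {τ : Finset S} {x y : M.Cell} {u : W M.Γ}

theorem init_of_has (h : Has u x) {a : S} (ha : a ∈ Init u) : a ∈ Init (top x.w x.τ) := by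
  rw [← h.top_eq]
  exact Init_up_pr (x.cl.subset (Finset.coe_subset.2 Finset.sdiff_subset))
    (fun s hs k => (Finset.mem_sdiff.1 hs).2 (mem_InF.2 k)) ha

theorem mem_Z0 : x ∈ Z0 M τ ↔ ∀ u, Has u x → ∀ a ∈ τ, a ∉ Init u :=
  ⟨fun h _ hu a ha k => h a ha (init_of_has hu k), fun h => h _ x.has_top⟩

theorem Z0_le (h : x ≤ y) (hy : y ∈ Z0 M τ) : x ∈ Z0 M τ :=
  mem_Z0.2 fun u hu => mem_Z0.1 hy u (hu.mono h)

theorem lev_Z0 (h : ∀ a ∈ τ, a ∉ Init u) :
    x.lev = u ∧ x ∈ Z0 M τ ↔ Has u x ∧ Disjoint x.τ (mir τ u) := by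
  rw [lev_eq, and_assoc]
  refine and_congr_right fun hu => ?_
  simp only [Finset.disjoint_left, mem_mir, mem_InF, not_or]
  refine ⟨fun k s hs => ⟨k.1 hs, fun ⟨a, ha, e⟩ => ?_⟩, fun k => ⟨fun s hs => (k hs).1, ?_⟩⟩
  · refine mem_Z0.1 k.2 _ (hu.mul (gen_mem_WT hs)) a ha ?_
    have := len_nmem' (h a ha)
    change len _ < len _
    rw [e, gen_gen_mul]; omega
  · refine mem_Z0.2 fun v hv a ha hav => ?_
    obtain ⟨σ, hσ, e⟩ := (mem_WT x.cl).1 (hu.rel hv)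
    rw [← mul_inv_cancel_left u v, e] at hav
    obtain ⟨s, hs, e'⟩ := cross_pr (x.cl.subset (Finset.coe_subset.2 hσ)) (h a ha) hav
    exact (k (hσ hs)).2 ⟨a, ha, e'⟩

variable {δ : (M.Cell →₀ ℤ) →ₗ[ℤ] (M.Cell →₀ ℤ)} (hδ : ∀ φ y, δ φ y = linearCombination ℤ φ y.bd)
include hδ

/-- the coboundary on a subcomplex only depends on the restriction -/
theorem de_rs {Z : Set M.Cell} (hZ : ∀ x y, x ≤ y → y ∈ Z → x ∈ Z) (φ : M.Cell →₀ ℤ) (hy : y ∈ Z) :
    δ (Ch.rs Z φ) y = δ φ y := by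
  rw [hδ, hδ]
  exact lc_congr fun x hx => Ch.rs_of_mem φ (hZ x y (le_of_bd hx) hy)

/-- **the quadrants are acyclic** -/
theorem quad (H : M.Cham) (hdd : ∀ φ, δ (δ φ) = 0) (hτ : M.Γ.IsClique (τ : Set S))
    (hne : τ.Nonempty) (φ : M.Cell →₀ ℤ) (h : ∀ y ∈ Z0 M τ, δ φ y = 0) :
    ∃ ψ : M.Cell →₀ ℤ, (∀ x, ψ x ≠ 0 → x ∈ Z0 M τ) ∧ ∀ y ∈ Z0 M τ, δ ψ y = φ y := by
  have hZ : ∀ x y : M.Cell, x ≤ y → y ∈ Z0 M τ → x ∈ Z0 M τ := fun _ _ => Z0_le
  have low : Fl.Low len lev lev δ := fun x y h => lev_le (Cham.le_of_de hδ h)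
  have low' : Fl.Low len lev lev (Ch.rs (Z0 M τ) ∘ₗ δ) := fun x y h => low x y fun e => h (by
    by_cases k : y ∈ Z0 M τ
    · exact (Ch.rs_of_mem _ k).trans e
    · exact Ch.rs_of_notMem _ k)
  suffices k : ∃ ψ, (Ch.rs (Z0 M τ) ∘ₗ δ) ψ = Ch.rs (Z0 M τ) φ by
    obtain ⟨ψ, e⟩ := k
    refine ⟨Ch.rs _ ψ, Ch.mem_Sp.1 (Ch.rs_mem _ _), fun y hy => ?_⟩
    rw [de_rs hδ hZ _ hy, ← Ch.rs_of_mem φ hy, ← e, LinearMap.comp_apply, Ch.rs_of_mem _ hy]
  refine Fl.mem_range_of_gr low'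
    (fun b => b ∈ Ch.Sp (Z0 M τ) ∧ ∀ y ∈ Z0 M τ, δ b y = 0)
    (fun b a hb => ⟨Submodule.sub_mem _ hb.1 (Ch.rs_mem _ _), fun y hy => by
      rw [map_sub, Finsupp.sub_apply, hb.2 y hy, LinearMap.comp_apply, de_rs hδ hZ _ hy, hdd]
      rfl⟩) (fun u b hb hl => ?_) (Ch.rs (Z0 M τ) φ)
    ⟨Ch.rs_mem _ _, fun y hy => (de_rs hδ hZ φ hy).trans (h y hy)⟩
  have out : ∀ y, y ∉ Z0 M τ → ∀ a, (Ch.rs (Z0 M τ) ∘ₗ δ) a y = b y := fun y hy a =>
    (Ch.rs_of_notMem _ hy).trans (not_ne_iff.1 fun e => hy (Ch.mem_Sp.1 hb.1 y e)).symm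
  by_cases hu : ∀ a ∈ τ, a ∉ Init u
  swap
  · exact ⟨0, fun _ h => (h rfl).elim, fun y hy =>
      out y (fun k => hu (mem_Z0.1 k u (lev_eq.1 hy).1)) _⟩
  have on := Fl.on_part (lX := lev) u b
  have hs : ∀ a, Fl.part lev u b a ≠ 0 → Has u a := fun a h => (lev_eq.1 (on a h)).1
  obtain ⟨ψ, h1, h2⟩ := H.ex (mir τ u) (mir_clique hτ hu) (res (Fl.part lev u b)) (fun q h => by
    obtain ⟨a, ha, rfl⟩ := res_ne h
    exact ⟨a.cl, a.sub, ((lev_Z0 hu).1 ⟨on a ha, Ch.mem_Sp.1 hb.1 a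
      (Fl.part_of_eq b (on a ha) ▸ ha)⟩).2⟩) (fun q h => by
      have k := has_mk' u q.1 q.2 h.1 h.2.1
      have k' := (lev_Z0 hu).2 ⟨k, h.2.2⟩
      have e := low.part_top hl k'.1
      rw [hδ, ← lft_res hs, lc_lft _ k, hb.2 _ k'.2] at e
      exact (mul_eq_zero.1 e).resolve_left (left_ne_zero_of_mul_eq_one (sg_sq _)))
    fun e => (mir_ne hne u e).elim
  refine ⟨lft u ψ, fun a ha => ?_, fun a ha => ?_⟩
  · have k : Has u a := by_contra fun n => ha (lft_neg _ n)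
    rw [lft_pos _ k] at ha
    exact ((lev_Z0 hu).2 ⟨k, (h1 _ (right_ne_zero_of_mul ha)).2.2⟩).1
  · by_cases hZ : a ∈ Z0 M τ
    · have k := (lev_Z0 hu).1 ⟨ha, hZ⟩
      rw [LinearMap.comp_apply, Ch.rs_of_mem _ hZ, hδ, lc_lft _ k.1, h2 _ ⟨a.cl, a.sub, k.2⟩,
        res_ty hs k.1, ← mul_assoc, sg_sq, one_mul, Fl.part_of_eq b ha]
    · exact out a hZ _

/-- the same in the language of `Ch.Acyc` -/
theorem acyc_quad (H : M.Cham) (hdd : ∀ φ, δ (δ φ) = 0) (hτ : M.Γ.IsClique (τ : Set S))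
    (hne : τ.Nonempty) : Ch.Acyc δ ⊤ (Ch.Sp (Z0 M τ)ᶜ) := fun b _ hb => by
  obtain ⟨ψ, -, h⟩ := quad hδ H hdd hτ hne b fun y hy =>
    not_ne_iff.1 fun e => Ch.mem_Sp.1 hb y e hy
  exact ⟨ψ, trivial, Ch.mem_Sp.2 fun y hy k => hy (by rw [Finsupp.sub_apply, h y k, sub_self])⟩

end Crest.Agent.N255.Fa

end
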