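import Crest.Agent.N255.Fa.Sep
import Crest.Agent.N255.Fa.Q0
import Crest.Agent.N233.Hyp.Mir

/-!
# Row 255 (helper38): the metric on the vertices of the cube complex, distances to quadrants
-/

set_option autoImplicit false
set_option linter.unusedSectionVars false

noncomputable section

namespace Crest.Agent.N255.Fa

open Ra Ce N233.Hyp Relation

variable {S K F Nd Ed : Type} [DecidableEq S] [Group F] [MulAction F Nd] [MulAction F Ed]
  (M : Ce.Mir S K F Nd Ed)

/-- the vertices of the cube complex -/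
abbrev Vt : Type := W M.Γ × Nd

/-- the mirrors -/
def Tm (s : S) : Set Nd := {t | s ∈ M.sp t}

/-- the graph with the walls coned off -/
abbrev cg : SimpleGraph (S ⊕ Ed) := cone M.Γ M.src M.tgt (Tm M)

/-- the labelled edges -/
abbrev ed : Vt M → S ⊕ Ed → Vt M → Prop := mst M.Γ M.src M.tgt (Tm M)

variable {M} in
theorem rt_end (R : Rt M.src M.tgt) (e : Ed) : End M.src M.tgt e (R.dn e) (R.up e) :=
  (R.ud e).elim (fun h => .inr ⟨h.2, h.1⟩) fun h => .inl ⟨h.2, h.1⟩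

variable {M} in
theorem rt_conn (R : Rt M.src M.tgt) (p : Nd → Prop) (q : Ed → Prop)
    (h : ∀ e, p (R.up e) → p (R.dn e) ∧ q e) {t t' : Nd} (ht : p t) (ht' : p t') :
    ReflTransGen (fun u v => ∃ e, End M.src M.tgt e u v ∧ q e) t t' := by
  have key : ∀ n t, R.ht t = n → p t →
      ReflTransGen (fun u v => ∃ e, End M.src M.tgt e u v ∧ q e) R.o t ∧
      ReflTransGen (fun u v => ∃ e, End M.src M.tgt e u v ∧ q e) t R.o := fun n => by
    induction n using Nat.strong_induction_on with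
    | _ n ih =>
    intro t e pt
    by_cases c : t = R.o
    · rw [c]; exact ⟨.refl, .refl⟩
    obtain ⟨x, rfl, -⟩ := R.par t c
    obtain ⟨a, b⟩ := ih _ (e ▸ R.lt x) _ rfl (h x pt).1
    exact ⟨a.tail ⟨x, rt_end R x, (h x pt).2⟩, b.head ⟨x, (rt_end R x).symm, (h x pt).2⟩⟩
  exact (key _ t rfl ht).2.trans (key _ t' rfl ht').1

theorem hmir : N233.Hyp.Mir M.Γ M.src M.tgt (Tm M) := by
  obtain ⟨R, -⟩ := M.root ∅ (by simp)
  have u : ∀ e t v, End M.src M.tgt e t v → R.ht v < R.ht t → R.up e = t := fun e t v h l => by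
    have := R.lt e
    rcases R.ud e with a | a <;> rcases h with ⟨rfl, rfl⟩ | ⟨rfl, rfl⟩
    · exact a.1
    · rw [a.1, a.2] at this; omega
    · rw [a.1, a.2] at this; omega
    · exact a.1
  refine ⟨coc_of_ht R.ht (fun e => ?_) fun e e' t v v' a b c d => ?_, fun t t' => ?_,
    fun s t ht t' ht' => ?_, fun s => ?_, fun s s' h => ?_⟩
  · have := R.lt e
    rcases R.ud e with a | a <;> rw [a.1, a.2] at this <;> omega
  · exact (R.par t fun e => by rw [e, R.ht_o] at c; omega).unique (u _ _ _ a c) (u _ _ _ b d)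
  · simpa using rt_conn R (fun _ => True) (fun _ => True) (fun _ _ => ⟨trivial, trivial⟩) (t := t) (t' := t')
      trivial trivial
  · obtain ⟨R, h⟩ := M.root {s} (by simp)
    have h' := (h s (Finset.mem_singleton_self s)).2
    refine rt_conn R (· ∈ Tm M s) _ (fun e k => ⟨h' e k, ?_⟩) ht ht'
    exact (R.ud e).elim (fun a => ⟨a.1 ▸ k, a.2 ▸ h' e k⟩) fun a => ⟨a.2 ▸ h' e k, a.1 ▸ k⟩
  · obtain ⟨R, h⟩ := M.root {s} (by simp)
    exact ⟨R.o, (h s (Finset.mem_singleton_self s)).1⟩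
  · obtain ⟨R, k⟩ := M.root {s, s'} (by simpa using fun _ => h)
    exact ⟨R.o, (k s (by simp)).1, (k s' (by simp)).1⟩

/-- the developing map -/
def dev : Vt M → W (cg M) := (hmir M).lab.choose

theorem lab : Lab (cg M) (ed M) (dev M) := (hmir M).lab.choose_spec

/-- the graph metric -/
def dl (x y : Vt M) : ℕ := N233.Hyp.dl (dev M) x y

/-- the quadrant of `Z` -/
def KV (Z : Set S) : Set (Vt M) := {x | ∀ a ∈ Z, a ∉ Init x.1}

/-- the distance to the quadrant -/
def ds (Z : Set S) (x : Vt M) : ℕ := ns (dev M) (KV M Z) x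

/-- the depth behind the wall `a` -/
def n (a : S) (x : Vt M) : ℕ := ds M {a} x

/-- the distance to the core tree -/
def rad (x : Vt M) : ℕ := ds M Set.univ x

instance : MulAction M.G0 (Vt M) where
  smul g x := (g.left * aut (M.ρ g.right) x.1, g.right • x.2)
  one_smul x := Prod.ext (show _ * autHom M.ρ _ _ = _ by simp) (one_smul F x.2)
  mul_smul g h x := Prod.ext
    (show _ * autHom M.ρ _ _ = _ * autHom M.ρ _ (_ * autHom M.ρ _ _) by simp [mul_assoc])
    (mul_smul g.right h.right x.2)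

variable {M} {x y z : Vt M} {Z Z' : Set S} {a s : S}

theorem smul_def (g : M.G0) (x : Vt M) : g • x = (g.left * aut (M.ρ g.right) x.1, g.right • x.2) := rfl

theorem inl_smul (u : W M.Γ) (x : Vt M) : (SemidirectProduct.inl u : M.G0) • x = (u * x.1, x.2) := by
  rw [smul_def, ← autHom_apply]; simp

theorem inr_smul (f : F) (x : Vt M) :
    (SemidirectProduct.inr f : M.G0) • x = (aut (M.ρ f) x.1, f • x.2) := by rw [smul_def]; simp

theorem dl_self' (x : Vt M) : dl M x x = 0 := dl_self x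
theorem dl_comm' (x y : Vt M) : dl M x y = dl M y x := dl_comm x y
theorem dl_tri' (x y z : Vt M) : dl M x z ≤ dl M x y + dl M y z := dl_tri x y z
theorem eq_of_dl (h : dl M x y = 0) : x = y := (lab M).eq_of_dl h
theorem dl_ed {b : S ⊕ Ed} (h : ed M x b y) : dl M x y = 1 := (lab M).dl_st h

theorem dl_step {k : ℕ} (h : dl M x y = k + 1) : ∃ b z, ed M y b z ∧ dl M x z = k := (lab M).step h

theorem ed_smul (g : M.G0) (x : Vt M) (b : S ⊕ Ed) (y : Vt M) (h : ed M x b y) :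
    ∃ b, ed M (g • x) b (g • y) := by
  rcases b with s | e
  · obtain ⟨h, rfl⟩ := h
    refine ⟨.inl (M.ρ g.right s), ?_, by simp [smul_def, mul_assoc]⟩
    show _ ∈ M.sp (g.right • x.2)
    rw [M.sp_smul]
    exact Finset.mem_image_of_mem _ h
  · refine ⟨.inr (g.right • e), by rw [smul_def, smul_def, h.1], h.2.imp ?_ ?_⟩ <;>
      exact fun k => ⟨by rw [smul_def, k.1]; simp [M.src_smul, M.tgt_smul],
        by rw [smul_def, k.2]; simp [M.src_smul, M.tgt_smul]⟩

theorem dl_smul (g : M.G0) (x y : Vt M) : dl M (g • x) (g • y) = dl M x y :=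
  le_antisymm ((lab M).dl_map_le (ed_smul g) _ _ _ rfl) (by
    simpa [dl] using (lab M).dl_map_le (ed_smul g⁻¹) _ (g • x) (g • y) rfl)

theorem nbr_fin (x : Vt M) : {y | ∃ b, ed M x b y}.Finite := by
  obtain ⟨A, hA, k⟩ := M.finE
  have f : ∀ p : Ed → Nd, (∀ (f : F) e, p (f • e) = f • p e) → {e | p e = x.2}.Finite := fun p hp => by
    refine ((((Gc.finite_mov M.free x.2 (hA.image p)).prod hA).image
      fun q : F × Ed => q.1⁻¹ • q.2)).subset fun e he => ?_
    obtain ⟨g, hg⟩ := k e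
    exact ⟨(g, g • e), ⟨⟨_, hg, by rw [hp, he]⟩, hg⟩, inv_smul_smul g e⟩
  refine ((((M.sp x.2).finite_toSet.image fun s => (x.1 * gen M.Γ s, x.2)).union
    ((f _ M.src_smul).image fun e => (x.1, M.tgt e))).union
    ((f _ M.tgt_smul).image fun e => (x.1, M.src e))).subset ?_
  rintro y ⟨s | e, h⟩
  · exact .inl (.inl ⟨s, h.1, h.2.symm⟩)
  · rcases h.2 with a | a
    · exact .inl (.inr ⟨e, a.1.symm, Prod.ext h.1.symm a.2.symm⟩)
    · exact .inr ⟨e, a.1.symm, Prod.ext h.1.symm a.2.symm⟩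

/-- balls are finite -/
theorem ball_fin (x : Vt M) (R : ℕ) : {y | dl M x y ≤ R}.Finite := by
  refine ball_finite (lab M).isGM (fun x => ((nbr_fin x).insert x).subset fun y hy => ?_) x R
  rcases Nat.le_one_iff_eq_zero_or_eq_one.1 hy with h | h
  · exact .inl ((lab M).eq_of_dl h).symm
  · obtain ⟨b, z, h1, h2⟩ := (lab M).step (n := 0) h
    exact .inr ⟨b, (lab M).eq_of_dl h2 ▸ (lab M).symm _ _ _ h1⟩

/-! ### the wall of a generator -/

theorem dev_mul (u : W M.Γ) (x y : Vt M) :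
    dev M (u * y.1, y.2) * (dev M y)⁻¹ = dev M (u * x.1, x.2) * (dev M x)⁻¹ := by
  induction (lab M).conn x y with
  | refl => rfl
  | @tail y z _ h ih =>
    obtain ⟨b, h⟩ := h
    have h' : ed M (u * y.1, y.2) b (u * z.1, z.2) := by
      rcases b with s | e
      · exact ⟨h.1, by rw [h.2, mul_assoc]⟩
      · exact ⟨congrArg (u * ·) h.1, h.2⟩
    rw [← ih, (lab M).map _ _ _ h, (lab M).map _ _ _ h']
    group

variable (M) in
/-- a vertex of the core on the mirror `a` -/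
def bs (a : S) : Vt M := (1, ((hmir M).Tne a).some)

variable (M) in
/-- the wall of `a` -/
def ra (a : S) : W (cg M) := hp (dev M) (bs M a) (.inl a)

theorem dev_gen (a : S) (x : Vt M) : dev M (gen M.Γ a * x.1, x.2) = ra M a * dev M x := by
  have h : ed M (bs M a) (.inl a) (gen M.Γ a * (bs M a).1, (bs M a).2) :=
    ⟨((hmir M).Tne a).some_mem, by simp [bs]⟩
  rw [← mul_inv_eq_iff_eq_mul, dev_mul _ (bs M a), (lab M).map _ _ _ h]
  rfl

theorem hp_eq_ra {b : S ⊕ Ed} (h : ed M x b y) : hp (dev M) x b = ra M a ↔ y = (gen M.Γ a * x.1, x.2) := by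
  rw [← (lab M).inj.eq_iff, dev_gen, (lab M).map _ _ _ h, hp, hw, mul_inv_eq_iff_eq_mul]

theorem Init_flip (a : S) (w : W M.Γ) : a ∈ Init (gen M.Γ a * w) ↔ a ∉ Init w := by
  rw [Init_eq, Init_eq, mul_inv_rev, gen_inv, mem_In_mul_self]

theorem hp_of_cross {b : S ⊕ Ed} (h : ed M x b y) (h1 : a ∉ Init x.1) (h2 : a ∈ Init y.1) :
    hp (dev M) x b = ra M a := by
  rcases b with s | e
  · refine (hp_eq_ra h).2 ?_
    rw [h.2] at h2 ⊢
    rw [cross _ s h1 h2]
  · exact absurd (h.1 ▸ h2) h1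

theorem sd_ra (a : S) (x : Vt M) : sd (dev M) (ra M a) x = sd (dev M) (ra M a) (bs M a) ↔ a ∉ Init x.1 := by
  induction (lab M).conn (bs M a) x with
  | refl => simp [bs, Init_eq]
  | @tail y z _ h ih =>
    obtain ⟨b, h⟩ := h
    by_cases e : hp (dev M) y b = ra M a
    · have k := sd_st_ne (lab M) h
      rw [e] at k
      rw [congrArg Prod.fst ((hp_eq_ra h).1 e), Init_flip, ← ih]
      exact ⟨fun c d => k (d.trans c.symm), fun c => ne_trans k.symm c⟩
    · rw [sd_st (lab M) h (Ne.symm e), ih]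
      exact ⟨fun c d => e (hp_of_cross h c d), fun c d => e
        (hp_st (lab M) h ▸ hp_of_cross ((lab M).symm _ _ _ h) c d)⟩

theorem sd_ra_ne (h : a ∉ Init x.1) : sd (dev M) (ra M a) x ≠ sd (dev M) (ra M a) y ↔ a ∈ Init y.1 := by
  rw [(sd_ra a x).2 h, ne_comm, Ne, sd_ra, not_not]

theorem core_mem (Z : Set S) (t : Nd) : (1, t) ∈ KV M Z := fun a _ => by simp [Init_eq]

theorem KV_anti (h : Z ⊆ Z') : KV M Z' ⊆ KV M Z := fun _ k a ha => k a (h ha)

theorem mem_core : x ∈ KV M Set.univ ↔ x.1 = 1 :=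
  ⟨fun h => inv_eq_one.1 (In_eq_empty.1 (Set.eq_empty_of_forall_notMem fun a k =>
    h a trivial (Init_eq x.1 ▸ k))), fun h => by rw [show x = (1, x.2) from Prod.ext h rfl]; exact core_mem _ _⟩

theorem cvx (Z : Set S) : Cvx (dev M) (KV M Z) where
  ne := (M.root ∅ (by simp)).elim fun R _ => ⟨_, core_mem Z R.o⟩
  sep x h := by
    simp only [KV, Set.mem_ofPred_eq, not_forall, not_not] at h
    obtain ⟨a, ha, h⟩ := h
    exact ⟨ra M a, fun z hz => ((sd_ra_ne (hz a ha)).2 h).symm⟩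

/-! ### distances to quadrants -/

theorem ds_le_iff {k : ℕ} : ds M Z x ≤ k ↔ ∃ z ∈ KV M Z, dl M z x ≤ k := (cvx Z).ns_le_iff (lab M)

theorem ds_le_dl (h : z ∈ KV M Z) (x : Vt M) : ds M Z x ≤ dl M z x := ns_le_dl (lab M) h x

theorem exists_dl (Z : Set S) (x : Vt M) : ∃ z ∈ KV M Z, dl M z x = ds M Z x :=
  (ds_le_iff.1 le_rfl).imp fun _ h => ⟨h.1, le_antisymm h.2 (ds_le_dl h.1 x)⟩

theorem ds_lip (Z : Set S) (x y : Vt M) : ds M Z y ≤ ds M Z x + dl M x y := (cvx Z).ns_lip (lab M) x y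

theorem ds_eq_zero : ds M Z x = 0 ↔ x ∈ KV M Z := ⟨(cvx Z).mem_of_ns (lab M), ns_zero⟩

theorem ds_mono (h : Z ⊆ Z') (x : Vt M) : ds M Z x ≤ ds M Z' x := ns_anti (lab M) (cvx Z').ne (KV_anti h)

theorem n_le_ds (h : a ∈ Z) (x : Vt M) : n M a x ≤ ds M Z x := ds_mono (Set.singleton_subset_iff.2 h) x

theorem ds_le_rad (Z : Set S) (x : Vt M) : ds M Z x ≤ rad M x := ds_mono (Set.subset_univ Z) x

theorem n_le_rad (a : S) (x : Vt M) : n M a x ≤ rad M x := ds_le_rad _ x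

theorem n_lip (a : S) (x y : Vt M) : n M a y ≤ n M a x + dl M x y := ds_lip _ x y

theorem rad_lip (x y : Vt M) : rad M y ≤ rad M x + dl M x y := ds_lip _ x y

theorem n_pos : 0 < n M a x ↔ a ∈ Init x.1 := by
  rw [Nat.pos_iff_ne_zero, n, Ne, ds_eq_zero]; simp [KV]

theorem rad_eq_zero : rad M x = 0 ↔ x.1 = 1 := ds_eq_zero.trans mem_core

theorem adj_of_n {b : S} (h : 0 < n M a x) (k : 0 < n M b x) (e : a ≠ b) : M.Γ.Adj a b :=
  Init_clique _ (n_pos.1 h) (n_pos.1 k) e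

theorem ds_smul (g : M.G0) (h : ∀ x, g • x ∈ KV M Z' ↔ x ∈ KV M Z) (x : Vt M) :
    ds M Z' (g • x) = ds M Z x :=
  le_antisymm ((cvx Z).ns_map_le (lab M) (ed_smul g) (fun z hz => (h z).2 hz) x) (by
    simpa [ds] using (cvx Z').ns_map_le (lab M) (Q' := KV M Z) (ed_smul g⁻¹)
      (fun z hz => (h _).1 (by simpa using hz)) (g • x))

theorem mem_Init_aut (f : F) (w : W M.Γ) : M.ρ f a ∈ Init (aut (M.ρ f) w) ↔ a ∈ Init w := by
  rw [Init_eq, Init_eq, ← map_inv, mem_In_aut]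

theorem ds_inr (f : F) (Z : Set S) (x : Vt M) :
    ds M (M.ρ f '' Z) ((SemidirectProduct.inr f : M.G0) • x) = ds M Z x :=
  ds_smul _ (fun x => by simp [KV, inr_smul, mem_Init_aut]) x

theorem n_inr (f : F) (a : S) (x : Vt M) :
    n M (M.ρ f a) ((SemidirectProduct.inr f : M.G0) • x) = n M a x := by
  rw [n, ← Set.image_singleton, ds_inr, n]

theorem rad_inr (f : F) (x : Vt M) : rad M ((SemidirectProduct.inr f : M.G0) • x) = rad M x := by
  rw [rad, ← Set.image_univ_of_surjective (M.ρ f).surjective, ds_inr, rad]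

theorem card_le_four {τ : Finset S} (h : M.Γ.IsClique (τ : Set S)) : τ.card ≤ 4 :=
  (M.root τ h).elim fun R k => M.dimN R.o τ h fun s hs => (k s hs).1

theorem sep_cover {r : W (cg M)} (h : r ∈ Sep (dev M) (KV M Z) x) :
    ∃ a ∈ Z, a ∈ Init x.1 ∧ r ∈ Sep (dev M) (KV M {a}) x := by
  obtain ⟨z, hz, b, y, h1, h2, h3⟩ := (cvx Z).nest (lab M) h
  simp only [KV, Set.mem_ofPred_eq, not_forall, not_not] at h2
  obtain ⟨a, ha, h2⟩ := h2
  rw [hp_of_cross h1 (hz a ha) h2] at h3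
  exact ⟨a, ha, (sd_ra_ne (hz a ha)).1 (h3 x rfl), fun u hu e =>
    hu a rfl ((sd_ra_ne (hz a ha)).1 (h3 u e.symm))⟩

open Classical in
/-- the distance to a quadrant is at most the sum of the depths -/
theorem ds_le_sum (Z : Set S) (x : Vt M) : ds M Z x ≤ ∑ a ∈ InF x.1⁻¹ with a ∈ Z, n M a x := by
  have f := fun a => sep_finite (lab M) (cvx {a}).ne x
  rw [ds, ns, Set.ncard_eq_toFinset_card _ (sep_finite (lab M) (cvx Z).ne x)]
  refine (Finset.card_le_card (t := ((InF x.1⁻¹).filter (· ∈ Z)).biUnion fun a => (f a).toFinset)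
    fun r hr => ?_).trans (Finset.card_biUnion_le.trans (Finset.sum_le_sum fun a _ => ?_))
  · obtain ⟨a, h1, h2, h3⟩ := sep_cover ((Set.Finite.mem_toFinset _).1 hr)
    exact Finset.mem_biUnion.2 ⟨a, Finset.mem_filter.2 ⟨mem_InF.2 (Init_eq x.1 ▸ h2), h1⟩,
      (Set.Finite.mem_toFinset _).2 h3⟩
  · rw [n, ds, ns, Set.ncard_eq_toFinset_card _ (f a)]

theorem ds_le_of {k : ℕ} (h : ∀ a ∈ Z, a ∈ Init x.1 → n M a x ≤ k) : ds M Z x ≤ 4 * k := by
  classical
  refine (ds_le_sum Z x).trans ((Finset.sum_le_card_nsmul _ _ k fun a ha => ?_).trans ?_)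
  · exact h a (Finset.mem_filter.1 ha).2 (Init_eq x.1 ▸ mem_InF.1 (Finset.mem_filter.1 ha).1)
  · exact Nat.mul_le_mul_right k ((Finset.card_filter_le _ _).trans (card_le_four (InF_clique _)))

/-- **the far cover** -/
theorem exists_n {k : ℕ} (h : 4 * k < ds M Z x) : ∃ a ∈ Z, k < n M a x := by
  by_contra c
  simp only [not_exists, not_and, not_lt] at c
  exact absurd (ds_le_of fun a ha _ => c a ha) h.not_ge

theorem exists_max (h : 0 < ds M Z x) :
    ∃ a ∈ Z, ds M Z x ≤ 4 * n M a x ∧ 0 < n M a x ∧ ∀ b ∈ Z, n M b x ≤ n M a x := by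
  obtain ⟨b, hb, k⟩ := exists_n (k := 0) h
  obtain ⟨a, ha, m⟩ := Set.exists_max_image (Z ∩ Init x.1) (n M · x) ((Init_finite _).inter_of_right _)
    ⟨b, hb, n_pos.1 k⟩
  refine ⟨a, ha.1, ds_le_of fun c hc l => m c ⟨hc, l⟩, n_pos.2 ha.2, fun c hc => ?_⟩
  rcases Nat.eq_zero_or_pos (n M c x) with e | e
  · omega
  · exact m c ⟨hc, n_pos.1 e⟩

/-- a vertex outside the quadrant has an edge that decreases the distance and no smaller distance grows -/
theorem exists_down (h : x ∉ KV M Z) : ∃ b y, ed M x b y ∧ ds M Z x = ds M Z y + 1 ∧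
    ∀ Z' ⊆ Z, ds M Z' y ≤ ds M Z' x := by
  obtain ⟨b, y, h1, h2⟩ := exists_desc (lab M) (cvx Z).ne ((cvx Z).sep x h)
  exact ⟨b, y, h1, ns_desc (lab M) (cvx Z).ne h1 h2, fun Z' k => Set.ncard_le_ncard
    (sep_desc_mono (lab M) (cvx Z).ne (KV_anti k) h1 h2) (sep_finite (lab M) (cvx Z').ne x)⟩

end Crest.Agent.N255.Fa
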