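import Crest.Agent.N255.Fa.Sep
import Crest.Agent.N255.Ch.Abs

/-!
# Row 255 (helper38): bounded neighbourhoods of convex subcomplexes collapse properly
-/

set_option autoImplicit false

noncomputable section

namespace Crest.Agent.N255.Fa

open Ra N233.Hyp Ch Finsupp

variable {A P C : Type} [DecidableEq A] {Γ : SimpleGraph A} {st : P → A → P → Prop} {φ : P → W Γ}

/-- cubes over a labelled graph: `Vx c` vertices, `L c` directions, `bd` the boundary -/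
structure Cb (st : P → A → P → Prop) (φ : P → W Γ) (Vx : C → P → Prop) (L : C → Finset A)
    (bd : C → C →₀ ℤ) : Prop where
  lab : Lab Γ st φ
  ne : ∀ c, ∃ x, Vx c x
  cl : ∀ c, Γ.IsClique (L c : Set A)
  mv : ∀ c x a, Vx c x → a ∈ L c → ∃ y, st x a y ∧ Vx c y
  rel : ∀ c x y, Vx c x → Vx c y → (φ x)⁻¹ * φ y ∈ WT Γ (L c : Set A)
  ext : ∀ c c' x, Vx c x → Vx c' x → L c = L c' → c = c'
  add : ∀ c x a y, Vx c x → st x a y → a ∉ L c → (∀ s ∈ L c, Γ.Adj a s) →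
    ∃ c', Vx c' x ∧ L c' = insert a (L c)
  fac : ∀ c y, bd c y ≠ 0 → (∀ x, Vx y x → Vx c x) ∧ ∃ a ∈ L c, L y = (L c).erase a
  del : ∀ c x a, Vx c x → a ∈ L c → ∃ y, Vx y x ∧ L y = (L c).erase a ∧ bd c y * bd c y = 1

/-- the cells with all vertices in `N` -/
def Fu (Vx : C → P → Prop) (N : Set P) : Set C := {c | ∀ x, Vx c x → x ∈ N}

variable {Vx : C → P → Prop} {L : C → Finset A} {bd : C → C →₀ ℤ} {Q N : Set P} {c c' : C} {x y : P}
  {a : A} {r : W Γ}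

variable (φ Vx) in
/-- the hyperplanes separating a vertex of `c` from `Q` -/
def SC (Q : Set P) (c : C) : Set (W Γ) := {r | ∃ x, Vx c x ∧ r ∈ Sep φ Q x}

open Classical in
variable (φ Vx L) in
/-- the horizontal directions of `c` -/
def hz (Q : Set P) (c : C) : Finset A := (L c).filter fun a => ∃ x, Vx c x ∧ ¬Vert φ Q (hp φ x a)

variable (φ Vx L) in
/-- the level of a cell -/
def lev (Q : Set P) (c : C) : ℕ := (SC φ Vx Q c).ncard + (hz φ Vx L Q c).card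

namespace Cb

variable (H : Cb st φ Vx L bd)
include H

theorem hp_eq (h : Vx c x) (k : Vx c y) (ha : a ∈ L c) : hp φ y a = hp φ x a := by
  rw [hp, ← mul_inv_cancel_left (φ x) (φ y),
    hw_comm (comm_WT (fun t ht n => H.cl c ha ht n) (H.rel c x y h k)), hp]

theorem sd_eq (h : Vx c x) (k : Vx c y) (e : ∀ a ∈ L c, r ≠ hp φ x a) : sd φ r y = sd φ r x := by
  obtain ⟨σ, hσ, e'⟩ := (mem_WT (H.cl c)).1 (H.rel c x y h k)
  rw [sd, ← mul_inv_cancel_left (φ x) (φ y), e',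
    sw_pr ((H.cl c).subset (Finset.coe_subset.2 hσ)) fun a ha => e a (hσ ha), sd]

theorem of_pr {σ : Finset A} (hσ : σ ⊆ L c) (h : Vx c x) : ∃ y, Vx c y ∧ φ y = φ x * pr Γ σ := by
  induction σ using Finset.induction_on with
  | empty => exact ⟨x, h, by simp⟩
  | insert a σ ha ih =>
    obtain ⟨y, h1, h2⟩ := ih ((Finset.subset_insert _ _).trans hσ)
    obtain ⟨z, h3, h4⟩ := H.mv c y a h1 (hσ (Finset.mem_insert_self _ _))
    exact ⟨z, h4, by rw [H.lab.map _ _ _ h3, h2, pr_insert ((H.cl c).subset (Finset.coe_subset.2 hσ)) ha,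
      mul_assoc]⟩

/-- the vertices of a facet -/
theorem vx_facet (h : Vx c x) (h' : Vx c' x) (e : L c' = insert a (L c)) (k : Vx c' y)
    (s : sd φ (hp φ x a) y = sd φ (hp φ x a) x) : Vx c y := by
  obtain ⟨σ, hσ, e'⟩ := (mem_WT (H.cl c')).1 (H.rel c' x y h' k)
  have cσ := (H.cl c').subset (Finset.coe_subset.2 hσ)
  have n : a ∉ σ := fun m => by
    have e1 : φ y = φ x * pr Γ (σ.erase a) * gen Γ a := by
      rw [pr_erase cσ m, ← mul_assoc, mul_gen_gen, ← e', mul_inv_cancel_left]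
    have c1 : Commute (gen Γ a) (pr Γ (σ.erase a)) :=
      comm_pr fun t ht n => cσ m (Finset.mem_of_mem_erase ht) n
    have e2 : sw (hp φ x a) (φ x * pr Γ (σ.erase a)) = sw (hp φ x a) (φ x) :=
      sw_pr (cσ.subset (by simp)) fun b hb e => (Finset.mem_erase.1 hb).1 (hw_inj e).symm
    rw [sd, e1, sw_mul_gen, hw_comm c1, ← hp, if_pos rfl, e2, sd] at s
    simp at s
  obtain ⟨z, h1, h2⟩ := H.of_pr ((Finset.subset_insert_iff_of_notMem n).1 (e ▸ hσ)) h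
  rwa [H.lab.inj (show φ y = φ z by rw [h2, ← e', mul_inv_cancel_left])]

theorem mem_hz (h : Vx c x) : a ∈ hz φ Vx L Q c ↔ a ∈ L c ∧ ¬Vert φ Q (hp φ x a) := by
  classical
  rw [hz, Finset.mem_filter]
  exact and_congr_right fun ha => ⟨fun ⟨y, k, v⟩ => H.hp_eq h k ha ▸ v, fun v => ⟨x, h, v⟩⟩

/-- a vertex at maximal distance -/
theorem far (hQ : Q.Nonempty) (c : C) : ∃ x, Vx c x ∧ Sep φ Q x = SC φ Vx Q c ∧
    ∀ a ∈ L c, Vert φ Q (hp φ x a) → hp φ x a ∈ Sep φ Q x := by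
  obtain ⟨x0, h0⟩ := H.ne c
  have f : {x | Vx c x}.Finite := by
    refine Set.Finite.of_finite_image (f := φ) (((L c).powerset.finite_toSet.image
      fun σ => φ x0 * pr Γ σ).subset ?_) H.lab.inj.injOn
    rintro _ ⟨x, hx, rfl⟩
    obtain ⟨σ, hσ, e⟩ := (mem_WT (H.cl c)).1 (H.rel c x0 x h0 hx)
    exact ⟨σ, by simpa using hσ, by simp [← e]⟩
  obtain ⟨x, hx, m⟩ := Set.exists_max_image _ (ns φ Q) f ⟨x0, h0⟩
  have k : ∀ a ∈ L c, Vert φ Q (hp φ x a) → hp φ x a ∈ Sep φ Q x := fun a ha v => by_contra fun n => by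
    obtain ⟨y, h1, h2⟩ := H.mv c x a hx ha
    have := ns_desc H.lab hQ (H.lab.symm _ _ _ h1) (hp_st H.lab h1 ▸ v.sep n (sd_st_ne H.lab h1))
    have := m y h2
    omega
  refine ⟨x, hx, Set.Subset.antisymm (fun r hr => ⟨x, hx, hr⟩) ?_, k⟩
  rintro r ⟨y, hy, hr⟩
  by_cases e : ∀ a ∈ L c, r ≠ hp φ x a
  · exact Sep.congr hr (H.sd_eq hx hy e).symm
  · simp only [not_forall, not_not] at e
    obtain ⟨a, ha, rfl⟩ := e
    exact k a ha (Sep.vert hr)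

theorem sc_finite (hQ : Q.Nonempty) (c : C) : (SC φ Vx Q c).Finite :=
  (H.far hQ c).elim fun x h => h.2.1 ▸ sep_finite H.lab hQ x

theorem hz_erase (h : ∀ x, Vx c x → Vx c' x) (e : L c = (L c').erase a) :
    hz φ Vx L Q c = (hz φ Vx L Q c').erase a := by
  obtain ⟨x, hx⟩ := H.ne c
  ext b
  rw [Finset.mem_erase, H.mem_hz hx, H.mem_hz (h x hx), e, Finset.mem_erase, and_assoc]

theorem lev_face (hQ : Q.Nonempty) (h : ∀ x, Vx c x → Vx c' x) (e : L c = (L c').erase a) :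
    lev φ Vx L Q c < lev φ Vx L Q c' ∨ lev φ Vx L Q c = lev φ Vx L Q c' ∧
      SC φ Vx Q c = SC φ Vx Q c' ∧ a ∉ hz φ Vx L Q c' := by
  have s : SC φ Vx Q c ⊆ SC φ Vx Q c' := fun r ⟨x, hx, k⟩ => ⟨x, h x hx, k⟩
  have l1 := Set.ncard_le_ncard s (H.sc_finite hQ c')
  have l2 := Finset.card_erase_le (s := hz φ Vx L Q c') (a := a)
  rw [or_iff_not_imp_left, lev, lev, H.hz_erase h e]
  intro n
  refine ⟨by omega, Set.eq_of_subset_of_ncard_le s (by omega) (H.sc_finite hQ c'), fun m => ?_⟩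
  have := Finset.card_erase_lt_of_mem m
  omega

theorem lev_eq (h : ∀ x, Vx c x → Vx c' x) (e : L c = (L c').erase a) (s : SC φ Vx Q c = SC φ Vx Q c')
    (n : a ∉ hz φ Vx L Q c') : lev φ Vx L Q c = lev φ Vx L Q c' := by
  rw [lev, lev, H.hz_erase h e, s, Finset.erase_eq_of_notMem n]

/-- a cell is determined by its directions and one far vertex -/
theorem ext_far (hQ : Q.Nonempty) {c'' : C} (h : ∀ x, Vx c x → Vx c'' x) (h' : ∀ x, Vx c' x → Vx c'' x)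
    (e : L c = (L c'').erase a) (e' : L c' = (L c'').erase a) (ha : a ∈ L c'') (n : a ∉ hz φ Vx L Q c'')
    (s : SC φ Vx Q c = SC φ Vx Q c'') (s' : SC φ Vx Q c' = SC φ Vx Q c'') : c = c' := by
  obtain ⟨x, h1, h2, -⟩ := H.far hQ c
  obtain ⟨y, k1, k2, -⟩ := H.far hQ c'
  obtain ⟨z, l1, l2, l3⟩ := H.far hQ c''
  have m := l3 a ha (by_contra fun v => n ((H.mem_hz l1).2 ⟨ha, v⟩))
  rw [H.hp_eq (h x h1) l1 ha, l2] at m
  have m1 := (h2.trans s).symm ▸ m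
  have m2 := (k2.trans s').symm ▸ m
  refine H.ext c c' y (H.vx_facet h1 (h x h1) (by rw [e, Finset.insert_erase ha]) (h' y k1) ?_) k1
    (e.trans e'.symm)
  exact ne_trans (m2 _ hQ.some_mem) (m1 _ hQ.some_mem).symm

variable {δ : (C →₀ ℤ) →ₗ[ℤ] (C →₀ ℤ)} (hδ : ∀ b c, δ b c = linearCombination ℤ b (bd c))
include hδ

omit H in
theorem de_single (c c' : C) : δ (single c 1) c' = bd c' c := by
  rw [hδ, linearCombination_apply, Finsupp.sum, Finset.sum_eq_single c]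
  · simp
  · intro b _ e; simp [e]
  · intro e; simp [notMem_support_iff.1 e]

theorem cl_fu (N : Set P) : Cl δ (Sp (Fu Vx N)ᶜ) := cl_Sp fun c hc c' h k =>
  hc fun x hx => k x ((H.fac c' c (de_single hδ c c' ▸ h)).1 x hx)

/-- **collapse** -/
theorem collapse' [Nonempty A] (hdd : ∀ b, δ (δ b) = 0) (hQ : Cvx φ Q)
    (hw : WellFounded fun c' c => c' ∈ Fu Vx N ∧ lev φ Vx L Q c < lev φ Vx L Q c' ∧ ∃ x, Vx c x ∧ Vx c' x)
    (hN : ∀ x ∈ N, ∀ a y, st x a y → hp φ x a ∈ Sep φ Q x → y ∈ N) :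
    Acyc δ (Sp (Fu Vx Q)ᶜ) (Sp (Fu Vx N)ᶜ) := by
  classical
  let l0 : Set (W Γ) → A := fun B => Classical.epsilon fun a => ∃ x, Sep φ Q x = B ∧ hp φ x a ∈ B
  have spec : ∀ c x, c ∉ Fu Vx Q → Sep φ Q x = SC φ Vx Q c → hp φ x (l0 (SC φ Vx Q c)) ∈ Sep φ Q x := by
    intro c x hc e
    simp only [Fu, Set.mem_ofPred_eq, not_forall] at hc
    obtain ⟨y, hy, n⟩ := hc
    obtain ⟨r, hr⟩ := hQ.sep y n
    obtain ⟨a, _, -, k⟩ := exists_desc H.lab hQ.ne (x := x) ⟨r, by rw [e]; exact ⟨y, hy, hr⟩⟩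
    obtain ⟨z, h1, h2⟩ := Classical.epsilon_spec
      (p := fun a => ∃ x, Sep φ Q x = SC φ Vx Q c ∧ hp φ x a ∈ SC φ Vx Q c) ⟨a, x, e, e ▸ k⟩
    rw [hp_par H.lab hQ.ne (h1.trans e.symm) (by rw [h1]; exact h2), e]
    exact h2
  have : IsWellFounded C _ := ⟨hw⟩
  intro b hb hd
  obtain ⟨α, hα, h1⟩ := clear (δ := δ) (P := Sp (Fu Vx Q)ᶜ)
    (B := {c | c ∈ Fu Vx N ∧ c ∉ Fu Vx Q ∧ l0 (SC φ Vx Q c) ∈ L c})
    (IsWellFounded.rank fun c' c => c' ∈ Fu Vx N ∧ lev φ Vx L Q c < lev φ Vx L Q c' ∧ ∃ x, Vx c x ∧ Vx c' x)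
    (fun c ⟨c1, c2, c3⟩ => by
      obtain ⟨x, x1, x2, -⟩ := H.far hQ.ne c
      have d := spec c x c2 x2
      obtain ⟨y, y1, y2, y3⟩ := H.del c x _ x1 c3
      have f := (H.fac c y (left_ne_zero_of_mul_eq_one y3)).1
      have s : SC φ Vx Q y = SC φ Vx Q c :=
        Set.Subset.antisymm (fun r ⟨x, hx, k⟩ => ⟨x, f x hx, k⟩) fun r hr => ⟨x, y1, x2 ▸ hr⟩
      have l := H.lev_eq f y2 s fun k => ((H.mem_hz x1).1 k).2 (Sep.vert d)
      refine ⟨single y 1, single_mem (U := (Fu Vx Q)ᶜ) (fun k => d x (k x y1) rfl) 1, ?_, fun c' ⟨k1, k2, k3⟩ k => ?_⟩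
      · rw [de_single hδ]; exact mul_self_eq_one_iff.1 y3
      · rw [de_single hδ] at k
        obtain ⟨f', a, ha, e⟩ := H.fac c' y k
        rcases H.lev_face hQ.ne f' e with g | ⟨-, g, -⟩
        · exact .inr (IsWellFounded.rank_lt_of_rel ⟨k1, l ▸ g, x, x1, f' x y1⟩)
        · rw [← g, s] at k3
          have : l0 (SC φ Vx Q c) = a := by_contra fun n =>
            Finset.notMem_erase _ _ (y2 ▸ e ▸ Finset.mem_erase.2 ⟨n, k3⟩)
          refine .inl (H.ext c' c x (f' x y1) x1 ?_)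
          rw [← Finset.insert_erase ha, ← e, y2, ← this, Finset.insert_erase c3]) b
  refine ⟨α, hα, rs_eq_zero.1 ?_⟩
  have hb' : b - δ α ∈ Sp (Fu Vx Q)ᶜ := Submodule.sub_mem _ hb (H.cl_fu hδ Q α hα)
  have hd' : ∀ c ∈ Fu Vx N, δ (rs (Fu Vx N) (b - δ α)) c = 0 := fun c hc => by
    have e1 : δ (rs (Fu Vx N)ᶜ (b - δ α)) c = 0 := by_contra fun n =>
      mem_Sp.1 (H.cl_fu hδ N _ (rs_mem _ _)) c n hc
    have e2 : δ (b - δ α) c = 0 := by
      rw [map_sub, hdd, sub_zero]; exact by_contra fun n => mem_Sp.1 hd c n hc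
    rwa [← rs_add_compl (Fu Vx N) (b - δ α), map_add, Finsupp.add_apply, e1, add_zero] at e2
  refine vanish (U := {c | c ∈ Fu Vx N ∧ c ∉ Fu Vx Q ∧ l0 (SC φ Vx Q c) ∉ L c}) (lev φ Vx L Q)
    (mem_Sp.2 fun c hc => ?_) fun c ⟨c1, c2, c3⟩ => ?_
  · have k : c ∈ Fu Vx N := mem_Sp.1 (rs_mem _ _) c hc
    rw [rs_of_mem _ k] at hc
    have k' := mem_Sp.1 hb' c hc
    exact ⟨k, k', fun n => mem_Sp.1 h1 c hc ⟨k, k', n⟩⟩
  · obtain ⟨x, x1, x2, x3⟩ := H.far hQ.ne c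
    have d := spec c x c2 x2
    set a := l0 (SC φ Vx Q c) with ha
    obtain ⟨x', s1⟩ := exists_st H.lab (d _ hQ.ne.some_mem)
    obtain ⟨c', p1, p2⟩ := H.add c x a x' x1 s1 c3 fun s hs => by
      by_cases v : Vert φ Q (hp φ x s)
      · exact adj_of_desc hQ.ne d (x3 s hs v) fun e => c3 (e ▸ hs)
      · exact adj_of_hor d v
    have ma : a ∈ L c' := p2 ▸ Finset.mem_insert_self _ _
    have e0 : L c = (L c').erase a := by rw [p2, Finset.erase_insert c3]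
    obtain ⟨y, y1, y2, y3⟩ := H.del c' x a p1 ma
    obtain rfl : c = y := H.ext c y x x1 y1 (e0.trans y2.symm)
    have f := (H.fac c' c (left_ne_zero_of_mul_eq_one y3)).1
    have up : ∀ z, Vx c' z → Vx c z ∨ ∃ z', Vx c z' ∧ st z' a z ∧ hp φ z' a ∈ Sep φ Q z' := fun z hz => by
      by_cases e : sd φ (hp φ x a) z = sd φ (hp φ x a) x
      · exact .inl (H.vx_facet x1 p1 p2 hz e)
      · obtain ⟨z', q1, q2⟩ := H.mv c' z a hz ma
        have e' : sd φ (hp φ x a) z' = sd φ (hp φ x a) x :=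
          ne_trans (H.hp_eq p1 hz ma ▸ (sd_st_ne H.lab q1).symm) e
        exact .inr ⟨z', H.vx_facet x1 p1 p2 q2 e', H.lab.symm _ _ _ q1,
          (H.hp_eq p1 q2 ma).symm ▸ Sep.congr d e'⟩
    have s : SC φ Vx Q c = SC φ Vx Q c' :=
      Set.Subset.antisymm (fun r ⟨x, hx, k⟩ => ⟨x, f x hx, k⟩) fun r ⟨z, hz, k⟩ => (up z hz).elim
        (fun q => ⟨z, q, k⟩) fun ⟨z', q1, q2, q3⟩ => ⟨z', q1, sep_desc_mono H.lab hQ.ne subset_rfl q2 q3 k⟩
    have nh : a ∉ hz φ Vx L Q c' := fun k => ((H.mem_hz p1).1 k).2 (Sep.vert d)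
    have l := H.lev_eq f e0 s nh
    have mN : c' ∈ Fu Vx N := fun z hz => (up z hz).elim (c1 z)
      fun ⟨z', q1, q2, q3⟩ => hN z' (c1 z' q1) a z q2 q3
    refine ⟨bd c', (hδ _ _).symm.trans (hd' c' mN), mul_self_eq_one_iff.1 y3,
      fun y' ⟨k1, k2, k3⟩ k => ?_⟩
    obtain ⟨f', a', ha', e⟩ := H.fac c' y' k
    rcases H.lev_face hQ.ne f' e with g | ⟨-, g, -⟩
    · exact .inr (by omega)
    · rw [g, ← s, ← ha] at k3
      obtain rfl : a = a' := by_contra fun n => k3 (e ▸ Finset.mem_erase.2 ⟨n, ma⟩)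
      exact .inl (H.ext_far hQ.ne f' f e e0 ma nh g s)

theorem collapse [Nonempty A] (hdd : ∀ b, δ (δ b) = 0) (hQ : Cvx φ Q) {m B : ℕ} (hm : ∀ c, (L c).card ≤ m)
    (hB : ∀ x ∈ N, ns φ Q x ≤ B) (hN : ∀ x ∈ N, ∀ a y, st x a y → hp φ x a ∈ Sep φ Q x → y ∈ N) :
    Acyc δ (Sp (Fu Vx Q)ᶜ) (Sp (Fu Vx N)ᶜ) := by
  classical
  refine H.collapse' hδ hdd hQ (Subrelation.wf (r := InvImage (· < ·) fun c => B + m - lev φ Vx L Q c)
    (fun {c' c} ⟨h1, h2, _⟩ => ?_) (InvImage.wf _ Nat.lt_wfRel.wf)) hN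
  obtain ⟨x, k1, k2, -⟩ := H.far hQ.ne c'
  have : lev φ Vx L Q c' ≤ B + m := by
    rw [lev, ← k2]
    exact add_le_add (hB x (h1 x k1)) ((Finset.card_filter_le _ _).trans (hm c'))
  show _ - _ < _ - _
  omega

omit hδ in
theorem dl_le {m : ℕ} (hm : ∀ c, (L c).card ≤ m) (h : Vx c x) (k : Vx c y) : dl φ x y ≤ m := by
  obtain ⟨σ, hσ, e⟩ := (mem_WT (H.cl c)).1 (H.rel c x y h k)
  rw [dl, e, len_pr ((H.cl c).subset (Finset.coe_subset.2 hσ))]
  exact (Finset.card_le_card hσ).trans (hm c)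

/-- **controlled collapse**: the descent closure of a proper set collapses -/
theorem collapse_cl' [Nonempty A] (hdd : ∀ b, δ (δ b) = 0) (hQ : Cvx φ Q) {m : ℕ} (hm : ∀ c, (L c).card ≤ m)
    (hf : ∀ y, {x ∈ N | dl φ x y ≤ (m + 1) * ns φ Q x + (m * m + m)}.Finite) {N' : Set P}
    (hs : ∀ y ∈ N', ∃ x ∈ N, dl φ x y + ns φ Q y ≤ ns φ Q x)
    (hN : ∀ x ∈ N', ∀ a y, st x a y → hp φ x a ∈ Sep φ Q x → y ∈ N') :
    Acyc δ (Sp (Fu Vx Q)ᶜ) (Sp (Fu Vx N')ᶜ) := by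
  classical
  refine H.collapse' hδ hdd hQ ?_ hN
  · rw [wellFounded_iff_isEmpty_descending_chain]
    refine ⟨fun ⟨f, h⟩ => ?_⟩
    choose u u1 u2 using fun i => (h i).2.2
    have l : ∀ i, i ≤ lev φ Vx L Q (f i) := fun i => by
      induction i with
      | zero => exact Nat.zero_le _
      | succ i ih => exact ih.trans_lt (h i).2.1
    have d : ∀ i, dl φ (u i) (u 0) ≤ m * i := fun i => by
      induction i with
      | zero => simp [dl_self]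
      | succ i ih =>
        have := dl_tri (φ := φ) (u (i + 1)) (u i) (u 0)
        have := H.dl_le hm (u1 (i + 1)) (u2 i)
        rw [mul_add]; omega
    obtain ⟨B, hB⟩ := ((hf (u 0)).image (ns φ Q)).bddAbove
    obtain ⟨x, k1, k2, -⟩ := H.far hQ.ne (f (B + m + 1))
    obtain ⟨z, hz, k3⟩ := hs x ((h (B + m)).1 x k1)
    have k4 : lev φ Vx L Q (f (B + m + 1)) ≤ ns φ Q x + m := by
      rw [lev, ← k2]
      exact Nat.add_le_add_left ((Finset.card_filter_le _ _).trans (hm _)) _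
    have k5 := l (B + m + 1)
    have k6 := d (B + m)
    have k7 := H.dl_le hm k1 (u2 (B + m))
    have k8 := dl_tri (φ := φ) z x (u 0)
    have k9 := dl_tri (φ := φ) x (u (B + m)) (u 0)
    have k10 : m * (B + m) ≤ m * (ns φ Q z + m) := Nat.mul_le_mul_left m (by omega)
    have := hB ⟨z, ⟨hz, by nlinarith⟩, rfl⟩
    omega

theorem collapse_cl [Nonempty A] (hdd : ∀ b, δ (δ b) = 0) (hQ : Cvx φ Q) {m : ℕ} (hm : ∀ c, (L c).card ≤ m)
    (hf : ∀ y, {x ∈ N | dl φ x y ≤ (m + 1) * ns φ Q x + (m * m + m)}.Finite) :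
    Acyc δ (Sp (Fu Vx Q)ᶜ) (Sp (Fu Vx {y | ∃ x ∈ N, dl φ x y + ns φ Q y ≤ ns φ Q x})ᶜ) := by
  refine H.collapse_cl' hδ hdd hQ hm hf (fun _ h => h) ?_
  rintro y ⟨x, hx, k⟩ a z h1 h2
  have := ns_desc H.lab hQ.ne h1 h2
  have := dl_tri (φ := φ) x y z
  have := H.lab.dl_st h1
  exact ⟨x, hx, by omega⟩

end Cb

end Crest.Agent.N255.Fa
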