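import Crest.Agent.N255.Gs.Cell
import Crest.Agent.N255.Ce.Ug
import Crest.Agent.N255.Ch.Abs

/-!
# Row 255 (helper44): change of coefficients for compactly supported cochains on a set of cells
-/

set_option autoImplicit false
open Finsupp

noncomputable section

namespace Crest.Agent.N255.Fa

open Gc Gs Ce Ch

section lift
variable {A B C : Type}

theorem exists_lift_on {d : (C →₀ ℤ) →ₗ[ℤ] (B →₀ ℤ)} {z : (A →₀ ℤ) →ₗ[ℤ] (B →₀ ℤ)} {VA : Set A}
    {VC : Set C} (h : ∀ c ∈ Sp VA, ∃ b ∈ Sp VC, d b = z c) : ∃ F : (A →₀ ℤ) →ₗ[ℤ] (C →₀ ℤ),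
      (∀ c, F c ∈ Sp VC) ∧ ∀ c ∈ Sp VA, d (F c) = z c := by
  have h1 : ∀ a, ∃ b ∈ Sp VC, a ∈ VA → d b = z (single a 1) := fun a => by
    by_cases ha : a ∈ VA
    · obtain ⟨b, h1, h2⟩ := h _ (single_mem_supported ℤ 1 ha)
      exact ⟨b, h1, fun _ => h2⟩
    · exact ⟨0, Submodule.zero_mem _, fun e => (ha e).elim⟩
  choose b hb hb' using h1
  refine ⟨linearCombination ℤ b, fun c => ?_, fun c hc => ?_⟩
  · rw [linearCombination_apply]
    exact Submodule.sum_mem _ fun a _ => Submodule.smul_mem _ _ (hb a)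
  · rw [Sp, supported_eq_span_single] at hc
    induction hc using Submodule.span_induction with
    | mem x hx =>
      obtain ⟨a, ha, rfl⟩ := hx
      rw [linearCombination_single, one_smul, hb' a ha]
    | zero => simp
    | add x y _ _ hx hy => simp only [map_add, hx, hy]
    | smul r x _ hx => simp only [map_smul, hx]

variable {k : Type} [CommRing k]

theorem rd_mem {V : Set A} {c : A →₀ ℤ} (h : c ∈ Sp V) : rd k c ∈ supported k k V :=
  (mem_supported' k _).2 fun x hx => by rw [rd_apply, (mem_supported' ℤ _).1 h x hx, Int.cast_zero]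

theorem bc_mem {F : (A →₀ ℤ) →ₗ[ℤ] (B →₀ ℤ)} {V : Set B} (h : ∀ c, F c ∈ Sp V) (c : A →₀ k) :
    bc k F c ∈ supported k k V := by
  rw [bc, linearCombination_apply]
  exact Submodule.sum_mem _ fun a _ => Submodule.smul_mem _ _ (rd_mem (h _))

theorem ext_rd_on {W : Type} [AddCommGroup W] [Module k W] {S T : (A →₀ k) →ₗ[k] W} {V : Set A}
    (h : ∀ c ∈ Sp V, S (rd k c) = T (rd k c)) {c : A →₀ k} (hc : c ∈ supported k k V) :
    S c = T c := by
  rw [supported_eq_span_single] at hc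
  induction hc using Submodule.span_induction with
  | mem x hx =>
    obtain ⟨a, ha, rfl⟩ := hx
    simpa [rd_single] using h _ (single_mem_supported ℤ 1 ha)
  | zero => simp
  | add x y _ _ hx hy => simp only [map_add, hx, hy]
  | smul r x _ hx => simp only [map_smul, hx]

theorem lc_rd (f : A → ℤ) (c : A →₀ ℤ) :
    linearCombination k (fun a => (f a : k)) (rd k c) = (linearCombination ℤ f c : k) := by
  induction c using Finsupp.induction_linear with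
  | zero => simp
  | add a b ha hb => simp only [map_add, ha, hb, Int.cast_add]
  | single a r => simp [rd_single]

end lift

variable {G C : Type} [Group G] [MulAction G C] {U : UG G C}

/-- the cells of dimension `n` in `V` -/
def gV (U : UG G C) (V : Set C) (n : ℕ) : Set (U.X n) := {x | x.1 ∈ V}

/-- `H_c (V) = ℤ [4]`, detected by the orientation sum -/
structure Qd (U : UG G C) (or : C → ℤ) (V : Set C) : Prop where
  h4 : ∀ x, U.dim x ≤ 4
  hd : ∀ x, or x ≠ 0 → U.dim x = 4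
  st : ∀ φ, linearCombination ℤ or (U.de φ) = 0
  cl : Cl U.de (Sp V)
  ex : Ex U.de (linearCombination ℤ or) (Sp V)
  top : Top U.de (linearCombination ℤ or) (Sp V)

variable {or : C → ℤ} {V : Set C}

theorem ι_mem {n : ℕ} {a : U.X n →₀ ℤ} (h : a ∈ Sp (gV U V n)) : U.ι n a ∈ Sp V :=
  (mem_supported' ℤ _).2 fun x hx => by
    by_contra e
    exact e ((U.ι_val a ⟨x, U.ι_ne a e⟩).trans ((mem_supported' ℤ _).1 h _ hx))

theorem π_mem (n : ℕ) {b : C →₀ ℤ} (h : b ∈ Sp V) : U.π n b ∈ Sp (gV U V n) :=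
  (mem_supported' ℤ _).2 fun x hx => (mem_supported' ℤ _).1 h x.1 hx

namespace Qd

theorem de_mem (h : Qd U or V) (n : ℕ) {a : U.X n →₀ ℤ} (ha : a ∈ Sp (gV U V n)) :
    U.fr.de n a ∈ Sp (gV U V (n + 1)) := by
  rw [U.fr_de]; exact π_mem _ (h.cl _ (ι_mem ha))

theorem or_ι (h : Qd U or V) {n : ℕ} (hn : n ≠ 4) (φ : U.X n →₀ ℤ) :
    linearCombination ℤ or (U.ι n φ) = 0 :=
  lc_eq_zero fun x hx => by_contra fun e => hn ((U.ι_ne _ hx).symm.trans (h.hd x e))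

theorem eq_zero (h : Qd U or V) {n : ℕ} (hn : 4 < n) {M : Type} [Zero M] (a : U.X n →₀ M) : a = 0 :=
  Finsupp.ext fun y => by
    have := h.h4 y.1
    have := y.2
    omega

theorem exZ (h : Qd U or V) (n : ℕ) {a : U.X (n + 1) →₀ ℤ} (ha : a ∈ Sp (gV U V (n + 1)))
    (h0 : U.fr.de (n + 1) a = 0) (hs : linearCombination ℤ or (U.ι (n + 1) a) = 0) :
    ∃ b ∈ Sp (gV U V n), U.fr.de n b = a := by
  obtain ⟨ψ, h1, e⟩ := h.ex _ (ι_mem ha) (by rw [← U.ι_de, h0, map_zero]) hs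
  exact ⟨_, π_mem n h1, U.de_π n e⟩

theorem zeroZ (h : Qd U or V) {a : U.X 0 →₀ ℤ} (ha : a ∈ Sp (gV U V 0)) (h0 : U.fr.de 0 a = 0) :
    a = 0 := by
  obtain ⟨ψ, -, e⟩ := h.ex _ (ι_mem ha) (by rw [← U.ι_de, h0, map_zero]) (h.or_ι (by omega) a)
  ext x
  rw [← U.ι_val a x, ← e, U.de_apply]
  exact lc_eq_zero fun y hy => by
    have := U.dim_bd _ _ hy
    have := x.2
    omega

theorem topZ (h : Qd U or V) : ∃ a ∈ Sp (gV U V 4),
    linearCombination ℤ (fun x : U.X 4 => or x.1) a = 1 := by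
  obtain ⟨b, h1, -, h2⟩ := h.top
  refine ⟨_, π_mem 4 h1, ?_⟩
  rw [← U.lc_ι, ← h2, ← sub_eq_zero, ← map_sub]
  refine lc_eq_zero fun x hx => by_contra fun e => hx ?_
  rw [Finsupp.sub_apply, U.ι_π _ (h.hd x e), sub_self]

/-- one step of a contraction -/
def Ct (U : UG G C) (V : Set C) (n : ℕ) (F : (U.X (n + 1) →₀ ℤ) →ₗ[ℤ] (U.X n →₀ ℤ)) : Prop :=
  (∀ c, F c ∈ Sp (gV U V n)) ∧ ∀ c ∈ Sp (gV U V n), U.fr.de n (F (U.fr.de n c)) = U.fr.de n c

theorem ct3 (h : Qd U or V) {a0 : U.X 4 →₀ ℤ} (h0 : a0 ∈ Sp (gV U V 4))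
    (h1 : linearCombination ℤ (fun x : U.X 4 => or x.1) a0 = 1) : ∃ F, Ct U V 3 F ∧
      ∀ c ∈ Sp (gV U V 4), U.fr.de 3 (F c) =
        c - linearCombination ℤ (fun x : U.X 4 => or x.1) c • a0 := by
  obtain ⟨F, f1, f2⟩ := exists_lift_on (d := U.fr.de 3) (VA := gV U V 4) (VC := gV U V 3)
    (z := LinearMap.id - (linearCombination ℤ fun x : U.X 4 => or x.1).smulRight a0) fun c hc =>
      h.exZ 3 (Submodule.sub_mem _ hc (Submodule.smul_mem _ _ h0)) (h.eq_zero (by omega) _) (by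
        rw [U.lc_ι]
        simp [h1])
  refine ⟨F, ⟨f1, fun c hc => ?_⟩, f2⟩
  rw [f2 _ (h.de_mem 3 hc), LinearMap.sub_apply, LinearMap.smulRight_apply, ← U.lc_ι, U.ι_de, h.st,
    zero_smul, sub_zero, LinearMap.id_apply]

theorem ct_step (h : Qd U or V) {n : ℕ} (hn : n + 1 ≠ 4) {F'} (h' : Ct U V (n + 1) F') :
    ∃ F, Ct U V n F ∧ ∀ c ∈ Sp (gV U V (n + 1)), U.fr.de n (F c) = c - F' (U.fr.de (n + 1) c) := by
  obtain ⟨F, f1, f2⟩ := exists_lift_on (d := U.fr.de n) (VA := gV U V (n + 1)) (VC := gV U V n)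
    (z := LinearMap.id - F' ∘ₗ U.fr.de (n + 1)) fun c hc =>
      h.exZ n (Submodule.sub_mem _ hc (h'.1 _)) (by simp [h'.2 c hc]) (h.or_ι hn _)
  refine ⟨F, ⟨f1, fun c hc => ?_⟩, f2⟩
  rw [f2 _ (h.de_mem n hc)]
  simp [U.fr.de_de]

theorem ct (h : Qd U or V) (n : ℕ) : ∃ F, Ct U V n F := by
  obtain ⟨a0, h0, h1⟩ := h.topZ
  obtain ⟨F3, c3, -⟩ := h.ct3 h0 h1
  obtain ⟨F2, c2, -⟩ := h.ct_step (by omega) c3
  obtain ⟨F1, c1, -⟩ := h.ct_step (by omega) c2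
  obtain ⟨F0, c0, -⟩ := h.ct_step (by omega) c1
  match n with
  | 0 => exact ⟨F0, c0⟩
  | 1 => exact ⟨F1, c1⟩
  | 2 => exact ⟨F2, c2⟩
  | 3 => exact ⟨F3, c3⟩
  | n + 4 => exact ⟨0, fun _ => Submodule.zero_mem _, fun c _ =>
      (h.eq_zero (by omega) _).trans (h.eq_zero (by omega) _).symm⟩

variable (k : Type) [CommRing k]

/-- **cocycles of degree `≠ 4` supported in `V` are coboundaries** -/
theorem kill (h : Qd U or V) {n : ℕ} (hn : n + 1 ≠ 4) {a : U.X (n + 1) →₀ k}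
    (ha : a ∈ supported k k (gV U V (n + 1))) (h0 : bc k (U.fr.de (n + 1)) a = 0) :
    ∃ b ∈ supported k k (gV U V n), bc k (U.fr.de n) b = a := by
  obtain ⟨F', c'⟩ := h.ct (n + 1)
  obtain ⟨F, c, e⟩ := h.ct_step hn c'
  refine ⟨bc k F a, bc_mem c.1 a, ?_⟩
  have := ext_rd_on (S := bc k (U.fr.de n) ∘ₗ bc k F)
    (T := LinearMap.id - bc k F' ∘ₗ bc k (U.fr.de (n + 1))) (fun c hc => by simp [bc_rd, e c hc]) ha
  simpa [h0] using this

theorem zero (h : Qd U or V) {a : U.X 0 →₀ k} (ha : a ∈ supported k k (gV U V 0))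
    (h0 : bc k (U.fr.de 0) a = 0) : a = 0 := by
  obtain ⟨F, c⟩ := h.ct 0
  have e : ∀ c' ∈ Sp (gV U V 0), c' = F (U.fr.de 0 c') := fun c' hc =>
    sub_eq_zero.1 (h.zeroZ (Submodule.sub_mem _ hc (c.1 _)) (by rw [map_sub, c.2 c' hc, sub_self]))
  have := ext_rd_on (S := LinearMap.id) (T := bc k F ∘ₗ bc k (U.fr.de 0))
    (fun c' hc => by simp [bc_rd, ← e c' hc]) ha
  simpa [h0] using this

/-- **degree four: rank one** -/
theorem top4 (h : Qd U or V) {a0 : U.X 4 →₀ ℤ} (h0 : a0 ∈ Sp (gV U V 4))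
    (h1 : linearCombination ℤ (fun x : U.X 4 => or x.1) a0 = 1) {a : U.X 4 →₀ k}
    (ha : a ∈ supported k k (gV U V 4)) : ∃ b ∈ supported k k (gV U V 3),
      a = linearCombination k (fun x : U.X 4 => (or x.1 : k)) a • rd k a0 + bc k (U.fr.de 3) b := by
  obtain ⟨F, c, e⟩ := h.ct3 h0 h1
  refine ⟨bc k F a, bc_mem c.1 a, ?_⟩
  have := ext_rd_on (S := bc k (U.fr.de 3) ∘ₗ bc k F)
    (T := LinearMap.id - (linearCombination k fun x : U.X 4 => (or x.1 : k)).smulRight (rd k a0))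
    (fun c hc => by
      simp only [LinearMap.comp_apply, bc_rd, e c hc, LinearMap.sub_apply, LinearMap.id_apply,
        LinearMap.smulRight_apply, lc_rd, map_sub, map_zsmul, Int.cast_smul_eq_zsmul]) ha
  rw [LinearMap.comp_apply] at this
  rw [this]
  simp

variable (L : Lab G U.X) {A A' : Set G}

omit [CommRing k] in
theorem _root_.Crest.Agent.N255.Fa.supp_of_W [CommRing k] {n : ℕ}
    (hA : ∀ x : U.X n, L.l n x ∈ A → x.1 ∈ V) {a : U.X n →₀ k} (ha : a ∈ (L.P n).W k A) :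
    a ∈ supported k k (gV U V n) :=
  (mem_supported' k _).2 fun x hx => by_contra fun e => hx (hA x (L.mem_W.1 ha x e))

omit [CommRing k] in
theorem _root_.Crest.Agent.N255.Fa.W_of_supp [CommRing k] {n : ℕ}
    (hA : ∀ x : U.X n, x.1 ∈ V → L.l n x ∈ A) {a : U.X n →₀ k}
    (ha : a ∈ supported k k (gV U V n)) : a ∈ (L.P n).W k A :=
  L.mem_W.2 fun x hx => hA x (by_contra fun e => hx ((mem_supported' k _).1 ha x e))

/-- the hypothesis of `hc_kill` -/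
theorem killW (h : Qd U or V) {n : ℕ} (hn : n + 1 ≠ 4)
    (hA : ∀ x : U.X (n + 1), L.l _ x ∈ A → x.1 ∈ V) (hA' : ∀ x : U.X n, x.1 ∈ V → L.l _ x ∈ A') :
    ∀ a ∈ (L.P (n + 1)).W k A, bc k (U.fr.de (n + 1)) a = 0 →
      ∃ b ∈ (L.P n).W k A', bc k (U.fr.de n) b = a := fun _ ha h0 =>
  let ⟨b, h1, h2⟩ := h.kill k hn (supp_of_W k L hA ha) h0
  ⟨b, W_of_supp k L hA' h1, h2⟩

/-- the hypothesis of `hc_rel` in degree four -/
theorem topW (h : Qd U or V) {a0 : U.X 4 →₀ ℤ} (h0 : a0 ∈ Sp (gV U V 4))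
    (h1 : linearCombination ℤ (fun x : U.X 4 => or x.1) a0 = 1)
    (hA : ∀ x : U.X 4, L.l _ x ∈ A → x.1 ∈ V) (hA' : ∀ x : U.X 3, x.1 ∈ V → L.l _ x ∈ A') :
    ∀ a ∈ (L.P 4).W k A, bc k (U.fr.de 4) a = 0 →
      ∃ a₀ ∈ (Submodule.span k {rd k a0} : Set (U.X 4 →₀ k)), ∃ b ∈ (L.P 3).W k A',
        a = a₀ + bc k (U.fr.de 3) b := fun _ ha _ =>
  let ⟨b, h2, h3⟩ := h.top4 k h0 h1 (supp_of_W k L hA ha)
  ⟨_, Submodule.smul_mem _ _ (Submodule.mem_span_singleton_self _), b, W_of_supp k L hA' h2, h3⟩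

end Qd

end Crest.Agent.N255.Fa

end
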