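import Crest.Agent.N255.Fa.Hyp
import Crest.Agent.N255.Fa.Col
import Crest.Agent.N255.Gs.Pa
import Crest.Agent.N255.Ce.Fr

/-!
# Row 255 (helper38): compactly supported cohomology of the far sets
-/

set_option autoImplicit false
set_option linter.unusedSectionVars false

noncomputable section

namespace Crest.Agent.N255.Fa

open Ra Ce Ce.Mir Ce.Mir.Cell Ch Finsupp

section abs
variable {A : Type*} [AddCommGroup A] {δ : A →ₗ[ℤ] A} {s : A →ₗ[ℤ] ℤ} {P P1 P2 : Submodule ℤ A}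

theorem acyc_inf (hδ : ∀ a, δ (δ a) = 0) (c1 : Cl δ P1) (c2 : Cl δ P2) (h1 : Acyc δ ⊤ P1) (h2 : Acyc δ ⊤ P2)
    (h : Acyc δ ⊤ (P1 ⊔ P2)) : Acyc δ ⊤ (P1 ⊓ P2) := by
  intro b _ hb
  obtain ⟨a1, -, e1⟩ := h1 b trivial hb.1
  obtain ⟨a2, -, e2⟩ := h2 b trivial hb.2
  obtain ⟨c, -, e⟩ := h (a1 - a2) trivial (by
    rw [show δ (a1 - a2) = -(b - δ a1) + (b - δ a2) by rw [map_sub]; abel]
    exact Submodule.add_mem_sup (P1.neg_mem e1) e2)
  obtain ⟨p1, q1, p2, q2, e'⟩ := Submodule.mem_sup.1 e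
  refine ⟨a1 - p1, trivial, ?_, ?_⟩
  · rw [show b - δ (a1 - p1) = b - δ a1 + δ p1 by rw [map_sub]; abel]
    exact P1.add_mem e1 (c1 _ q1)
  · have e3 : a1 - p1 = a2 + p2 + δ c := by
      rw [show a1 = p1 + p2 + a2 + δ c by rw [e']; abel]; abel
    rw [e3, map_add, map_add, hδ, add_zero, ← sub_sub]
    exact P2.sub_mem e2 (c2 _ q2)

theorem ex_of_acyc (hδ : ∀ a, δ (δ a) = 0) (e : Ex δ s ⊤) (h : Acyc δ ⊤ P) : Ex δ s P := fun b hb hd hs => by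
  obtain ⟨a, -, rfl⟩ := e b trivial hd hs
  obtain ⟨a', -, k⟩ := h a trivial hb
  exact ⟨_, k, by rw [map_sub, hδ, sub_zero]⟩

theorem top_of_acyc (hδ : ∀ a, δ (δ a) = 0) (hs : ∀ a, s (δ a) = 0) (t : Top δ s ⊤) (h : Acyc δ ⊤ P) :
    Top δ s P := by
  obtain ⟨b, -, h1, h2⟩ := t
  obtain ⟨a, -, k⟩ := h b trivial (h1 ▸ P.zero_mem)
  exact ⟨_, k, by rw [map_sub, hδ, h1, sub_zero], by rw [map_sub, hs, h2, sub_zero]⟩

end abs

variable {S K F Nd Ed : Type} [DecidableEq S] [Group F] [MulAction F Nd] [MulAction F Ed]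
  [LinearOrder K] {M : Ce.Mir S K F Nd Ed}

/-- the vertices of a cell -/
def Vx (c : M.Cell) (x : Vt M) : Prop := Has x.1 c ∧ M.tle (.inl x.2) c.c

/-- the directions of a cell -/
def Lc (c : M.Cell) : Finset (S ⊕ Ed) := c.τ.disjSum (c.c.elim (fun _ => ∅) fun e => {e})

variable {c c' : M.Cell} {x y : Vt M} {s : S} {e : Ed}

theorem inl_Lc : Sum.inl s ∈ Lc c ↔ s ∈ c.τ := Finset.inl_mem_disjSum

theorem inr_Lc : Sum.inr e ∈ Lc c ↔ c.c = .inr e := by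
  rw [Lc, Finset.inr_mem_disjSum]
  rcases c.c with t | e' <;> simp [eq_comm]

theorem card_Lc (c : M.Cell) : (Lc c).card = c.dim := by
  rw [Lc, Finset.card_disjSum, Cell.dim]
  rcases c.c with t | e' <;> rfl

theorem card_Lc_le (c : M.Cell) : (Lc c).card ≤ 4 := card_Lc c ▸ c.dim_le

theorem vx_base (c : M.Cell) (b : Bool) : Vx c (c.w, M.nd b c.c) := ⟨has_self c, tle_nd _ _⟩

theorem Vx.mono (h : Vx c x) (k : c ≤ c') : Vx c' x := ⟨h.1.mono k, h.2.trans k.2.1⟩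

theorem Vx.sp (h : Vx c x) (hs : s ∈ c.τ) : s ∈ M.sp x.2 := h.2.sup (c.sub hs)

theorem Vx.smul (g : M.G) (h : Vx c x) : Vx (g • c) (g • x) := ⟨h.1.smul g, h.2.smul g.1.right⟩

theorem vx_smul_iff (g : M.G) : Vx (g • c) (g • x) ↔ Vx c x :=
  ⟨fun h => by simpa using h.smul g⁻¹, Vx.smul g⟩

theorem dev_pr {σ : Finset S} (hσ : M.Γ.IsClique (σ : Set S)) {t : Nd} (h : σ ⊆ M.sp t) (w : W M.Γ) :
    (dev M (w, t))⁻¹ * dev M (w * pr M.Γ σ, t) ∈ WT (cg M) (Sum.inl '' (σ : Set S)) := by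
  induction σ using Finset.induction_on with
  | empty => simp
  | insert a σ ha ih =>
    have k : ed M (w * pr M.Γ σ, t) (.inl a) (w * pr M.Γ σ * gen M.Γ a, t) :=
      ⟨h (Finset.mem_insert_self _ _), rfl⟩
    rw [pr_insert hσ ha, ← mul_assoc, (lab M).map _ _ _ k, ← mul_assoc]
    exact mul_mem (WT_mono (Set.image_mono (by simp))
      (ih (hσ.subset (by simp)) ((Finset.subset_insert _ _).trans h))) (gen_mem_WT ⟨a, by simp, rfl⟩)

theorem end_of_vx (h : Vx c x) (he : c.c = .inr e) : x.2 = M.src e ∨ x.2 = M.tgt e := by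
  simpa [he, tle_inr] using h.2

variable [DecidableEq Ed]

variable (M) in
/-- the cells are cubes over the labelled graph -/
theorem cb : Cb (ed M) (dev M) Vx Lc Cell.bd where
  lab := lab M
  ne c := ⟨_, vx_base c true⟩
  cl c := by
    rintro (s | e) h (s' | e') h' n
    · exact c.cl (inl_Lc.1 h) (inl_Lc.1 h') fun e => n (e ▸ rfl)
    · exact Finset.mem_inter.1 (show s ∈ M.sup (.inr e') from inr_Lc.1 h' ▸ c.sub (inl_Lc.1 h))
    · exact Finset.mem_inter.1 (show s' ∈ M.sup (.inr e) from inr_Lc.1 h ▸ c.sub (inl_Lc.1 h'))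
    · exact n (congrArg _ (Sum.inr.inj ((inr_Lc.1 h).symm.trans (inr_Lc.1 h'))))
  mv c x := by
    rintro (s | e) h ha
    · exact ⟨(x.1 * gen M.Γ s, x.2), ⟨h.sp (inl_Lc.1 ha), rfl⟩, h.1.mul (gen_mem_WT (inl_Lc.1 ha)), h.2⟩
    · have he := inr_Lc.1 ha
      rcases end_of_vx h he with k | k
      · exact ⟨(x.1, M.tgt e), ⟨rfl, .inl ⟨k, rfl⟩⟩, h.1, he ▸ tle_nd true (.inr e)⟩
      · exact ⟨(x.1, M.src e), ⟨rfl, .inr ⟨k, rfl⟩⟩, h.1, he ▸ tle_nd false (.inr e)⟩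
  rel c x y h k := by
    obtain ⟨σ, hσ, e⟩ := (mem_WT c.cl).1 (h.1.rel k.1)
    have h1 := WT_mono (B := (Lc c : Set (S ⊕ Ed))) (by rintro _ ⟨s, hs, rfl⟩; exact inl_Lc.2 (hσ hs))
      (dev_pr (c.cl.subset (Finset.coe_subset.2 hσ)) (fun s hs => h.sp (hσ hs)) x.1)
    rw [← e, mul_inv_cancel_left] at h1
    by_cases n : x.2 = y.2
    · rwa [show ((y.1, x.2) : Vt M) = y from Prod.ext rfl n] at h1
    rcases hc : c.c with t | e
    · exact absurd ((Sum.inl.inj (tle_inl.1 (hc ▸ h.2))).trans (Sum.inl.inj (tle_inl.1 (hc ▸ k.2))).symm) n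
    · have k' : ed M (y.1, x.2) (.inr e) y := ⟨rfl, by
        rcases end_of_vx h hc with a | a <;> rcases end_of_vx k hc with b | b
        exacts [absurd (a.trans b.symm) n, .inl ⟨a, b⟩, .inr ⟨a, b⟩, absurd (a.trans b.symm) n]⟩
      rw [(lab M).map _ _ _ k', ← mul_assoc]
      exact mul_mem h1 (gen_mem_WT (inr_Lc.2 hc))
  ext c c' x h k e := by
    refine h.1.ext k.1 (Finset.ext fun s => by rw [← inl_Lc, e, inl_Lc]) ?_
    rcases hc : c.c with t | a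
    · rcases hc' : c'.c with t' | a'
      · exact (tle_inl.1 (hc ▸ h.2)).symm.trans (tle_inl.1 (hc' ▸ k.2))
      · exact hc.symm.trans (inr_Lc.1 (e ▸ inr_Lc.2 hc'))
    · exact (inr_Lc.1 (e ▸ inr_Lc.2 hc)).symm
  add c x := by
    rintro (s | e) y h k n j
    · refine ⟨M.mk' x.1 (insert s c.τ) c.c (by
        rw [Finset.coe_insert]; exact c.cl.insert fun t ht _ => j (.inl t) (inl_Lc.2 ht))
        (Finset.insert_subset ?_ c.sub), ⟨has_mk' _ _ _ _ _, h.2⟩, ?_⟩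
      · rcases hc : c.c with t | e
        · exact Sum.inl.inj (tle_inl.1 (hc ▸ h.2)) ▸ k.1
        · exact Finset.mem_inter.2 (j (.inr e) (inr_Lc.2 hc))
      · ext (t | e) <;> simp [inl_Lc, inr_Lc, mk']
    · refine ⟨⟨c.w, c.τ, .inr e, c.cl, fun s hs => Finset.mem_inter.2 (j (.inl s) (inl_Lc.2 hs)), c.cor⟩,
        ⟨h.1, tle_inr.2 (.inr (k.2.imp (fun a => congrArg _ a.1) fun a => congrArg _ a.1))⟩, ?_⟩
      ext (t | e')
      · simp [inl_Lc]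
      · simp only [inr_Lc, Finset.mem_insert, Sum.inr.injEq]
        exact ⟨fun a => .inl a.symm, fun a => a.elim Eq.symm fun a => (j _ (inr_Lc.2 a)).elim⟩
  fac c y h := by
    refine ⟨fun x hx => hx.mono (le_of_bd h), ?_⟩
    rcases bd_ne h with ⟨s, hs, k⟩ | ⟨e, b, he, rfl⟩
    · refine ⟨.inl s, inl_Lc.2 hs, ?_⟩
      rcases k with rfl | rfl <;> ext (t | e) <;> simp [inl_Lc, inr_Lc, lo, hi]
    · refine ⟨.inr e, inr_Lc.2 he, ?_⟩
      ext (t | e') <;> simp [inl_Lc, inr_Lc, en, he, eq_comm]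
  del c x := by
    rintro (s | e) h ha
    · have hs := inl_Lc.1 ha
      rcases h.1.lo_or_hi hs with k | k
      · refine ⟨c.lo s, ⟨k, h.2⟩, ?_, Ex.bd_cube hs (.inl rfl)⟩
        ext (t | e) <;> simp [inl_Lc, inr_Lc, lo]
      · refine ⟨c.hi s, ⟨k, h.2⟩, ?_, Ex.bd_cube hs (.inr rfl)⟩
        ext (t | e) <;> simp [inl_Lc, inr_Lc, hi]
    · have he := inr_Lc.1 ha
      obtain ⟨b, hb⟩ : ∃ b, x.2 = M.nd b c.c := by
        rw [he]; exact (end_of_vx h he).elim (fun a => ⟨false, a⟩) fun a => ⟨true, a⟩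
      refine ⟨c.en b, ⟨h.1, .inl (congrArg _ hb)⟩, ?_, Ex.bd_edge he b⟩
      ext (t | e') <;> simp [inl_Lc, inr_Lc, en, he, eq_comm]

omit [DecidableEq Ed] in
theorem Vx.dl_le (h : Vx c x) (k : Vx c y) : dl M x y ≤ 4 := by
  classical
  exact (cb M).dl_le card_Lc_le h k

omit [DecidableEq Ed] in
theorem fu_KV (τ : Finset S) : Fu Vx (KV M τ) = Z0 M τ :=
  Set.ext fun c => ⟨fun h => mem_Z0.2 fun u hu => h (u, M.nd true c.c) ⟨hu, tle_nd _ _⟩,
    fun h x hx => mem_Z0.1 h x.1 hx.1⟩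

omit [DecidableEq Ed]
variable [Finite K] (H : M.Cham) {σ : Finset S} {A A' : Set (Vt M)}

theorem cl_fu (A : Set (Vt M)) : Cl M.ug.de (Sp (Fu Vx A)ᶜ) := by
  classical
  exact (cb M).cl_fu M.ug.de_apply A

theorem oc_st (φ : M.Cell →₀ ℤ) : linearCombination ℤ H.oc (M.ug.de φ) = 0 :=
  LinearMap.congr_fun (show (linearCombination ℤ H.oc ∘ₗ M.ug.de : (M.Cell →₀ ℤ) →ₗ[ℤ] ℤ) = 0 from
    Finsupp.lhom_ext' fun x => LinearMap.ext_ring (H.oc_de M.ug.de_apply x)) φ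

theorem ex_top : Ex M.ug.de (linearCombination ℤ H.oc) ⊤ := fun b _ h k =>
  (H.coex M.ug.de_apply M.ug.de_de b h k).imp fun _ e => ⟨trivial, e⟩

theorem top_top : Top M.ug.de (linearCombination ℤ H.oc) ⊤ := by
  obtain ⟨a, ha⟩ := H.oc_unit
  refine ⟨single a 1, trivial, Finsupp.ext fun y => ?_, by simp [ha]⟩
  rw [M.ug.de_single]
  by_contra n
  have := dim_bd n
  have := H.oc_dim a (by omega)
  have := y.dim_le
  omega

theorem qd_of_acyc {V : Set M.Cell} (c : Cl M.ug.de (Sp V)) (h : Acyc M.ug.de ⊤ (Sp V)) : Qd M.ug H.oc V :=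
  ⟨dim_le, H.oc_dim, oc_st H, c, ex_of_acyc M.ug.de_de (ex_top H) h,
    top_of_acyc M.ug.de_de (oc_st H) (top_top H) h⟩

theorem qd_all : Qd M.ug H.oc Set.univ :=
  qd_of_acyc H (fun _ _ => Sp_univ _) fun _ _ _ => ⟨0, trivial, Sp_univ _⟩

/-- the descent closure of `A` -/
def dcl (Z : Set S) (A : Set (Vt M)) : Set (Vt M) := {y | ∃ x ∈ A, dl M x y + ds M Z y ≤ ds M Z x}

theorem subset_dcl (Z : Set S) (A : Set (Vt M)) : A ⊆ dcl Z A := fun x hx => ⟨x, hx, by simp [dl_self']⟩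

include H

/-- the descent closure of a proper set has no compactly supported cohomology -/
theorem acyc_dcl (hσ : M.Γ.IsClique (σ : Set S)) (hne : σ.Nonempty) (hA : KV M σ ⊆ A)
    (hf : ∀ y, {x ∈ A | dl M x y ≤ 5 * ds M σ x + 20}.Finite) :
    Acyc M.ug.de ⊤ (Sp (Fu Vx (dcl σ A))ᶜ) := by
  classical
  have : Nonempty (S ⊕ Ed) := ⟨.inl hne.choose⟩
  refine Acyc.trans M.ug.de_de le_top (Sp_mono (Set.compl_subset_compl.2 fun c h x hx =>
    subset_dcl _ _ (hA (h x hx)))) (P2 := Sp (Fu Vx (KV M σ))ᶜ) ?_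
    ((cb M).collapse_cl M.ug.de_apply M.ug.de_de (cvx (M := M) (σ : Set S)) card_Lc_le hf)
  rw [fu_KV]
  exact acyc_quad M.ug.de_apply H M.ug.de_de hσ hne

theorem qd_dcl (hσ : M.Γ.IsClique (σ : Set S)) (hne : σ.Nonempty) (hA : KV M σ ⊆ A)
    (hf : ∀ y, {x ∈ A | dl M x y ≤ 5 * ds M σ x + 20}.Finite) : Qd M.ug H.oc (Fu Vx (dcl σ A))ᶜ :=
  qd_of_acyc H (cl_fu _) (acyc_dcl H hσ hne hA hf)

/-- **(GL)** -/
theorem gl_col (hσ : M.Γ.IsClique (σ : Set S)) (hne : σ.Nonempty) (hA : KV M σ ⊆ A)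
    (hb : ∀ x ∈ A, ∀ y, dl M x y ≤ ds M σ x → y ∈ A')
    (hf : ∀ y, {x ∈ A | dl M x y ≤ 5 * ds M σ x + 20}.Finite) :
    PEx M.ug H.oc (Fu Vx A')ᶜ (Fu Vx A)ᶜ := by
  have h : PEx M.ug H.oc (Fu Vx (dcl σ A))ᶜ (Fu Vx (dcl σ A))ᶜ := (qd_dcl H hσ hne hA hf).ex
  refine h.mono (Set.compl_subset_compl.2 fun c h x hx => ?_)
    (Set.compl_subset_compl.2 fun c h x hx => subset_dcl _ _ (h x hx))
  obtain ⟨z, k1, k2⟩ := h x hx
  exact hb z k1 x (by omega)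

/-- the union of the far sets, constant thresholds -/
theorem acyc_union (hσ : M.Γ.IsClique (σ : Set S)) (hne : σ.Nonempty) (k : S → ℕ) :
    Acyc M.ug.de ⊤ (Sp (Fu Vx {x : Vt M | ∀ a ∈ σ, n M a x ≤ k a})ᶜ) := by
  classical
  have : Nonempty (S ⊕ Ed) := ⟨.inl hne.choose⟩
  refine Acyc.trans M.ug.de_de le_top (Sp_mono (Set.compl_subset_compl.2 fun c h x hx a ha =>
    (n_le_ds ha x).trans ((ds_eq_zero.2 (h x hx)).trans_le (Nat.zero_le _))))
    (P2 := Sp (Fu Vx (KV M σ))ᶜ) ?_ ((cb M).collapse M.ug.de_apply M.ug.de_de (cvx (M := M) (σ : Set S)) card_Lc_le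
      (B := 4 * σ.sup k) (fun x hx => ds_le_of fun a ha _ => (hx a ha).trans (Finset.le_sup ha))
      fun x hx b y h1 h2 a ha => le_trans (Set.ncard_le_ncard (sep_desc_mono (lab M) (cvx (M := M) (σ : Set S)).ne
        (KV_anti (Set.singleton_subset_iff.2 ha)) h1 h2) (sep_finite (lab M) (cvx {a}).ne x)) (hx a ha))
  rw [fu_KV]
  exact acyc_quad M.ug.de_apply H M.ug.de_de hσ hne

/-- cells with a vertex of depth `> k a` behind `a`, for all `a ∈ σ` -/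
def Fr (M : Ce.Mir S K F Nd Ed) (σ : Finset S) (k : S → ℕ) : Set M.Cell :=
  {c | ∀ a ∈ σ, ∃ x, Vx c x ∧ k a < n M a x}

theorem acyc_mix (k : S → ℕ) (σ : Finset S) : ∀ τ : Finset S, M.Γ.IsClique (↑(σ ∪ τ) : Set S) →
    Cl M.ug.de (Sp (Fr M σ k ∪ (Fu Vx {x : Vt M | ∀ a ∈ τ, n M a x ≤ k a})ᶜ)) ∧
    Acyc M.ug.de ⊤ (Sp (Fr M σ k ∪ (Fu Vx {x : Vt M | ∀ a ∈ τ, n M a x ≤ k a})ᶜ)) := by
  induction σ using Finset.induction_on with
  | empty =>
    intro τ _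
    rw [Set.eq_univ_of_forall (s := Fr M ∅ k) fun _ _ h => absurd h (Finset.notMem_empty _), Set.univ_union]
    exact ⟨fun _ _ => Sp_univ _, fun _ _ _ => ⟨0, trivial, Sp_univ _⟩⟩
  | insert a σ _ ih =>
    intro τ h
    have h1 := ih τ (h.subset (by simp +contextual [Set.subset_def]))
    have h2 := ih (insert a τ) (by simpa using h)
    have h3 := acyc_union H (σ := insert a τ) (h.subset (by simp +contextual [Set.subset_def, or_imp]))
      (Finset.insert_nonempty _ _) k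
    have e1 : Fr M (insert a σ) k ∪ (Fu Vx {x : Vt M | ∀ a ∈ τ, n M a x ≤ k a})ᶜ =
        (Fr M σ k ∪ (Fu Vx {x : Vt M | ∀ a ∈ τ, n M a x ≤ k a})ᶜ) ∩
          (Fu Vx {x : Vt M | ∀ b ∈ insert a τ, n M b x ≤ k b})ᶜ := by
      ext c
      simp only [Fr, Fu, Set.mem_union, Set.mem_inter_iff, Set.mem_compl_iff, Set.mem_ofPred_eq,
        Finset.forall_mem_insert, imp_and, forall_and, not_and_or, not_forall, not_le, exists_prop]
      exact ⟨fun h => h.elim (fun h => ⟨.inl h.2, .inl h.1⟩) fun h => ⟨.inr h, .inr h⟩,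
        fun h => h.1.elim (fun p => h.2.imp (⟨·, p⟩) id) .inr⟩
    have e2 : (Fr M σ k ∪ (Fu Vx {x : Vt M | ∀ a ∈ τ, n M a x ≤ k a})ᶜ) ∪
        (Fu Vx {x : Vt M | ∀ b ∈ insert a τ, n M b x ≤ k b})ᶜ =
          Fr M σ k ∪ (Fu Vx {x : Vt M | ∀ b ∈ insert a τ, n M b x ≤ k b})ᶜ := by
      rw [Set.union_assoc]
      exact congrArg _ (Set.union_eq_right.2 (Set.compl_subset_compl.2 fun c h x hx b hb =>
        h x hx b (Finset.mem_insert_of_mem hb)))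
    rw [e1, Sp_inter]
    exact ⟨h1.1.inf (cl_fu _), acyc_inf M.ug.de_de h1.1 (cl_fu _) h1.2 h3 (by rw [← Sp_union, e2]; exact h2.2)⟩

/-- **the intersections of the far sets** -/
theorem qd_far (hσ : M.Γ.IsClique (σ : Set S)) (k : S → ℕ) : Qd M.ug H.oc (Fr M σ k) := by
  have := acyc_mix H k σ ∅ (by simpa using hσ)
  rw [Set.eq_univ_of_forall (s := Fu Vx _) fun _ _ _ _ h => absurd h (Finset.notMem_empty _),
    Set.compl_univ, Set.union_empty] at this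
  exact qd_of_acyc H this.1 this.2

theorem qd_union (hσ : M.Γ.IsClique (σ : Set S)) (hne : σ.Nonempty) (k : S → ℕ) :
    Qd M.ug H.oc (Fu Vx {x : Vt M | ∀ a ∈ σ, n M a x ≤ k a})ᶜ :=
  qd_of_acyc H (cl_fu _) (acyc_union H hσ hne k)

end Crest.Agent.N255.Fa
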