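import Crest.Agent.N255.Ce.Res
import Crest.Agent.N255.Fa.Cel
import Crest.Agent.N255.Lv.Pt
import Crest.Agent.N255.Uc.Av

/-!
# Row 255 (helper89): (PA0) unions of deep half spaces over a clique are pro-acyclic in the manifold
-/

set_option autoImplicit false
set_option linter.unusedSectionVars false

noncomputable section

namespace Crest.Agent.N255.Fa

open Set Ra Ce Ce.Mir Ce.Mir.Cell Ch Gs Tp Uc Lv
open scoped Pointwise

variable {S K F Nd Ed : Type} [DecidableEq S] [Group F] [MulAction F Nd] [MulAction F Ed]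
  {M : Mir S K F Nd Ed} {c : ℕ → ℕ} {u v : Vt M}

theorem len_le_dl (x : Vt M) (m : ℕ) : ∀ y : Vt M, dl M x y = m → len y.1 ≤ len x.1 + m := by
  induction m with
  | zero => intro y h; rw [eq_of_dl h]; exact le_rfl
  | succ m ih =>
    intro y h
    obtain ⟨b, z, h1, h2⟩ := dl_step h
    have := ih z h2
    rcases b with s | e
    · have e : z.1 = y.1 * gen M.Γ s := congrArg Prod.fst h1.2
      by_cases k : s ∈ In y.1
      · have := len_mem k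
        rw [← e] at this
        omega
      · have := len_nmem k
        rw [← e] at this
        omega
    · rw [← h1.1]; omega

theorem len_le_rad (x : Vt M) : len x.1 ≤ rad M x := by
  obtain ⟨z, h1, h2⟩ := exists_dl univ x
  have := len_le_dl z _ x h2
  rwa [mem_core.1 h1, len_eq_zero.2 rfl, zero_add] at this

theorem exists_word {Γ : SimpleGraph S} (m : ℕ) : ∀ a b : S, b ≠ a → ¬Γ.Adj a b →
    ∃ w : W Γ, len w = m ∧ Init w ⊆ {a} := by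
  induction m with
  | zero => exact fun a b _ _ => ⟨1, len_eq_zero.2 rfl, fun x h => by simp [Init] at h⟩
  | succ m ih =>
    intro a b h1 h2
    obtain ⟨w, e, hw⟩ := ih b a h1.symm fun h => h2 h.symm
    have ha : a ∉ Init w := fun h => h1 (hw h).symm
    have ha' : a ∈ Init (gen Γ a * w) := by
      have := len_nmem' ha
      change len (gen Γ a * (gen Γ a * w)) < _
      rw [← mul_assoc, gen_mul_self, one_mul]
      omega
    refine ⟨gen Γ a * w, by rw [len_nmem' ha, e], fun x hx => by_contra fun n => ?_⟩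
    have k := Init_clique _ ha' hx (Ne.symm n)
    exact h2 (hw ((Init_adj k w).1 hx) ▸ k)

/-- every generator has a non commuting partner -/
def NA (Γ : SimpleGraph S) : Prop := ∀ a, ∃ b, b ≠ a ∧ ¬Γ.Adj a b

/-- far vertices which are deep behind one wall only -/
theorem exists_deep (hN : NA M.Γ) (t : Nd) (a : S) (R : ℕ) :
    ∃ w : W M.Γ, Init w ⊆ {a} ∧ R ≤ rad M (w, t) ∧ rad M (w, t) ≤ 4 * n M a (w, t) := by
  obtain ⟨b, h1, h2⟩ := hN a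
  obtain ⟨w, e, hw⟩ := exists_word R a b h1 h2
  exact ⟨w, hw, e ▸ len_le_rad (M := M) (w, t), ds_le_of fun x _ hx => by rw [hw hx]⟩

variable (s : Slow c)

theorem exists_nu (hN : NA M.Γ) (t : Nd) (a : S) (C : ℝ) (R : ℕ) :
    ∃ w : W M.Γ, Init w ⊆ {a} ∧ R ≤ rad M (w, t) ∧ C ≤ nu M s a (w, t) := by
  obtain ⟨R1, h⟩ := s.q_top C 4
  obtain ⟨w, h1, h2, h3⟩ := exists_deep hN t a (max R R1)
  exact ⟨w, h1, (le_max_left _ _).trans h2, h _ ((le_max_right _ _).trans h2) _ h3⟩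

variable (M) in
/-- far vertices which are deep behind one of the walls of `σ` -/
def Vs (σ : Finset S) (th : S → ℝ) (R : ℕ) : Set (Vt M) :=
  {v | (∃ a ∈ σ, th a < nu M s a v) ∧ R < rad M v}

variable {s}

theorem Vs_mono {σ : Finset S} {th th' : S → ℝ} {R R' : ℕ} (h : ∀ a ∈ σ, th a ≤ th' a)
    (k : R ≤ R') : Vs M s σ th' R' ⊆ Vs M s σ th R :=
  fun _ ⟨⟨a, h1, h2⟩, h3⟩ => ⟨⟨a, h1, (h a h1).trans_lt h2⟩, k.trans_lt h3⟩

variable (M s) in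
theorem Vs_nb (C : ℝ) {ε : ℝ} (hε : 0 < ε) (D R : ℕ) : ∃ R1, R ≤ R1 ∧
    ∀ (σ : Finset S) (th th' : S → ℝ), (∀ a ∈ σ, th a ≤ C ∧ th a + ε ≤ th' a) →
      ∀ u ∈ Vs M s σ th' R1, ∀ v, dl M u v ≤ D → v ∈ Vs M s σ th R := by
  obtain ⟨R1, h⟩ := mu_slow M s C hε D
  refine ⟨R1 + R + D, by omega, fun σ th th' ht u ⟨⟨a, h1, h2⟩, h3⟩ v hv =>
    ⟨⟨a, h1, lt_of_not_ge fun k => ?_⟩, ?_⟩⟩
  · have := (h u v (by omega) hv {a}).2 (k.trans (ht a h1).1)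
    rw [← nu_eq] at this
    linarith [(ht a h1).2]
  · have := rad_lip v u
    rw [dl_comm'] at this
    omega

variable [LinearOrder K] [Finite K]

/-- cells which meet a set of vertices -/
def Stv (V : Set (Vt M)) : Set M.Cell := {x | ∃ u ∈ V, Vc u x}

theorem Stv_mono {V V' : Set (Vt M)} (h : V ⊆ V') : Stv V ⊆ Stv V' :=
  fun _ ⟨u, a, b⟩ => ⟨u, h a, b⟩

theorem cl_Stv (V : Set (Vt M)) : Cl M.ug.de (Sp (Stv V)) :=
  cl_Sp fun _ ⟨u, a, b⟩ _ h => ⟨u, a, b.mono (Cham.le_of_de M.ug.de_apply h)⟩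

/-- the descent form of (GL) -/
def GD (H : M.Cham) : Prop := ∃ m : ℕ, ∀ σ : Finset S, M.Γ.IsClique (σ : Set S) → σ.Nonempty →
  ∀ V' V : Set (Vt M), (∀ u ∈ V, ∃ a ∈ σ, a ∈ Init u.1) →
    (∀ v, v ∉ V → ∀ u, dl M v u ≤ m * ds M σ v + m → (∀ a ∈ σ, n M a u ≤ n M a v + m) → u ∉ V') →
    (∀ u, {v | v ∉ V ∧ dl M v u ≤ m * ds M σ v + m}.Finite) → PEx M.ug H.oc (Stv V') (Stv V)

variable (s) in
theorem GD.pex {H : M.Cham} (g : GD H) (C : ℝ) {ε : ℝ} (hε : 0 < ε) (R : ℕ) : ∃ R1, R ≤ R1 ∧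
    ∀ σ : Finset S, M.Γ.IsClique (σ : Set S) → σ.Nonempty → ∀ th th' : S → ℝ,
      (∀ a ∈ σ, 0 ≤ th a ∧ th a ≤ C ∧ th a + ε ≤ th' a) →
      PEx M.ug H.oc (Stv (Vs M s σ th' R1)) (Stv (Vs M s σ th R)) := by
  obtain ⟨m, g⟩ := g
  obtain ⟨R1, h1⟩ := s.q_top (C + 1) (8 * m)
  obtain ⟨R2, h2⟩ := s.q_slow C hε (m + 1)
  refine ⟨(m + 1) * (R + R1) + 2 * m + R2 + R, by omega, fun σ hσ ne th th' ht => ?_⟩
  have key : ∀ v, v ∉ Vs M s σ th R → rad M v ≤ R + R1 ∨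
      (2 * (m * ds M σ v) ≤ rad M v ∧ ∀ a ∈ σ, nu M s a v ≤ th a) := fun v hv => by
    by_cases e : rad M v ≤ R + R1
    · exact .inl e
    have k : ∀ a ∈ σ, nu M s a v ≤ th a := fun a ha =>
      le_of_not_gt fun l => hv ⟨⟨a, ha, l⟩, by omega⟩
    refine .inr ⟨?_, k⟩
    rcases Nat.eq_zero_or_pos (ds M σ v) with z | z
    · simp [z]
    obtain ⟨a, a1, a2, -⟩ := exists_max z
    have : 8 * m * n M a v < rad M v := lt_of_not_ge fun l => by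
      have := h1 _ (by omega) _ l
      have := k a a1
      rw [nu] at this
      linarith [(ht a a1).2.1]
    nlinarith
  have b1 : ∀ v : Vt M, rad M v ≤ R + R1 → m * ds M σ v ≤ m * (R + R1) := fun v h =>
    Nat.mul_le_mul_left m ((ds_le_rad _ v).trans h)
  refine g σ hσ ne _ _ (fun u ⟨⟨a, a1, a2⟩, _⟩ => ⟨a, a1, (nu_pos s).1 ((ht a a1).1.trans_lt a2)⟩)
    (fun v hv u e1 e2 ⟨⟨a, a1, a2⟩, a3⟩ => ?_) fun u => ?_
  · have l1 := rad_lip v u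
    have l2 := rad_lip u v
    rw [dl_comm'] at l2
    rcases key v hv with k | ⟨k1, k2⟩
    · have := b1 v k
      rw [add_mul] at a3
      omega
    · have := h2 (rad M u) (by omega) (n M a v) (n M a u) (rad M v)
        (s.lam_le ((e2 a a1).trans (by omega))) ((s.j_five (n := rad M u) (by omega)).trans (by omega))
        ((k2 a a1).trans (ht a a1).2.1)
      have k3 := k2 a a1
      rw [nu] at a2 k3
      linarith [(ht a a1).2.2]
  · refine (ball_fin u (m * (R + R1) + rad M u + 3 * m)).subset fun v ⟨hv, e⟩ => ?_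
    have l2 := rad_lip u v
    change dl M u v ≤ _
    rw [dl_comm'] at e
    rcases key v hv with k | ⟨k1, -⟩
    · have := b1 v k
      omega
    · omega

variable (s) in
theorem Vs_top (H : M.Cham) (hN : NA M.Γ) {σ : Finset S} (ne : σ.Nonempty) (th : S → ℝ) (R : ℕ) :
    ∃ x ∈ Stv (Vs M s σ th R), H.oc x = 1 ∨ H.oc x = -1 := by
  obtain ⟨x, hx⟩ := H.oc_unit
  obtain ⟨D, hD⟩ := orb_dense ⊤ (pt x)
  obtain ⟨a, ha⟩ := ne
  obtain ⟨R1, -, h⟩ := Vs_nb M s (th a) one_pos D R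
  obtain ⟨w, -, h2, h3⟩ := exists_nu s hN (pt x).2 a (th a + 2) (R1 + 1)
  obtain ⟨g, hg⟩ := hD (w, (pt x).2)
  obtain ⟨⟨b, b1, b2⟩, b3⟩ := h {a} th (fun a => th a + 1) (by simp) _
    ⟨⟨a, by simp, by linarith⟩, h2⟩ _ (by rw [dl_comm']; exact hg)
  rw [Finset.mem_singleton.1 b1] at b2
  exact ⟨g.1 • x, ⟨_, ⟨⟨a, ha, b2⟩, b3⟩, (vc_pt x).smul g.1⟩, .inl (by rw [H.oc_smul, hx])⟩

/-- geodesic descent towards a quadrant does not increase the distance to larger quadrants -/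
theorem ds_geo_le {Z Z' : Set S} (h : Z' ⊆ Z) (x : Vt M) (m : ℕ) : ∀ y : Vt M, dl M x y = m →
    m + ds M Z y ≤ ds M Z x → ds M Z' y ≤ ds M Z' x := by
  induction m with
  | zero => intro y e _; rw [eq_of_dl e]
  | succ m ih =>
    intro y e k
    obtain ⟨b, z, h1, h2⟩ := dl_step e
    have l1 := ds_lip Z y z
    have l2 := ds_lip Z z x
    rw [dl_ed h1] at l1
    rw [dl_comm', h2] at l2
    refine le_trans ?_ (ih z h2 (by omega))
    have h3 : hp (dev M) z b ∈ Sep (dev M) (KV M Z) z := by_contra fun n => by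
      have : ds M Z z ≤ ds M Z y := Set.ncard_le_ncard (fun r hr =>
        (sep_st (lab M) h1 hr).resolve_left fun e => n (by rwa [hp_st (lab M) h1, ← e]))
        (sep_finite (lab M) (cvx Z).ne y)
      omega
    exact Set.ncard_le_ncard (sep_desc_mono (lab M) (cvx Z).ne (KV_anti h) ((lab M).symm _ _ _ h1) h3)
      (sep_finite (lab M) (cvx Z').ne z)

theorem gd_holds (H : M.Cham) : GD H := by
  refine ⟨20, fun σ hσ ne V' V h1 h2 h3 => ?_⟩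
  have h : PEx M.ug H.oc (Fu Vx (dcl σ Vᶜ))ᶜ (Fu Vx (dcl σ Vᶜ))ᶜ := (qd_dcl H hσ ne
    (fun x hx hv => (h1 x hv).elim fun a ha => hx a ha.1 ha.2)
    fun y => (h3 y).subset fun x hx => ⟨hx.1, hx.2.trans (by omega)⟩).ex
  refine h.mono (fun x ⟨u, a, b⟩ k => ?_) fun x k => by_contra fun l =>
    k fun u hu => subset_dcl _ _ fun hv => l ⟨u, hv, hu⟩
  obtain ⟨v, e1, e2⟩ := k u b
  exact h2 v e1 u (by omega) (fun a ha => (ds_geo_le (singleton_subset_iff.2 ha) v _ u rfl e2).trans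
    (Nat.le_add_right _ _)) a

variable {G' : Subgroup M.G} [G'.FiniteIndex] {T : Type} [TopologicalSpace T] [MulAction G' T]
  [ContinuousConstSMul G' T] {K₀ : Set T}

/-- the group elements which move the base vertex into `V` -/
def Gv (G' : Subgroup M.G) (o : Vt M) (V : Set (Vt M)) : Set G' := {g | g.1.1 • o ∈ V}

/-- increments of the thresholds -/
def inc (ε : ℝ) (i : ℕ) : ℝ := ε * (1 - 1 / (i + 1))

theorem inc_zero (ε : ℝ) : inc ε 0 = 0 := by simp [inc]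

theorem inc_lt {ε : ℝ} (hε : 0 < ε) (i : ℕ) : inc ε i < inc ε (i + 1) := by
  refine mul_lt_mul_of_pos_left (sub_lt_sub_left ?_ 1) hε
  push_cast
  exact one_div_lt_one_div_of_lt (by positivity) (by linarith)

theorem inc_mono {ε : ℝ} (hε : 0 < ε) : Monotone (inc ε) :=
  (strictMono_nat_of_lt_succ (inc_lt hε)).monotone

theorem inc_le {ε : ℝ} (hε : 0 < ε) (i : ℕ) : inc ε i ≤ ε :=
  mul_le_of_le_one_right hε.le (sub_le_self _ (by positivity))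

variable (s) in
/-- **(PA0)** for the open sets over the labels -/
theorem GD.acy {H : M.Cham} (g : GD H) (hN : NA M.Γ) (h : FD 4 G' K₀) (o : Vt M) (k : Type) [Field k]
    (C : ℝ) {ε : ℝ} (hε : 0 < ε) (R : ℕ) : ∃ R1, R ≤ R1 ∧
    ∀ σ : Finset S, M.Γ.IsClique (σ : Set S) → σ.Nonempty → ∀ th th' : S → ℝ,
      (∀ a ∈ σ, 0 ≤ th a ∧ th a ≤ C ∧ th a + ε ≤ th' a) →
      Acy k (Op K₀ (Gv G' o (Vs M s σ th' R1))) (Op K₀ (Gv G' o (Vs M s σ th R))) := by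
  obtain ⟨L⟩ := nonempty_lab (M.ug.res G').fr
  obtain ⟨D, hD⟩ := lab_near G' o L
  let J := {p : Finset S × (S → ℝ) // M.Γ.IsClique (p.1 : Set S) ∧ p.1.Nonempty ∧
    ∀ a ∈ p.1, 0 ≤ p.2 a ∧ p.2 a ≤ C}
  let V : J → ℕ × ℕ → Set (Vt M) := fun j i => Vs M s j.1.1 (fun a => j.1.2 a + inc ε i.1) i.2
  have an : ∀ j, Antitone (V j) := fun j i i' e =>
    Vs_mono (fun a _ => by linarith [inc_mono hε e.1]) e.2
  have i0 : ∀ i, 0 ≤ inc ε i := fun i => inc_zero ε ▸ inc_mono hε (Nat.zero_le i)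
  have nb : ∀ D i, ∃ i', i ≤ i' ∧ ∀ j, ∀ u ∈ V j i', ∀ v, dl M u v ≤ D → v ∈ V j i := fun D i => by
    obtain ⟨R1, h1, h2⟩ := Vs_nb M s (C + ε) (sub_pos.2 (inc_lt hε i.1)) D i.2
    exact ⟨(i.1 + 1, R1), ⟨Nat.le_succ _, h1⟩, fun j => h2 _ _ _ fun a ha =>
      ⟨by linarith [(j.2.2.2 a ha).2, inc_le hε i.1], by linarith⟩⟩
  have p := pac_of_pqd ((qd_univ H).res G') h L k
    (A := fun j i => Gv G' o (V j i)) (B := fun j i => Stv (V j i))
    ⟨fun j _ _ e _ hg => an j e hg, fun B hB i => by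
      obtain ⟨D, hD⟩ := orb_lip G' o hB
      obtain ⟨i', h1, h2⟩ := nb D i
      exact ⟨i', h1, fun j => by rintro _ ⟨g, hg, b, hb, rfl⟩; exact h2 j _ hg _ (hD g b hb)⟩⟩
    ⟨fun j _ _ e => Stv_mono (an j e), fun _ _ => cl_Stv _, fun i => by
      obtain ⟨R1, h1, h2⟩ := g.pex s (C + ε) (sub_pos.2 (inc_lt hε i.1)) i.2
      exact ⟨(i.1 + 1, R1), ⟨Nat.le_succ _, h1⟩, fun j => h2 _ j.2.1 j.2.2.1 _ _ fun a ha =>
        ⟨by linarith [(j.2.2.2 a ha).1, i0 i.1], by linarith [(j.2.2.2 a ha).2, inc_le hε i.1],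
          by linarith⟩⟩, fun j i => Vs_top s H hN j.2.2.1 _ _⟩
    (fun i => (nb D i).imp fun _ e j _ x hx =>
      ⟨pt x.1, e.2 j _ hx _ (hD _ _ _ (vc_pt _)), vc_pt _⟩)
    fun i => (nb D i).imp fun _ e j _ x ⟨u, a, b⟩ => e.2 j u a _ (by rw [dl_comm']; exact hD _ _ _ b)
  obtain ⟨i, h1, h2⟩ := p.ac (0, R)
  refine ⟨i.2, h1.2, fun σ a b th th' ht => (h2 ⟨(σ, th), a, b, fun a ha =>
    ⟨(ht a ha).1, (ht a ha).2.1⟩⟩).mono (Op_mono fun g hg => Vs_mono (fun a ha => ?_) le_rfl hg)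
      (Op_mono fun g hg => Vs_mono (fun a _ => ?_) le_rfl hg)⟩
  · linarith [(ht a ha).2.2, inc_le hε i.1]
  · simp [inc_zero]

variable (P : Pu G' T) (o : Vt M)

variable (s) in
/-- the far part of the union of the deep half spaces in the manifold -/
def UT (σ : Finset S) (th : S → ℝ) (R : ℝ) : Set T :=
  {x | ∃ a ∈ σ, th a < P.av (fun g => nu M s a (g.1.1 • o)) x} ∩
    {x | R < P.av (fun g => (rad M (g.1.1 • o) : ℝ)) x}

theorem isOpen_UT (σ : Finset S) (th : S → ℝ) (R : ℝ) : IsOpen (UT s P o σ th R) := by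
  refine IsOpen.inter ?_ (isOpen_lt continuous_const (P.av _).continuous)
  simp only [ofPred_exists, ofPred_and]
  exact isOpen_iUnion fun a => (isOpen_const).inter (isOpen_lt continuous_const (P.av _).continuous)

theorem lab_dl (h : FD 4 G' K₀) : ∃ D, ∀ x (g g' : G'), g⁻¹ • x ∈ K₀ ∪ P.K → g'⁻¹ • x ∈ K₀ ∪ P.K →
    dl M (g.1.1 • o) (g'.1.1 • o) ≤ D := by
  obtain ⟨D, hD⟩ := orb_lip G' o (h.gm.shs_finite (h.cpt.union P.cpt) (h.cpt.union P.cpt))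
  refine ⟨D, fun x g g' a b => ?_⟩
  have := hD g (g⁻¹ * g') ⟨_, a, by rwa [mul_inv_rev, inv_inv, mul_smul, smul_inv_smul]⟩
  rwa [mul_inv_cancel_left] at this

variable (s) in
theorem UT_sub (h : FD 4 G' K₀) (C : ℝ) {ε : ℝ} (hε : 0 < ε) (R : ℕ) : ∃ R1 : ℝ,
    ∀ (σ : Finset S) (th th' : S → ℝ), (∀ a ∈ σ, th a ≤ C ∧ th a + ε ≤ th' a) →
      UT s P o σ th' R1 ⊆ Op K₀ (Gv G' o (Vs M s σ th R)) := by
  obtain ⟨D, hD⟩ := lab_dl P o h
  obtain ⟨R1, -, h1⟩ := Vs_nb M s C hε D R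
  refine ⟨(R1 + D : ℕ), fun σ th th' ht x ⟨⟨a, a1, a2⟩, a3⟩ => ?_⟩
  obtain ⟨g, g1, g2⟩ := P.exists_lt a2
  obtain ⟨g', g3, g4⟩ := P.exists_lt a3
  obtain ⟨g'', g5⟩ := h.cov x
  have l := rad_lip (g.1.1 • o) (g'.1.1 • o)
  have := hD x g g' (.inr g1) (.inr g3)
  have g6 : R1 + D < rad M (g'.1.1 • o) := by exact_mod_cast g4
  exact ⟨g'', h1 σ th th' ht _ ⟨⟨a, a1, g2⟩, by omega⟩ _
    (hD x g g'' (.inr g1) (.inl (interior_subset g5))), g5⟩

variable (s) in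
theorem sub_UT (h : FD 4 G' K₀) (C : ℝ) {ε : ℝ} (hε : 0 < ε) (R : ℝ) : ∃ R1 : ℕ,
    ∀ (σ : Finset S) (th th' : S → ℝ), (∀ a ∈ σ, th a ≤ C ∧ th a + ε ≤ th' a) →
      sat (Gv G' o (Vs M s σ th' R1)) K₀ ⊆ UT s P o σ th R := by
  obtain ⟨D, hD⟩ := lab_dl P o h
  obtain ⟨R1, -, h1⟩ := Vs_nb M s C hε D ⌈R⌉₊
  refine ⟨R1, fun σ th th' ht x ⟨g, ⟨⟨a, a1, a2⟩, a3⟩, g1⟩ => ?_⟩
  have k : ∀ g' ∈ P.lab x, g'.1.1 • o ∈ Vs M s {a} th ⌈R⌉₊ := fun g' hg =>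
    h1 {a} th th' (by simpa using ht a a1) _ ⟨⟨a, by simp, a2⟩, a3⟩ _ (hD x g g' (.inl g1) (.inr hg))
  refine ⟨⟨a, a1, P.lt_av fun g' hg => by simpa using (k g' hg).1⟩, P.lt_av fun g' hg => ?_⟩
  exact (Nat.le_ceil R).trans_lt (by exact_mod_cast (k g' hg).2)

variable (s) in
/-- **(PA0)** -/
theorem GD.pa0 {H : M.Cham} (g : GD H) (hN : NA M.Γ) (h : FD 4 G' K₀) (k : Type) [Field k]
    (C : ℝ) {ε : ℝ} (hε : 0 < ε) (R : ℝ) : ∃ R1 : ℝ,
    ∀ σ : Finset S, M.Γ.IsClique (σ : Set S) → σ.Nonempty → ∀ th th' : S → ℝ,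
      (∀ a ∈ σ, 0 ≤ th a ∧ th a ≤ C ∧ th a + ε ≤ th' a) →
      Acy k (UT s P o σ th' R1) (UT s P o σ th R) := by
  have e3 : 0 < ε / 3 := by positivity
  obtain ⟨R1, h1⟩ := sub_UT s P o h C e3 R
  obtain ⟨R2, -, h2⟩ := g.acy s hN h o k (C + ε) e3 R1
  obtain ⟨R3, h3⟩ := UT_sub s P o h (C + ε) e3 R2
  refine ⟨R3, fun σ a b th th' ht => (h2 σ a b (fun a => th a + ε / 3) (fun a => th a + 2 * ε / 3)
    fun a ha => ?_).mono (h3 σ _ _ fun a ha => ?_) ((Op_sub _).trans (h1 σ _ _ fun a ha => ?_))⟩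
  all_goals obtain ⟨k1, k2, k3⟩ := ht a ha
  · exact ⟨by linarith, by linarith, by linarith⟩
  · exact ⟨by linarith, by linarith⟩
  · exact ⟨by linarith, by linarith⟩

variable (s) in
/-- **(NE0)** -/
theorem UT_nonempty (H : M.Cham) (hN : NA M.Γ) (h : FD 4 G' K₀) {σ : Finset S} (ne : σ.Nonempty)
    (th : S → ℝ) (R : ℝ) : (UT s P o σ th R).Nonempty := by
  obtain ⟨a, ha⟩ := ne
  obtain ⟨R1, h1⟩ := sub_UT s P o h (th a) one_pos R
  obtain ⟨D, hD⟩ := orb_dense G' o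
  obtain ⟨R2, -, h2⟩ := Vs_nb M s (th a + 1) one_pos D R1
  obtain ⟨_, ⟨u, hu, -⟩, -⟩ := Vs_top s H hN (Finset.singleton_nonempty a) (fun a => th a + 2) R2
  obtain ⟨g, hg⟩ := hD u
  obtain ⟨x, hx⟩ := Op_nonempty h (A := Gv G' o (Vs M s {a} (fun a => th a + 1) R1))
    ⟨g, h2 {a} _ _ (by simp [add_assoc, one_add_one_eq_two]) u hu _ (by rw [dl_comm']; exact hg)⟩
  obtain ⟨⟨b, b1, b2⟩, b3⟩ := h1 {a} th _ (by simp) (Op_sub _ hx)
  exact ⟨x, ⟨b, Finset.mem_singleton.1 b1 ▸ ha, b2⟩, b3⟩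

end Crest.Agent.N255.Fa

end
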