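import Crest.Agent.N255.Gs.Cx

/-!
# Row 255 (helper44): the complex of tuples of `G`, maps of sets act on it, controlled homotopies
-/

set_option autoImplicit false
open Set Finsupp
open scoped Pointwise

noncomputable section

namespace Crest.Agent.N255.Fa

open Crest.Agent.N255.Gs

/-- tuples of length `n + 1` -/
def Bt (G : Type) : ℕ → Type
  | 0 => G
  | n + 1 => G × Bt G n

namespace Bt

variable {G : Type}

/-- the set of entries -/
def ent : ∀ {n : ℕ}, Bt G n → Set G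
  | 0, g => {g}
  | _ + 1, x => insert x.1 (ent x.2)

/-- the first entry -/
def hd : ∀ {n : ℕ}, Bt G n → G
  | 0, g => g
  | _ + 1, x => x.1

/-- entrywise maps -/
def mp (φ : G → G) : ∀ {n : ℕ}, Bt G n → Bt G n
  | 0, g => φ g
  | _ + 1, x => (φ x.1, mp φ x.2)

theorem hd_mem : ∀ {n : ℕ} (x : Bt G n), hd x ∈ ent x
  | 0, _ => rfl
  | _ + 1, _ => mem_insert _ _

theorem hd_mp (φ : G → G) : ∀ {n : ℕ} (x : Bt G n), hd (mp φ x) = φ (hd x)
  | 0, _ => rfl
  | _ + 1, _ => rfl

theorem ent_fin : ∀ {n : ℕ} (x : Bt G n), (ent x).Finite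
  | 0, _ => finite_singleton _
  | _ + 1, x => (ent_fin x.2).insert _

theorem ent_mp (φ : G → G) : ∀ {n : ℕ} (x : Bt G n), ent (mp φ x) = φ '' ent x
  | 0, _ => image_singleton.symm
  | _ + 1, x => by
    show insert (φ x.1) (ent (mp φ x.2)) = φ '' insert x.1 (ent x.2)
    rw [ent_mp, image_insert_eq]

theorem mp_id : ∀ {n : ℕ} (x : Bt G n), mp (fun g => g) x = x
  | 0, _ => rfl
  | _ + 1, x => Prod.ext rfl (mp_id x.2)

theorem mp_mp (φ ψ : G → G) : ∀ {n : ℕ} (x : Bt G n), mp φ (mp ψ x) = mp (fun g => φ (ψ g)) x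
  | 0, _ => rfl
  | _ + 1, x => Prod.ext rfl (mp_mp φ ψ x.2)

instance act [Group G] (n : ℕ) : MulAction G (Bt G n) where
  smul g := mp (g * ·)
  one_smul x := by
    show mp (fun h => 1 * h) x = x
    simp only [one_mul, mp_id]
  mul_smul g h x := by
    show mp (fun a => g * h * a) x = mp (g * ·) (mp (h * ·) x)
    simp only [mp_mp, mul_assoc]

theorem smul_def [Group G] {n : ℕ} (g : G) (x : Bt G n) : g • x = mp (g * ·) x := rfl

/-- shadows -/
def sh (G : Type) [Group G] (n : ℕ) : Sh G (Bt G n) where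
  sh := ent
  fin := ent_fin
  ne x := ⟨_, hd_mem x⟩
  smul g x := ent_mp _ x
  free g x e := by
    have := congrArg hd e
    rw [smul_def, hd_mp] at this
    exact mul_eq_right.1 this

/-- a vertex -/
def pt (a : G) : Bt G 0 := a

/-- adding an entry -/
def cons {n : ℕ} (a : G) (x : Bt G n) : Bt G (n + 1) := (a, x)

theorem ent_pt (a : G) : ent (pt a) = {a} := rfl

theorem ent_cons {n : ℕ} (a : G) (x : Bt G n) : ent (cons a x) = insert a (ent x) := rfl

theorem mp_pt (φ : G → G) (a : G) : mp φ (pt a) = pt (φ a) := rfl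

theorem mp_cons (φ : G → G) {n : ℕ} (a : G) (x : Bt G n) :
    mp φ (cons a x) = cons (φ a) (mp φ x) := rfl

theorem exists_cons {n : ℕ} (x : Bt G (n + 1)) : ∃ a y, x = cons a y := ⟨x.1, x.2, rfl⟩

variable (k : Type) [CommRing k]

/-- cone -/
def cn (a : G) (n : ℕ) : (Bt G n →₀ k) →ₗ[k] (Bt G (n + 1) →₀ k) := lmapDomain k k (cons a)

/-- the chain map of a map of sets -/
def mc (φ : G → G) (n : ℕ) : (Bt G n →₀ k) →ₗ[k] (Bt G n →₀ k) := lmapDomain k k (mp φ)

/-- boundary -/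
def d : ∀ n, (Bt G (n + 1) →₀ k) →ₗ[k] (Bt G n →₀ k)
  | 0 => linearCombination k fun x => single x.2 1 - single (pt x.1) 1
  | n + 1 => linearCombination k fun x => single x.2 1 - cn k x.1 n (d n (single x.2 1))

/-- chains with entries in `S` -/
def W (S : Set G) (n : ℕ) : Submodule k (Bt G n →₀ k) := supported k k {x | ent x ⊆ S}

variable {k}

theorem cn_single (a : G) {n : ℕ} (x : Bt G n) (r : k) :
    cn k a n (single x r) = single (cons a x) r := mapDomain_single

theorem mc_single (φ : G → G) {n : ℕ} (x : Bt G n) (r : k) :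
    mc k φ n (single x r) = single (mp φ x) r := mapDomain_single

theorem ext1 {A V : Type} [AddCommGroup V] [Module k V] {S T : (A →₀ k) →ₗ[k] V}
    (h : ∀ a, S (single a 1) = T (single a 1)) (c : A →₀ k) : S c = T c :=
  LinearMap.congr_fun (lhom_ext' fun a => LinearMap.ext_ring (h a)) c

theorem ext2 {n : ℕ} {V : Type} [AddCommGroup V] [Module k V] {S T : (Bt G (n + 1) →₀ k) →ₗ[k] V}
    (h : ∀ a x, S (cn k a n (single x 1)) = T (cn k a n (single x 1))) (c : Bt G (n + 1) →₀ k) :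
    S c = T c := ext1 (fun x => by
  obtain ⟨a, y, rfl⟩ := exists_cons x
  rw [← cn_single, h]) c

theorem d_zero (a : G) (x : Bt G 0) :
    d k 0 (single (cons a x) 1) = single x 1 - single (pt a) 1 :=
  (linearCombination_single k (1 : k) _).trans (one_smul _ _)

theorem d_succ {n : ℕ} (a : G) (x : Bt G (n + 1)) :
    d k (n + 1) (single (cons a x) 1) = single x 1 - cn k a n (d k n (single x 1)) :=
  (linearCombination_single k (1 : k) _).trans (one_smul _ _)

theorem d_cn0 (a : G) (c : Bt G 0 →₀ k) :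
    d k 0 (cn k a 0 c) = c - au k _ c • single (pt a) 1 :=
  ext1 (S := d k 0 ∘ₗ cn k a 0) (T := LinearMap.id - (au k _).smulRight _) (fun x => by
    show d k 0 (cn k a 0 (single x 1)) = single x 1 - au k _ (single x 1) • single (pt a) 1
    rw [cn_single, d_zero, au_single, one_smul]) c

theorem d_cn (a : G) {n : ℕ} (c : Bt G (n + 1) →₀ k) :
    d k (n + 1) (cn k a (n + 1) c) = c - cn k a n (d k n c) :=
  ext1 (S := d k (n + 1) ∘ₗ cn k a (n + 1)) (T := LinearMap.id - cn k a n ∘ₗ d k n) (fun x => by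
    show d k (n + 1) (cn k a (n + 1) (single x 1)) = single x 1 - cn k a n (d k n (single x 1))
    rw [cn_single, d_succ]) c

theorem au_d (c : Bt G 1 →₀ k) : au k _ (d k 0 c) = 0 :=
  ext2 (S := au k _ ∘ₗ d k 0) (T := 0) (fun a x => by
    show au k _ (d k 0 (cn k a 0 (single x 1))) = 0
    rw [d_cn0, map_sub, map_smul, au_single, au_single, smul_eq_mul, mul_one, sub_self]) c

theorem d_d : ∀ (n : ℕ) (c : Bt G (n + 2) →₀ k), d k n (d k (n + 1) c) = 0
  | 0 => ext2 (S := d k 0 ∘ₗ d k 1) (T := 0) fun a x => by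
    show d k 0 (d k (0 + 1) (cn k a (0 + 1) (single x 1))) = 0
    rw [d_cn, map_sub, d_cn0, au_d, zero_smul, sub_zero, sub_self]
  | n + 1 => ext2 (S := d k (n + 1) ∘ₗ d k (n + 2)) (T := 0) fun a x => by
    show d k (n + 1) (d k (n + 1 + 1) (cn k a (n + 1 + 1) (single x 1))) = 0
    rw [d_cn, map_sub, d_cn, d_d n, map_zero, sub_zero, sub_self]

theorem mc_cn (φ : G → G) (a : G) {n : ℕ} (c : Bt G n →₀ k) :
    mc k φ (n + 1) (cn k a n c) = cn k (φ a) n (mc k φ n c) :=
  ext1 (S := mc k φ (n + 1) ∘ₗ cn k a n) (T := cn k (φ a) n ∘ₗ mc k φ n) (fun x => by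
    show mc k φ (n + 1) (cn k a n (single x 1)) = cn k (φ a) n (mc k φ n (single x 1))
    rw [cn_single, mc_single, mc_single, cn_single, mp_cons]) c

theorem au_mc (φ : G → G) {n : ℕ} (c : Bt G n →₀ k) : au k _ (mc k φ n c) = au k _ c :=
  ext1 (S := au k _ ∘ₗ mc k φ n) (T := au k _) (fun x => by
    show au k _ (mc k φ n (single x 1)) = _
    rw [mc_single, au_single, au_single]) c

theorem d_mc (φ : G → G) : ∀ (n : ℕ) (c : Bt G (n + 1) →₀ k),
    d k n (mc k φ (n + 1) c) = mc k φ n (d k n c)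
  | 0 => ext2 (S := d k 0 ∘ₗ mc k φ 1) (T := mc k φ 0 ∘ₗ d k 0) fun a x => by
    show d k 0 (mc k φ (0 + 1) (cn k a 0 (single x 1))) = mc k φ 0 (d k 0 (cn k a 0 (single x 1)))
    rw [mc_cn, d_cn0, d_cn0, map_sub, map_smul, au_mc, mc_single φ (pt a), mp_pt]
  | n + 1 => ext2 (S := d k (n + 1) ∘ₗ mc k φ (n + 2)) (T := mc k φ (n + 1) ∘ₗ d k (n + 1))
    fun a x => by
      show d k (n + 1) (mc k φ (n + 1 + 1) (cn k a (n + 1) (single x 1))) =
        mc k φ (n + 1) (d k (n + 1) (cn k a (n + 1) (single x 1)))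
      rw [mc_cn, d_cn, d_cn, map_sub, mc_cn, d_mc φ n]

theorem W_mono {S S' : Set G} (h : S ⊆ S') (n : ℕ) : W k S n ≤ W k S' n :=
  supported_mono fun _ hx => hx.trans h

theorem single_mem {S : Set G} {n : ℕ} {x : Bt G n} (h : ent x ⊆ S) : single x 1 ∈ W k S n :=
  single_mem_supported k 1 h

theorem cn_mem {S : Set G} {a : G} (ha : a ∈ S) {n : ℕ} {c : Bt G n →₀ k} (hc : c ∈ W k S n) :
    cn k a n c ∈ W k S (n + 1) :=
  map_mem_of (fun x hx => by rw [cn_single]; exact single_mem (insert_subset ha hx)) hc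

theorem mc_mem (φ : G → G) {S : Set G} {n : ℕ} {c : Bt G n →₀ k} (hc : c ∈ W k S n) :
    mc k φ n c ∈ W k (φ '' S) n :=
  map_mem_of (fun x hx => by
    rw [mc_single]; exact single_mem (by rw [ent_mp]; exact image_mono hx)) hc

theorem d_mem {S : Set G} : ∀ {n : ℕ} {c : Bt G (n + 1) →₀ k}, c ∈ W k S (n + 1) →
    d k n c ∈ W k S n
  | 0, _, hc => map_mem_of (fun x hx => by
    obtain ⟨a, y, rfl⟩ := exists_cons x
    rw [d_zero]
    exact sub_mem (single_mem ((subset_insert a _).trans hx))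
      (single_mem (singleton_subset_iff.2 (hx (mem_insert _ _))))) hc
  | _ + 1, _, hc => map_mem_of (fun x hx => by
    obtain ⟨a, y, rfl⟩ := exists_cons x
    rw [d_succ]
    have h2 := single_mem (k := k) (x := y) ((subset_insert a _).trans hx)
    exact sub_mem h2 (cn_mem (hx (mem_insert _ _)) (d_mem h2))) hc

/-- the homotopy from the identity to the chain map of `φ` -/
def ht (k : Type) [CommRing k] (φ : G → G) : ∀ n, (Bt G n →₀ k) →ₗ[k] (Bt G (n + 1) →₀ k)
  | 0 => linearCombination k fun x => cn k (hd x) 0 (single x 1 - mc k φ 0 (single x 1))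
  | n + 1 => linearCombination k fun x => cn k (hd x) (n + 1)
      (single x 1 - mc k φ (n + 1) (single x 1) - ht k φ n (d k n (single x 1)))

theorem ht_zero (φ : G → G) (x : Bt G 0) :
    ht k φ 0 (single x 1) = cn k (hd x) 0 (single x 1 - mc k φ 0 (single x 1)) :=
  (linearCombination_single k (1 : k) x).trans (one_smul _ _)

theorem ht_succ (φ : G → G) {n : ℕ} (x : Bt G (n + 1)) :
    ht k φ (n + 1) (single x 1) = cn k (hd x) (n + 1)
      (single x 1 - mc k φ (n + 1) (single x 1) - ht k φ n (d k n (single x 1))) :=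
  (linearCombination_single k (1 : k) x).trans (one_smul _ _)

theorem d_ht0 (φ : G → G) (c : Bt G 0 →₀ k) : d k 0 (ht k φ 0 c) = c - mc k φ 0 c :=
  ext1 (S := d k 0 ∘ₗ ht k φ 0) (T := LinearMap.id - mc k φ 0) (fun x => by
    show d k 0 (ht k φ 0 (single x 1)) = single x 1 - mc k φ 0 (single x 1)
    rw [ht_zero, d_cn0, map_sub, au_mc, sub_self, zero_smul, sub_zero]) c

theorem d_ht (φ : G → G) : ∀ (n : ℕ) (c : Bt G (n + 1) →₀ k),
    d k (n + 1) (ht k φ (n + 1) c) = c - mc k φ (n + 1) c - ht k φ n (d k n c)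
  | 0 => ext1 (S := d k 1 ∘ₗ ht k φ 1) (T := LinearMap.id - mc k φ 1 - ht k φ 0 ∘ₗ d k 0)
    fun x => by
      show d k (0 + 1) (ht k φ (0 + 1) (single x 1)) =
        single x 1 - mc k φ (0 + 1) (single x 1) - ht k φ 0 (d k 0 (single x 1))
      rw [ht_succ, d_cn, map_sub (d k 0), map_sub (d k 0), d_mc, d_ht0, sub_self, map_zero,
        sub_zero]
  | n + 1 => ext1 (S := d k (n + 2) ∘ₗ ht k φ (n + 2))
    (T := LinearMap.id - mc k φ (n + 2) - ht k φ (n + 1) ∘ₗ d k (n + 1)) fun x => by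
      show d k (n + 1 + 1) (ht k φ (n + 1 + 1) (single x 1)) = single x 1 -
        mc k φ (n + 1 + 1) (single x 1) - ht k φ (n + 1) (d k (n + 1) (single x 1))
      rw [ht_succ, d_cn, map_sub (d k (n + 1)), map_sub (d k (n + 1)), d_mc, d_ht φ n, d_d,
        map_zero, sub_zero, sub_self, map_zero, sub_zero]

theorem ht_mem (φ : G → G) {S : Set G} : ∀ {n : ℕ} {c : Bt G n →₀ k}, c ∈ W k S n →
    ht k φ n c ∈ W k (S ∪ φ '' S) (n + 1) := by
  have h1 : ∀ {n : ℕ} {x : Bt G n}, ent x ⊆ S →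
      single x 1 - mc k φ n (single x 1) ∈ W k (S ∪ φ '' S) n := fun {n x} hx =>
    sub_mem (single_mem (hx.trans subset_union_left))
      (W_mono (subset_union_right (s := S)) n (mc_mem φ (single_mem hx)))
  have h2 : ∀ {n : ℕ} {x : Bt G n}, ent x ⊆ S → hd x ∈ S ∪ φ '' S := fun hx =>
    Or.inl (hx (hd_mem _))
  intro n
  induction n with
  | zero =>
    intro c hc
    refine map_mem_of (fun x hx => ?_) hc
    rw [ht_zero]
    exact cn_mem (h2 hx) (h1 hx)
  | succ n ih =>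
    intro c hc
    refine map_mem_of (fun x hx => ?_) hc
    rw [ht_succ]
    exact cn_mem (h2 hx) (sub_mem (h1 hx) (ih (d_mem (single_mem hx))))

end Bt

/-- the complex of tuples -/
def bar (k : Type) [CommRing k] (G : Type) [Group G] : Cx k G (Bt G) where
  P := Bt.sh G
  d := Bt.d k
  eqv n g c := Bt.d_mc (g * ·) n c
  ctl _ S hS := ⟨S, hS, fun _ hc => Bt.d_mem hc⟩
  dd := Bt.d_d
  aud := Bt.au_d
  uf0 S hS := ⟨insert 1 S, hS.insert 1, fun c hc h0 => ⟨Bt.cn k 1 0 c,
    Bt.cn_mem (mem_insert _ _) (Bt.W_mono (subset_insert _ _) _ hc), by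
      rw [Bt.d_cn0, LinearMap.mem_ker.1 h0, zero_smul, sub_zero]⟩⟩
  uf n S hS := ⟨insert 1 S, hS.insert 1, fun c hc h0 => ⟨Bt.cn k 1 (n + 1) c,
    Bt.cn_mem (mem_insert _ _) (Bt.W_mono (subset_insert _ _) _ hc), by
      rw [Bt.d_cn, LinearMap.mem_ker.1 h0, map_zero, sub_zero]⟩⟩
  ne := ⟨(1 : G)⟩

end Crest.Agent.N255.Fa

end
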