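import Crest.Agent.N255.Fa.Bar
import Crest.Agent.N255.Gs.Far

/-!
# Row 255 (helper44): (FO) a map of sets `φ : G → G` acts on every uniformly acyclic complex,
with control which depends only on the displacement; transfer of pro-acyclicity along `φ`
-/

set_option autoImplicit false
open Set Finsupp
open scoped Pointwise

noncomputable section

namespace Crest.Agent.N255.Fa

open Crest.Agent.N255.Gs Crest.Agent.N255.Tp Crest.Agent.N255.Uc

variable {G : Type} [Group G]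

section alg

variable {k : Type} [CommRing k]

/-- a control function of a controlled equivariant map -/
theorem exists_ct {A B : Type} [MulAction G A] [MulAction G B] {P : Sh G A} {Q : Sh G B}
    {F : (A →₀ k) →ₗ[k] (B →₀ k)} (h : Ctl P Q F) (he : Eqv G F) :
    ∃ c : Set G → Set G, ∀ S, S.Finite → (c S).Finite ∧
      ∀ g : G, ∀ x ∈ P.W k (g • S), F x ∈ Q.W k (g • c S) := by
  have : ∀ S : Set G, ∃ S' : Set G, S.Finite → S'.Finite ∧
      ∀ g : G, ∀ x ∈ P.W k (g • S), F x ∈ Q.W k (g • S') := fun S => by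
    by_cases hS : S.Finite
    · obtain ⟨S', h1, h2, -⟩ := h.unif he hS
      exact ⟨S', fun _ => ⟨h1, h2⟩⟩
    · exact ⟨∅, fun h => (hS h).elim⟩
  exact ⟨fun S => (this S).choose, fun S => (this S).choose_spec⟩

variable {A : ℕ → Type} [∀ n, MulAction G (A n)]

/-- a chain map near `φ` and a homotopy to the identity -/
structure Fo (X : Cx k G A) (s c : ℕ → Set G → Set G) (φ : G → G) where
  F : ∀ n, (A n →₀ k) →ₗ[k] (A n →₀ k)
  H : ∀ n, (A n →₀ k) →ₗ[k] (A (n + 1) →₀ k)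
  ch : ∀ n x, X.d n (F (n + 1) x) = F n (X.d n x)
  au : ∀ x, au k _ (F 0 x) = au k _ x
  h0 : ∀ x, X.d 0 (H 0 x) = x - F 0 x
  hs : ∀ n x, X.d (n + 1) (H (n + 1) x) + H n (X.d n x) = x - F (n + 1) x
  cF : ∀ n (S D : Set G) (u v : G), S.Finite → D.Finite → φ '' (u • s n S) ⊆ v • D →
    ∀ x ∈ (X.P n).W k (u • S), F n x ∈ (X.P n).W k (v • c n D)
  cH : ∀ n (S D : Set G) (u : G), S.Finite → D.Finite → u • s n S ∪ φ '' (u • s n S) ⊆ u • D →
    ∀ x ∈ (X.P n).W k (u • S), H n x ∈ (X.P (n + 1)).W k (u • c n D)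

/-- **(FO)**: the control functions do not depend on `φ` -/
theorem exists_fo [Countable G] (X : Cx k G A) : ∃ s c : ℕ → Set G → Set G,
    (∀ n S, S.Finite → (s n S).Finite) ∧ (∀ n D, D.Finite → (c n D).Finite) ∧
      ∀ φ : G → G, Nonempty (Fo X s c φ) := by
  obtain ⟨f⟩ := exists_mp X (bar k G)
  obtain ⟨g⟩ := exists_mp (bar k G) X
  obtain ⟨h⟩ := exists_ht (g.comp f) (Mp.id X)
  choose cf hf using fun n => exists_ct (f.ctl n) (f.eqv n)
  choose cg hg using fun n => exists_ct (g.ctl n) (g.eqv n)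
  choose ch hh using fun n => exists_ct (h.ctl n) (h.eqv n)
  have gc : ∀ n y, X.d n (g.f (n + 1) y) = g.f n (Bt.d k n y) := g.ch
  have fc : ∀ n x, Bt.d k n (f.f (n + 1) x) = f.f n (X.d n x) := f.ch
  refine ⟨fun n S => cf n S ∪ ch n S, fun n D => cg n D ∪ cg (n + 1) D ∪ D,
    fun n S hS => (hf n S hS).1.union (hh n S hS).1,
    fun n D hD => ((hg n D hD).1.union (hg (n + 1) D hD).1).union hD, fun φ => ⟨{
      F := fun n => g.f n ∘ₗ Bt.mc k φ n ∘ₗ f.f n
      H := fun n => g.f (n + 1) ∘ₗ Bt.ht k φ n ∘ₗ f.f n - h.h n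
      ch := fun n x => ?_
      au := fun x => ?_
      h0 := fun x => ?_
      hs := fun n x => ?_
      cF := fun n S D u v hS hD e x hx => ?_
      cH := fun n S D u hS hD e x hx => ?_ }⟩⟩
  · show X.d n (g.f (n + 1) (Bt.mc k φ (n + 1) (f.f (n + 1) x))) =
      g.f n (Bt.mc k φ n (f.f n (X.d n x)))
    rw [gc, Bt.d_mc, fc]
  · show au k _ (g.f 0 (Bt.mc k φ 0 (f.f 0 x))) = _
    rw [g.au, Bt.au_mc, f.au]
  · show X.d 0 (g.f (0 + 1) (Bt.ht k φ 0 (f.f 0 x)) - h.h 0 x) =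
      x - g.f 0 (Bt.mc k φ 0 (f.f 0 x))
    have e : X.d 0 (h.h 0 x) = g.f 0 (f.f 0 x) - x := h.h0 x
    rw [map_sub, gc, Bt.d_ht0, e, map_sub]
    abel
  · show X.d (n + 1) (g.f (n + 1 + 1) (Bt.ht k φ (n + 1) (f.f (n + 1) x)) - h.h (n + 1) x) +
      (g.f (n + 1) (Bt.ht k φ n (f.f n (X.d n x))) - h.h n (X.d n x)) =
      x - g.f (n + 1) (Bt.mc k φ (n + 1) (f.f (n + 1) x))
    have e : X.d (n + 1) (h.h (n + 1) x) = g.f (n + 1) (f.f (n + 1) x) - x - h.h n (X.d n x) :=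
      eq_sub_of_add_eq (h.hs n x)
    rw [map_sub, gc, Bt.d_ht, e, map_sub, map_sub, fc]
    abel
  · have h1 : f.f n x ∈ Bt.W k (u • cf n S) n := (hf n S hS).2 u x hx
    have h2 : Bt.mc k φ n (f.f n x) ∈ Bt.W k (v • D) n :=
      Bt.W_mono ((image_mono (smul_set_mono subset_union_left)).trans e) n (Bt.mc_mem φ h1)
    exact (X.P n).W_mono (smul_set_mono (subset_union_left.trans subset_union_left))
      ((hg n D hD).2 v _ h2)
  · have h1 : f.f n x ∈ Bt.W k (u • cf n S) n := (hf n S hS).2 u x hx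
    have h2 : Bt.ht k φ n (f.f n x) ∈ Bt.W k (u • D) (n + 1) :=
      Bt.W_mono ((union_subset_union (smul_set_mono subset_union_left)
        (image_mono (smul_set_mono subset_union_left))).trans e) _ (Bt.ht_mem φ h1)
    refine sub_mem ((X.P _).W_mono (smul_set_mono (subset_union_right.trans subset_union_left))
      ((hg (n + 1) D hD).2 u _ h2)) ((X.P _).W_mono ?_ ((hh n S hS).2 u x hx))
    exact (((smul_set_mono subset_union_right).trans subset_union_left).trans e).trans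
      (smul_set_mono subset_union_right)

end alg

section top

variable {T : Type} [TopologicalSpace T] [MulAction G T] [ContinuousConstSMul G T] {d : ℕ}
  {K : Set T}

omit [ContinuousConstSMul G T] in
theorem small_sh {n : ℕ} {A : Set T} {σ : Sx n T} (hσ : σ ∈ ((On A).inf (Sm (FD.cvr G K))).S n) :
    ∃ g ∈ shs G K A, sh G K σ ⊆ g • shs G K K := by
  obtain ⟨h0, _, ⟨g, rfl⟩, hσ⟩ := hσ
  have h1 : ∀ x ∈ range σ, g⁻¹ • x ∈ K := fun x hx => by
    obtain ⟨g', e, h1⟩ := hσ hx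
    rw [show g' = g from e] at h1
    exact interior_subset h1
  exact ⟨g, ⟨_, h0 ⟨stdSimplex.vertex 0, rfl⟩, h1 _ ⟨_, rfl⟩⟩, fun a ⟨x, hx, ha⟩ =>
    ⟨g⁻¹ * a, ⟨_, h1 x hx, by simpa [smul_smul] using ha⟩, mul_inv_cancel_left g a⟩⟩

omit [ContinuousConstSMul G T] in
theorem zero_small (h : FD d G K) (k : Type) [CommRing k] (A : Set T) :
    (On A).ch k 0 ≤ ((On A).inf (Sm (FD.cvr G K))).ch k 0 :=
  supported_mono fun σ hσ => ⟨hσ, by
    obtain ⟨U, hU, hx⟩ := h.cvr_cover univ (mem_univ (σ (stdSimplex.vertex 0)))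
    exact ⟨U, hU, by rw [Tp.range_zero]; exact singleton_subset_iff.2 hx⟩⟩

/-- **transfer of pro-acyclicity along a map of sets** (degrees `≤ N`) -/
theorem acy_fold_le (h : FD d G K) (k : Type) [Field k] (N : ℕ) :
    ∃ (S : Set G) (c : Set G → Set G), S.Finite ∧ (∀ D, D.Finite → (c D).Finite) ∧
      ∀ (φ : G → G) (A V V' B : Set T), A ⊆ V → A ⊆ B → Acy k V V' →
      (∀ u ∈ shs G K V', ∃ (v : G) (D : Set G), D.Finite ∧ φ '' (u • S) ⊆ v • D ∧
        sat (v • c D) K ⊆ B) →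
      (∀ u ∈ shs G K A, ∃ D : Set G, D.Finite ∧ u • S ∪ φ '' (u • S) ⊆ u • D ∧
        sat (u • c D) K ⊆ B) →
      ∀ n ≤ N, (On A).ch k n ⊓ rcyc k T n ≤ (On B).B k n := by
  have := gm_countable h.gm
  obtain ⟨s, c, hs, hc, hφ⟩ := exists_fo (h.sing k)
  have e1 : ∀ n ≤ N + 1, s n (shs G K K) ⊆ ⋃ n ∈ Iic (N + 1), s n (shs G K K) := fun n hn =>
    subset_biUnion_of_mem (u := fun n => s n (shs G K K)) hn
  have e2 : ∀ D, ∀ n ≤ N + 1, c n D ⊆ ⋃ n ∈ Iic (N + 1), c n D := fun D n hn =>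
    subset_biUnion_of_mem (u := fun n => c n D) hn
  refine ⟨⋃ n ∈ Iic (N + 1), s n (shs G K K), fun D => ⋃ n ∈ Iic (N + 1), c n D,
    (finite_Iic _).biUnion fun n _ => hs n _ h.nb_finite,
    fun D hD => (finite_Iic _).biUnion fun n _ => hc n D hD,
    fun φ A V V' B hAV hAB hV h1 h2 n hn => ?_⟩
  obtain ⟨F⟩ := hφ φ
  have mF : ∀ m ≤ N + 1, ∀ x ∈ ((On V').inf (Sm (FD.cvr G K))).ch k m,
      F.F m x ∈ (On B).ch k m := fun m hm x hx => map_mem_of (fun σ hσ => by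
    obtain ⟨u, hu, e⟩ := small_sh hσ
    obtain ⟨v, D, a1, a2, a3⟩ := h1 u hu
    exact ch_mono ((sat_mono (smul_set_mono (e2 D m hm)) Subset.rfl).trans a3) (h.W_le_On k _
      (F.cF m _ D u v h.nb_finite a1 ((image_mono (smul_set_mono (e1 m hm))).trans a2) _
        ((h.shS m).single_mem e 1)))) hx
  have mH : ∀ m ≤ N + 1, ∀ x ∈ ((On A).inf (Sm (FD.cvr G K))).ch k m,
      F.H m x ∈ (On B).ch k (m + 1) := fun m hm x hx => map_mem_of (fun σ hσ => by
    obtain ⟨u, hu, e⟩ := small_sh hσ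
    obtain ⟨D, a1, a2, a3⟩ := h2 u hu
    exact ch_mono ((sat_mono (smul_set_mono (e2 D m hm)) Subset.rfl).trans a3) (h.W_le_On k _
      (F.cH m _ D u h.nb_finite a1 ((union_subset_union (smul_set_mono (e1 m hm))
        (image_mono (smul_set_mono (e1 m hm)))).trans a2) _ ((h.shS m).single_mem e 1)))) hx
  have key : ∀ z ∈ ((On A).inf (Sm (FD.cvr G K))).ch k n, z ∈ rcyc k T n →
      bd k (F.H n z) = z - F.F n z → z ∈ (On B).B k n := fun z hz h0 e => by
    obtain ⟨b, hb, e'⟩ := hV n ⟨ch_mono hAV (Sb.ch_mono Sb.inf_le_left hz), h0⟩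
    obtain ⟨b', hb', e''⟩ := smChS_holds k T V' _ FD.cvr_open (h.cvr_cover _) n b hb
      (e' ▸ Sb.ch_mono Sb.inf_le_right hz)
    have e3 : bd k b' = z := by
      have : bd k (b - b') = 0 := Sb.B_le_cyc e''
      rwa [map_sub, e', sub_eq_zero, eq_comm] at this
    have e4 : bd k (F.F (n + 1) b') = F.F n (bd k b') := F.ch n b'
    exact ⟨F.H n z + F.F (n + 1) b', add_mem (mH n (by omega) z hz) (mF _ (by omega) b' hb'), by
      rw [map_add, e, e4, e3, sub_add_cancel]⟩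
  rintro z ⟨hz, h0⟩
  rcases n with _ | n
  · exact key z (zero_small h k A hz) h0 (F.h0 z)
  · obtain ⟨z', hz', e⟩ := smChS_holds k T A _ FD.cvr_open (h.cvr_cover _) n z hz
      (by rw [show bd k z = 0 from h0]; exact zero_mem _)
    have e3 : bd k z' = 0 := by
      have : bd k (z - z') = 0 := Sb.B_le_cyc e
      rwa [map_sub, show bd k z = 0 from h0, zero_sub, neg_eq_zero] at this
    have e4 : bd k (F.H (n + 1) z') + F.H n (bd k z') = z' - F.F (n + 1) z' := F.hs n z'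
    rw [e3, map_zero, add_zero] at e4
    have := add_mem (B_mono hAB e) (key z' hz' e3 e4)
    rwa [sub_add_cancel] at this

/-- **transfer of pro-acyclicity along a map of sets** in an oriented manifold -/
theorem acy_fold [T2Space T] {m : ℕ} [ChartedSpace (EE (m + 1)) T] (h : FD d G K) (k : Type)
    [Field k] {O : Ori k m T} (hO : O.ND)
    (h0 : ∀ φ ∈ Cc k (univ : Set T) k 0, cob k φ = 0 → φ = 0) :
    ∃ (S : Set G) (c : Set G → Set G), S.Finite ∧ (∀ D, D.Finite → (c D).Finite) ∧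
      ∀ (φ : G → G) (A V V' B : Set T), IsOpen A → A ⊆ V → A ⊆ B → Acy k V V' →
      (∀ u ∈ shs G K V', ∃ (v : G) (D : Set G), D.Finite ∧ φ '' (u • S) ⊆ v • D ∧
        sat (v • c D) K ⊆ B) →
      (∀ u ∈ shs G K A, ∃ D : Set G, D.Finite ∧ u • S ∪ φ '' (u • S) ⊆ u • D ∧
        sat (u • c D) K ⊆ B) → Acy k A B := by
  obtain ⟨S, c, a1, a2, a3⟩ := acy_fold_le h k m
  refine ⟨S, c, a1, a2, fun φ A V V' B hA b1 b2 b3 b4 b5 n => ?_⟩
  rcases le_or_gt n m with hn | hn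
  · exact a3 φ A V V' B b1 b2 b3 b4 b5 n hn
  · obtain ⟨n, rfl⟩ : ∃ j, n = j + 1 := ⟨n - 1, by omega⟩
    exact fun z hz => B_mono b2 (hi_van hO h0 hA n (by omega) z hz.1 hz.2)

end top

end Crest.Agent.N255.Fa

end
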