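import Crest.Agent.N255.Fa.Cf

/-!
# Row 255 (helper44): reduction mod `p` of pro-vanishing statements for compactly supported cochains
-/

set_option autoImplicit false
open Finsupp

noncomputable section

namespace Crest.Agent.N255.Fa

open Gc Gs Ce Ch

/-- cocycles of `P` with `s = 0` are coboundaries from `P'` -/
def ExP {A : Type*} [AddCommGroup A] (δ : A →ₗ[ℤ] A) (s : A →ₗ[ℤ] ℤ) (P P' : Submodule ℤ A) : Prop :=
  ∀ b ∈ P, δ b = 0 → s b = 0 → ∃ a ∈ P', δ a = b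

section md
variable {A : Type} {p : ℕ} {V : Set A}

theorem exists_rd {a : A →₀ ZMod p} (ha : a ∈ supported (ZMod p) (ZMod p) V) :
    ∃ c ∈ Sp V, rd (ZMod p) c = a :=
  ⟨mapRange (fun x : ZMod p => (x.cast : ℤ)) ZMod.cast_zero a,
    (mem_supported' ℤ _).2 fun x hx => by
      rw [mapRange_apply, (mem_supported' _ _).1 ha x hx, ZMod.cast_zero],
    Finsupp.ext fun x => by rw [rd_apply, mapRange_apply, ZMod.intCast_zmod_cast]⟩

theorem exists_div {c : A →₀ ℤ} (hc : c ∈ Sp V) (h : rd (ZMod p) c = 0) :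
    ∃ c' ∈ Sp V, c = (p : ℤ) • c' :=
  ⟨mapRange (fun x : ℤ => x / p) (Int.zero_ediv _) c,
    (mem_supported' ℤ _).2 fun x hx => by
      rw [mapRange_apply, (mem_supported' _ _).1 hc x hx, Int.zero_ediv],
    Finsupp.ext fun x => by
      have := DFunLike.congr_fun h x
      rw [rd_apply, Finsupp.zero_apply, ZMod.intCast_zmod_eq_zero_iff_dvd] at this
      rw [Finsupp.smul_apply, mapRange_apply, smul_eq_mul, Int.mul_ediv_cancel' this]⟩

theorem rd_p (c : A →₀ ℤ) : rd (ZMod p) ((p : ℤ) • c) = 0 := by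
  ext x; simp [rd_apply]

/-- ungraded form -/
theorem exP_zmod (hp : p ≠ 0) {δ : (A →₀ ℤ) →ₗ[ℤ] (A →₀ ℤ)} {or : A → ℤ} {V' V'' : Set A}
    (st : ∀ φ, linearCombination ℤ or (δ φ) = 0) (dd : ∀ φ, δ (δ φ) = 0) (cl : Cl δ (Sp V))
    (hV : V ⊆ V') (e1 : ExP δ (linearCombination ℤ or) (Sp V) (Sp V'))
    (e2 : ExP δ (linearCombination ℤ or) (Sp V') (Sp V''))
    (t : Top δ (linearCombination ℤ or) (Sp V')) {a : A →₀ ZMod p}
    (ha : a ∈ supported (ZMod p) (ZMod p) V) (h0 : bc (ZMod p) δ a = 0)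
    (hs : linearCombination (ZMod p) (fun x => (or x : ZMod p)) a = 0) :
    ∃ b ∈ supported (ZMod p) (ZMod p) V'', bc (ZMod p) δ b = a := by
  have hp' : (p : ℤ) ≠ 0 := Int.natCast_ne_zero.2 hp
  obtain ⟨c, hc, rfl⟩ := exists_rd ha
  obtain ⟨c', hc', e⟩ := exists_div (p := p) (cl c hc) (by rw [← bc_rd, h0])
  obtain ⟨a', ha', e'⟩ := e1 c' hc'
    ((smul_eq_zero_iff_right hp').1 (by rw [← map_smul, ← e, dd]))
    ((smul_eq_zero_iff_right hp').1 (by rw [← map_smul, ← e, st]))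
  obtain ⟨b0, h1, h2, h3⟩ := t
  rw [lc_rd, ZMod.intCast_zmod_eq_zero_iff_dvd] at hs
  obtain ⟨r, hr⟩ := hs
  obtain ⟨b, hb, eb⟩ := e2 (c - (p : ℤ) • (a' + (r - linearCombination ℤ or a') • b0))
    (Submodule.sub_mem _ (Sp_mono hV hc) (Submodule.smul_mem _ _
      (Submodule.add_mem _ ha' (Submodule.smul_mem _ _ h1))))
    (by rw [map_sub, map_smul, map_add, map_smul, h2, smul_zero, add_zero, e', e, sub_self])
    (by rw [map_sub, map_smul, map_add, map_smul, h3, hr]; simp)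
  exact ⟨_, rd_mem hb, by rw [bc_rd, eb, map_sub, rd_p, sub_zero]⟩

end md

variable {G C : Type} [Group G] [MulAction G C] {U : UG G C} {or : C → ℤ} {V V' V'' : Set C}

/-- two steps of pro-vanishing -/
structure Qp (U : UG G C) (or : C → ℤ) (V V' V'' : Set C) : Prop where
  h4 : ∀ x, U.dim x ≤ 4
  hd : ∀ x, or x ≠ 0 → U.dim x = 4
  st : ∀ φ, linearCombination ℤ or (U.de φ) = 0
  cl : Cl U.de (Sp V)
  sub : V ⊆ V'
  e1 : ExP U.de (linearCombination ℤ or) (Sp V) (Sp V')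
  e2 : ExP U.de (linearCombination ℤ or) (Sp V') (Sp V'')
  top : ∃ b ∈ Sp V', linearCombination ℤ or b = 1

theorem exP_gr (e : ExP U.de (linearCombination ℤ or) (Sp V) (Sp V')) (n : ℕ)
    {a : U.X (n + 1) →₀ ℤ} (ha : a ∈ Sp (gV U V (n + 1))) (h0 : U.fr.de (n + 1) a = 0)
    (hs : linearCombination ℤ or (U.ι (n + 1) a) = 0) : ∃ b ∈ Sp (gV U V' n), U.fr.de n b = a := by
  obtain ⟨ψ, h1, e⟩ := e _ (ι_mem ha) (by rw [← U.ι_de, h0, map_zero]) hs
  exact ⟨_, π_mem n h1, U.de_π n e⟩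

namespace Qp

variable {p : ℕ}

/-- **cocycles mod `p` in `V` with orientation sum zero are coboundaries from `V''`** -/
theorem kill (h : Qp U or V V' V'') (hp : p ≠ 0) (n : ℕ) {a : U.X (n + 1) →₀ ZMod p}
    (ha : a ∈ supported (ZMod p) (ZMod p) (gV U V (n + 1)))
    (h0 : bc (ZMod p) (U.fr.de (n + 1)) a = 0)
    (hs : linearCombination (ZMod p) (fun x : U.X (n + 1) => (or x.1 : ZMod p)) a = 0) :
    ∃ b ∈ supported (ZMod p) (ZMod p) (gV U V'' n), bc (ZMod p) (U.fr.de n) b = a := by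
  have hp' : (p : ℤ) ≠ 0 := Int.natCast_ne_zero.2 hp
  obtain ⟨c, hc, rfl⟩ := exists_rd ha
  have hc1 : U.fr.de (n + 1) c ∈ Sp (gV U V (n + 1 + 1)) := by
    rw [U.fr_de]; exact π_mem _ (h.cl _ (ι_mem hc))
  obtain ⟨c', hc', e⟩ := exists_div (p := p) hc1 (by rw [← bc_rd, h0])
  obtain ⟨a', ha', e'⟩ := exP_gr h.e1 (n + 1) hc'
    ((smul_eq_zero_iff_right hp').1 (by rw [← map_smul, ← e, U.fr.de_de]))
    ((smul_eq_zero_iff_right hp').1 (by rw [← map_smul, ← map_smul, ← e, U.ι_de, h.st]))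
  rw [lc_rd, ZMod.intCast_zmod_eq_zero_iff_dvd] at hs
  obtain ⟨r, hr⟩ := hs
  have hcV : c ∈ Sp (gV U V' (n + 1)) :=
    Finsupp.supported_mono (s := gV U V (n + 1)) (fun _ hx => h.sub hx) hc
  have key : ∃ a'' ∈ Sp (gV U V' (n + 1)), U.fr.de (n + 1) a'' = c' ∧
      linearCombination ℤ or (U.ι (n + 1) (c - (p : ℤ) • a'')) = 0 := by
    by_cases hn : n + 1 = 4
    · obtain ⟨b0, h1, h2⟩ := h.top
      have h3 : linearCombination ℤ or (U.ι (n + 1) (U.π (n + 1) b0)) = 1 := by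
        rw [← h2, ← sub_eq_zero, ← map_sub]
        refine lc_eq_zero fun x hx => by_contra fun e => hx ?_
        rw [Finsupp.sub_apply, U.ι_π _ ((h.hd x e).trans hn.symm), sub_self]
      refine ⟨a' + (r - linearCombination ℤ or (U.ι (n + 1) a')) • U.π (n + 1) b0,
        Submodule.add_mem _ ha' (Submodule.smul_mem _ _ (π_mem _ h1)), Finsupp.ext fun y => ?_, ?_⟩
      · have := h.h4 y.1
        have := y.2
        omega
      · rw [map_sub, map_sub, U.lc_ι or c, hr]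
        simp only [map_smul, map_add, h3, smul_eq_mul]
        ring
    · exact ⟨a', ha', e', lc_eq_zero fun x hx => by_contra fun e =>
        hn ((U.ι_ne _ hx).symm.trans (h.hd x e))⟩
  obtain ⟨a'', h1, h2, h3⟩ := key
  obtain ⟨b, hb, eb⟩ := exP_gr h.e2 n (Submodule.sub_mem _ hcV (Submodule.smul_mem _ _ h1))
    (by rw [map_sub, map_smul, h2, e, sub_self]) h3
  exact ⟨_, rd_mem hb, by rw [bc_rd, eb, map_sub, rd_p, sub_zero]⟩

theorem or_zero (h : Qp U or V V' V'') {k : Type} [CommRing k] {n : ℕ} (hn : n ≠ 4)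
    (a : U.X n →₀ k) : linearCombination k (fun x : U.X n => (or x.1 : k)) a = 0 := by
  have : (fun x : U.X n => (or x.1 : k)) = 0 := funext fun x => by
    rw [not_ne_iff.1 fun e => hn (x.2.symm.trans (h.hd x.1 e)), Int.cast_zero, Pi.zero_apply]
  rw [this, linearCombination_zero, LinearMap.zero_apply]

/-- the form with labels -/
theorem killW (h : Qp U or V V' V'') (hp : p ≠ 0) (L : Lab G U.X) {A A' : Set G} (n : ℕ)
    (hA : ∀ x : U.X (n + 1), L.l _ x ∈ A → x.1 ∈ V) (hA' : ∀ x : U.X n, x.1 ∈ V'' → L.l _ x ∈ A') :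
    ∀ a ∈ (L.P (n + 1)).W (ZMod p) A, bc (ZMod p) (U.fr.de (n + 1)) a = 0 →
      linearCombination (ZMod p) (fun x : U.X (n + 1) => (or x.1 : ZMod p)) a = 0 →
      ∃ b ∈ (L.P n).W (ZMod p) A', bc (ZMod p) (U.fr.de n) b = a := fun _ ha h0 hs =>
  let ⟨b, h1, h2⟩ := h.kill hp n (supp_of_W _ L hA ha) h0 hs
  ⟨b, W_of_supp _ L hA' h1, h2⟩

end Qp

end Crest.Agent.N255.Fa

end
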