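import Crest.Agent.N255.Fa.Q0
import Crest.Agent.N255.Ce.Ex

/-!
# Row 255 (helper16): the fold onto a quadrant, on the group, on cells and on chains
-/

set_option autoImplicit false
set_option linter.unusedSectionVars false

noncomputable section

namespace Crest.Agent.N255.Fa

open Ra Ce Ce.Mir Ce.Mir.Cell Finsupp
open scoped Classical

section group

variable {S : Type} {Γ : SimpleGraph S} {Z : Set S} {a s t : S} {v w : W Γ}

/-- elements without first letter in `Z` -/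
def KZ (Γ : SimpleGraph S) (Z : Set S) : Set (W Γ) := {v | ∀ a ∈ Z, a ∉ Init v}

theorem one_KZ : (1 : W Γ) ∈ KZ Γ Z := fun a _ h => by simp [Init] at h

theorem KZ_down (hs : s ∉ In v) (h : v * gen Γ s ∈ KZ Γ Z) : v ∈ KZ Γ Z :=
  fun a ha k => h a ha (Init_up hs k)

theorem exists_cross (hv : v ∈ KZ Γ Z) (h : v * gen Γ s ∉ KZ Γ Z) :
    ∃ a ∈ Z, v * gen Γ s = gen Γ a * v := by
  simp only [KZ, Set.mem_ofPred_eq, not_forall, not_not] at h
  obtain ⟨a, ha, h⟩ := h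
  exact ⟨a, ha, cross v s (hv a ha) h⟩

theorem gen_mul_nmem (hv : v ∈ KZ Γ Z) (ha : a ∈ Z) : gen Γ a * v ∉ KZ Γ Z := fun h => h a ha <| by
  have := len_nmem' (hv a ha)
  change len _ < len _
  rw [gen_gen_mul]; omega

/-- goodness of a direction does not change along a commuting edge -/
theorem good_iff (hv : v ∈ KZ Γ Z) (hs : v * gen Γ s ∈ KZ Γ Z) (h : s ≠ t → Γ.Adj s t) :
    v * gen Γ s * gen Γ t ∈ KZ Γ Z ↔ v * gen Γ t ∈ KZ Γ Z := by
  have key : ∀ v : W Γ, v ∈ KZ Γ Z → v * gen Γ s ∈ KZ Γ Z → v * gen Γ t ∉ KZ Γ Z →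
      v * gen Γ s * gen Γ t ∉ KZ Γ Z := fun v h1 h2 h3 => by
    obtain ⟨a, ha, e⟩ := exists_cross h1 h3
    rw [mul_assoc, (gen_comm' h).eq, ← mul_assoc, e, mul_assoc]
    exact gen_mul_nmem h2 ha
  by_cases e : s = t
  · subst e; simp [hv, hs]
  exact ⟨fun k => by_contra fun n => key v hv hs n k, fun k => by_contra fun n =>
    key _ hs (by simpa using hv) n (by simpa using k)⟩

/-- one step inside the quadrant -/
def st (Z : Set S) (s : S) (v : W Γ) : W Γ := if v * gen Γ s ∈ KZ Γ Z then v * gen Γ s else v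

theorem st_mem (s : S) (hv : v ∈ KZ Γ Z) : st Z s v ∈ KZ Γ Z := by
  unfold st; split_ifs <;> assumption

theorem good_st (hv : v ∈ KZ Γ Z) (h : s ≠ t → Γ.Adj s t) :
    st Z s v * gen Γ t ∈ KZ Γ Z ↔ v * gen Γ t ∈ KZ Γ Z := by
  unfold st
  split_ifs with k
  exacts [good_iff hv k h, Iff.rfl]

theorem st_st (s : S) (hv : v ∈ KZ Γ Z) : st Z s (st Z s v) = v := by
  by_cases k : v * gen Γ s ∈ KZ Γ Z <;> simp [st, k, hv]

theorem st_comm (hv : v ∈ KZ Γ Z) (h : Γ.Adj s t) : st Z s (st Z t v) = st Z t (st Z s v) := by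
  rw [st, st.eq_1 Z t (st Z s v)]
  simp only [good_st hv fun _ => h, good_st hv fun _ => h.symm]
  by_cases k : v * gen Γ s ∈ KZ Γ Z <;> by_cases k' : v * gen Γ t ∈ KZ Γ Z <;>
    simp [st, k, k', mul_assoc, (gen_comm h).eq]

/-- the action on the quadrant -/
def act (Γ : SimpleGraph S) (Z : Set S) : W Γ →* (Function.End (KZ Γ Z))ᵐᵒᵖ :=
  lift (fun s => MulOpposite.op fun v => ⟨st Z s v.1, st_mem s v.2⟩)
    (fun s => congrArg MulOpposite.op (funext fun v => Subtype.ext (st_st s v.2)))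
    fun _ _ h => congrArg MulOpposite.op (funext fun v => Subtype.ext (st_comm v.2 h.symm))

/-- the fold -/
def fo (Z : Set S) (w : W Γ) : W Γ := ((act Γ Z w).unop ⟨1, one_KZ⟩).1

theorem fo_mem (Z : Set S) (w : W Γ) : fo Z w ∈ KZ Γ Z := Subtype.prop _

theorem fo_one : fo Z (1 : W Γ) = 1 := by rw [fo, map_one]; rfl

theorem fo_mul (w : W Γ) (s : S) : fo Z (w * gen Γ s) = st Z s (fo Z w) := by
  have : (act Γ Z (gen Γ s)).unop = fun v => ⟨st Z s v.1, st_mem s v.2⟩ :=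
    congrArg MulOpposite.unop (lift_gen _ _ _ s)
  rw [fo, map_mul, MulOpposite.unop_mul, this]; rfl

theorem fo_eq (h : w ∈ KZ Γ Z) : fo Z w = w := by
  induction w using ind_red with
  | one => exact fo_one
  | mul w s hs ih => rw [fo_mul, ih (KZ_down hs h), st, if_pos h]

/-- the fold stays in the coset `W_Z w` -/
theorem fo_coset (w : W Γ) : fo Z w * w⁻¹ ∈ WT Γ Z := by
  induction w using ind_right with
  | one => simp [fo_one]
  | mul w s ih =>
    rw [fo_mul, st]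
    split_ifs with k
    · simpa [mul_assoc] using ih
    · obtain ⟨a, ha, e⟩ := exists_cross (fo_mem Z w) k
      rw [mul_inv_rev, gen_inv, ← mul_assoc, e, mul_assoc]
      exact mul_mem (gen_mem_WT ha) ih

end group

variable {S K F Nd Ed : Type} [DecidableEq S] [Group F] [MulAction F Nd] [MulAction F Ed]
  [LinearOrder K] {M : Mir S K F Nd Ed} {Z : Set S} {x y z : M.Cell} {u v : W M.Γ} {s : S}

variable (M) in
/-- the quadrant -/
def ZS (Z : Set S) : Set M.Cell := {x | top x.w x.τ ∈ KZ M.Γ Z}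

theorem Z0_eq (τ : Finset S) : Z0 M τ = ZS M τ := rfl

theorem mem_ZS : x ∈ ZS M Z ↔ ∀ u, Has u x → u ∈ KZ M.Γ Z :=
  ⟨fun h _ hu a ha k => h a ha (init_of_has hu k), fun h => h _ x.has_top⟩

theorem ZS_le (h : x ≤ y) (hy : y ∈ ZS M Z) : x ∈ ZS M Z :=
  mem_ZS.2 fun u hu => mem_ZS.1 hy u (hu.mono h)

theorem mem_ZS_of (h : Has u x) (hu : u ∈ KZ M.Γ Z) (k : ∀ s ∈ x.τ, u * gen M.Γ s ∈ KZ M.Γ Z) :
    x ∈ ZS M Z := mem_ZS.2 fun v hv a ha hav => by
  obtain ⟨σ, hσ, e⟩ := (mem_WT x.cl).1 (h.rel hv)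
  rw [← mul_inv_cancel_left u v, e] at hav
  obtain ⟨s, hs, e'⟩ := cross_pr (x.cl.subset (Finset.coe_subset.2 hσ)) (hu a ha) hav
  exact gen_mul_nmem hu ha (e' ▸ k s (hσ hs))

/-- the cell of the type of `x` at `v`, oriented from `v` -/
def og (v : W M.Γ) (x : M.Cell) : M.Cell →₀ ℤ :=
  (sg v * sg (M.cn v x.τ)) • single (M.mk' v x.τ x.c x.cl x.sub) 1

theorem og_eq (h : Has v z) (e : z.τ = x.τ) (e' : z.c = x.c) :
    og v x = (sg v * sg z.w) • single z 1 := by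
  rw [← (has_mk' v x.τ x.c x.cl x.sub).ext h e.symm e'.symm]; rfl

theorem og_self (x : M.Cell) : og x.w x = single x 1 := by
  rw [og_eq (has_self x) rfl rfl, sg_sq, one_smul]

theorem has_hi_iff (hs : s ∈ y.τ) : Has (v * gen M.Γ s) (y.hi s) ↔ Has v (y.lo s) := by
  have c : ∀ g ∈ WT M.Γ (↑(y.τ.erase s) : Set S), gen M.Γ s * (g * gen M.Γ s) = g := fun g hg => by
    rw [← (comm_WT (fun t ht n => y.cl hs (Finset.mem_of_mem_erase ht) n) hg).eq, gen_gen_mul]
  rw [Has, hi_w hs, mul_inv_rev, gen_inv, mul_assoc, ← mul_assoc y.w⁻¹]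
  refine ⟨fun h => ?_, fun h => (c _ h).symm ▸ h⟩
  have := c _ h
  rw [mul_assoc, gen_gen_mul, mul_gen_gen] at this
  rw [← this] at h
  exact h

theorem bd_og (v : W M.Γ) (x : M.Cell) : M.bdL (og v x) =
    ∑ s ∈ x.τ, M.ε s x.τ • (og v (x.lo s) - og (v * gen M.Γ s) (x.lo s)) +
      (-1 : ℤ) ^ x.τ.card • (og v (x.en true) - og v (x.en false)) := by
  set y := M.mk' v x.τ x.c x.cl x.sub
  have hy : Has v y := has_mk' _ _ _ _ _
  rw [og_eq (x := x) hy rfl rfl, og_eq (x := x.en true) (z := y.en true) hy rfl rfl,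
    og_eq (x := x.en false) (z := y.en false) hy rfl rfl,
    map_smul, bdL_one, bd, smul_add, Finset.smul_sum]
  refine congrArg₂ (· + ·) (Finset.sum_congr rfl fun s hs => ?_) ?_
  · replace hs : s ∈ y.τ := hs
    rcases hy.lo_or_hi hs with k | k
    · rw [og_eq (x := x.lo s) k rfl rfl, og_eq (x := x.lo s) ((has_hi_iff hs).2 k) rfl rfl, hi_w hs,
        sg_gen, sg_gen]
      change _ • M.ε s x.τ • _ = _ • ((sg v * sg y.w) • _ - _)
      module
    · rw [og_eq (x := x.lo s) k rfl rfl, og_eq (x := x.lo s) (v := v * gen M.Γ s)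
        ((has_hi_iff hs).1 (by simpa using k)) rfl rfl, hi_w hs, sg_gen, sg_gen]
      change _ • M.ε s x.τ • _ = _ • (_ - (-sg v * sg y.w) • _)
      module
  · change _ • (-1 : ℤ) ^ x.τ.card • _ = _ • ((sg v * sg y.w) • _ - (sg v * sg y.w) • _)
    module

/-- the folded cell -/
def fc (Z : Set S) (x : M.Cell) : M.Cell :=
  M.mk' (fo Z x.w) (x.τ.filter fun s => fo Z x.w * gen M.Γ s ∈ KZ M.Γ Z) x.c
    (x.cl.subset (Finset.coe_subset.2 (Finset.filter_subset _ _)))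
    ((Finset.filter_subset _ _).trans x.sub)

theorem has_fc0 (x : M.Cell) : Has (fo Z x.w) (fc Z x) := has_mk' _ _ _ _ _

theorem fc_mem (x : M.Cell) : fc Z x ∈ ZS M Z :=
  mem_ZS_of (has_fc0 x) (fo_mem _ _) fun _ hs => (Finset.mem_filter.1 hs).2

theorem fc_eq (h : x ∈ ZS M Z) : fc Z x = x := by
  have e := fo_eq (mem_ZS.1 h _ (has_self x))
  refine (has_fc0 x).ext (e.symm ▸ has_self x) (Finset.filter_true_of_mem fun s hs => ?_) rfl
  rw [e]
  exact mem_ZS.1 h _ ((has_self x).mul (gen_mem_WT hs))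

theorem has_fc (h : Has u x) : Has (fo Z u) (fc Z x) ∧
    ∀ t ∈ x.τ, fo Z u * gen M.Γ t ∈ KZ M.Γ Z ↔ fo Z x.w * gen M.Γ t ∈ KZ M.Γ Z := by
  obtain ⟨σ, hσ, e⟩ := (mem_WT x.cl).1 h
  rw [← mul_inv_cancel_left x.w u, e]
  clear e h
  induction σ using Finset.induction_on with
  | empty => simpa using has_fc0 x
  | insert s σ hs ih =>
    obtain ⟨h1, h2⟩ := ih ((Finset.subset_insert _ _).trans hσ)
    have m := hσ (Finset.mem_insert_self _ _)
    rw [pr_insert (x.cl.subset (Finset.coe_subset.2 hσ)) hs, ← mul_assoc, fo_mul]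
    refine ⟨?_, fun t ht => (good_st (fo_mem _ _) (x.cl m ht)).trans (h2 t ht)⟩
    unfold st
    split_ifs with k
    · exact h1.mul (gen_mem_WT (Finset.mem_filter.2 ⟨m, (h2 s m).1 k⟩))
    · exact h1

theorem fc_mono (h : x ≤ y) : fc Z x ≤ fc Z y :=
  le_of_has (has_fc0 x) (has_fc h.2.2).1 (fun s hs => Finset.mem_filter.2
    ⟨h.1 (Finset.mem_filter.1 hs).1, ((has_fc h.2.2).2 s (h.1 (Finset.mem_filter.1 hs).1)).1
      (Finset.mem_filter.1 hs).2⟩) h.2.1

/-- the fold of a cell -/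
def r0 (Z : Set S) (x : M.Cell) : M.Cell →₀ ℤ :=
  if ∀ s ∈ x.τ, fo Z x.w * gen M.Γ s ∈ KZ M.Γ Z then og (fo Z x.w) x else 0

variable (M) in
/-- the fold on chains -/
def rL (Z : Set S) : (M.Cell →₀ ℤ) →ₗ[ℤ] (M.Cell →₀ ℤ) := linearCombination ℤ (r0 Z)

@[simp] theorem rL_one (x : M.Cell) : rL M Z (single x 1) = r0 Z x := by simp [rL]

theorem r0_ne (h : r0 Z x y ≠ 0) : y = fc Z x ∧ y.τ = x.τ := by
  unfold r0 at h
  split_ifs at h with k
  · have e : (fc Z x).τ = x.τ := Finset.filter_true_of_mem k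
    rw [og_eq (has_fc0 x) e rfl] at h
    have := (single_apply_ne_zero.1 (right_ne_zero_of_mul h)).1
    exact ⟨this, this ▸ e⟩
  · exact (h rfl).elim

theorem r0_eq (h : x ∈ ZS M Z) : r0 Z x = single x 1 := by
  have e := fo_eq (mem_ZS.1 h _ (has_self x))
  have k : ∀ s ∈ x.τ, x.w * gen M.Γ s ∈ KZ M.Γ Z := fun s hs =>
    mem_ZS.1 h _ ((has_self x).mul (gen_mem_WT (Finset.mem_coe.2 hs)))
  rw [r0, e, if_pos k, og_self]

theorem aug_r0 (x : M.Cell) : M.aug (r0 Z x) = M.aug (single x 1) := by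
  by_cases h : x.dim = 0
  · have e : x.τ = ∅ := Finset.card_eq_zero.1 (by unfold dim at h; omega)
    have c : M.cn (fo Z x.w) x.τ = fo Z x.w := by simp [cn, e]
    rw [r0, if_pos (by simp [e]), og, map_smul, aug_one, aug_one, c, sg_sq, one_smul]
    rfl
  · rw [aug_one, if_neg h]
    exact lc_eq_zero fun y hy => if_neg (by
      rwa [dim, (r0_ne hy).2, (r0_ne hy).1])

theorem bd_r0 (x : M.Cell) : M.bdL (r0 Z x) = rL M Z x.bd := by
  have hv := fo_mem Z x.w
  have hi : ∀ s ∈ x.τ, r0 Z (x.hi s) = if ∀ t ∈ x.τ.erase s, fo Z x.w * gen M.Γ t ∈ KZ M.Γ Z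
      then og (st Z s (fo Z x.w)) (x.lo s) else 0 := fun s hs => by
    rw [r0, hi_w hs, fo_mul]
    exact if_congr (forall₂_congr fun t ht => good_st hv (x.cl hs (Finset.mem_of_mem_erase ht)))
      rfl rfl
  have lo : ∀ s, r0 Z (x.lo s) = if ∀ t ∈ x.τ.erase s, fo Z x.w * gen M.Γ t ∈ KZ M.Γ Z
      then og (fo Z x.w) (x.lo s) else 0 := fun _ => rfl
  have en : ∀ b, r0 Z (x.en b) = if ∀ t ∈ x.τ, fo Z x.w * gen M.Γ t ∈ KZ M.Γ Z
      then og (fo Z x.w) (x.en b) else 0 := fun _ => rfl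
  rw [bd]
  simp only [map_add, map_sum, map_smul, map_sub, rL_one, lo, en]
  by_cases k : ∀ s ∈ x.τ, fo Z x.w * gen M.Γ s ∈ KZ M.Γ Z
  · rw [r0, if_pos k, if_pos k, if_pos k, bd_og]
    refine congrArg (· + _) (Finset.sum_congr rfl fun s hs => ?_)
    have k' : ∀ t ∈ x.τ.erase s, fo Z x.w * gen M.Γ t ∈ KZ M.Γ Z := fun t ht =>
      k t (Finset.mem_of_mem_erase ht)
    rw [hi s hs, if_pos k', if_pos k', st, if_pos (k s hs)]
  · rw [r0, if_neg k, if_neg k, if_neg k, map_zero, sub_self, smul_zero, add_zero, eq_comm]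
    refine Finset.sum_eq_zero fun s hs => ?_
    rw [hi s hs]
    split_ifs with k'
    · rw [st, if_neg fun n => k fun t ht => by
        by_cases e : t = s
        exacts [e ▸ n, k' t (Finset.mem_erase.2 ⟨e, ht⟩)], sub_self, smul_zero]
    · rw [sub_self, smul_zero]

theorem bd_rL (b : M.Cell →₀ ℤ) : M.bdL (rL M Z b) = rL M Z (M.bdL b) := by
  induction b using Finsupp.induction_linear with
  | zero => simp
  | add f g hf hg => simp [hf, hg]
  | single a k => simp only [← smul_single_one a k, map_smul, rL_one, bdL_one, bd_r0]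

end Crest.Agent.N255.Fa

end
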