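import Crest.Agent.N255.Fa.Hyp
import Crest.Agent.N255.Fa.Fo

/-!
# Row 255 (helper38): metric properties of the fold
-/

set_option autoImplicit false
set_option linter.unusedSectionVars false

noncomputable section

namespace Crest.Agent.N255.Fa

open Ra Ce

variable {S K F Nd Ed : Type} [DecidableEq S] [Group F] [MulAction F Nd] [MulAction F Ed]
  {M : Ce.Mir S K F Nd Ed} {x y z : Vt M} {Z Z' : Set S} {a b s : S}

theorem mem_KV : x ∈ KV M Z ↔ x.1 ∈ KZ M.Γ Z := Iff.rfl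

theorem fo_left {Γ : SimpleGraph S} (ha : a ∈ Z) (w : W Γ) : fo Z (gen Γ a * w) = fo Z w := by
  induction w using ind_right with
  | one =>
    rw [mul_one, ← one_mul (gen Γ a), fo_mul, fo_one, st, if_neg]
    simpa using gen_mul_nmem (one_KZ (Γ := Γ)) ha
  | mul w s ih => rw [← mul_assoc, fo_mul, fo_mul, ih]

theorem fo_left' {Γ : SimpleGraph S} {u : W Γ} (hu : u ∈ WT Γ Z) (w : W Γ) : fo Z (u * w) = fo Z w := by
  induction hu using Subgroup.closure_induction generalizing w with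
  | mem x hx => obtain ⟨a, ha, rfl⟩ := hx; exact fo_left ha w
  | one => rw [one_mul]
  | mul x y _ _ a b => rw [mul_assoc, a, b]
  | inv x _ a => rw [← a, mul_inv_cancel_left]

theorem Init_adj {Γ : SimpleGraph S} (h : Γ.Adj a b) (w : W Γ) : b ∈ Init (gen Γ a * w) ↔ b ∈ Init w := by
  rw [Init_eq, Init_eq, mul_inv_rev, gen_inv, mem_In_mul_adj h]

/-- the fold on vertices -/
def fv (Z : Set S) (x : Vt M) : Vt M := (fo Z x.1, x.2)

theorem fv_mem (Z : Set S) (x : Vt M) : fv Z x ∈ KV M Z := fo_mem Z x.1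

theorem fv_eq (h : x ∈ KV M Z) : fv Z x = x := Prod.ext (fo_eq h) rfl

theorem fv_inl {u : W M.Γ} (hu : u ∈ WT M.Γ Z) (x : Vt M) :
    fv Z ((SemidirectProduct.inl u : M.G0) • x) = fv Z x := by
  rw [inl_smul]; exact Prod.ext (fo_left' hu _) rfl

theorem exists_fv (Z : Set S) (x : Vt M) :
    ∃ u ∈ WT M.Γ Z, fv Z x = (SemidirectProduct.inl u : M.G0) • x :=
  ⟨_, fo_coset x.1, by rw [inl_smul, inv_mul_cancel_right]; rfl⟩

theorem ed_fv (Z : Set S) {c : S ⊕ Ed} (h : ed M x c y) : fv Z y = fv Z x ∨ ed M (fv Z x) c (fv Z y) := by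
  rcases c with s | e
  · obtain ⟨h, rfl⟩ := h
    simp only [fv, fo_mul, st]
    split_ifs
    · exact .inr ⟨h, rfl⟩
    · exact .inl rfl
  · exact .inr ⟨congrArg (fo Z) h.1, h.2⟩

/-- the fold is `1`-Lipschitz -/
theorem dl_fv (Z : Set S) (x y : Vt M) : dl M (fv Z x) (fv Z y) ≤ dl M x y := by
  generalize e : dl M x y = k
  induction k generalizing y with
  | zero => rw [eq_of_dl e, dl_self']
  | succ k ih =>
    obtain ⟨c, z, h1, h2⟩ := dl_step e
    have := ih z h2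
    rcases ed_fv Z h1 with h | h
    · rw [← h]; omega
    · have := dl_tri' (fv Z x) (fv Z z) (fv Z y)
      have := dl_ed h
      have := dl_comm' (fv Z z) (fv Z y)
      omega

theorem dl_fv_le (h : z ∈ KV M Z) (x : Vt M) : dl M z (fv Z x) ≤ dl M z x := by
  simpa only [fv_eq h] using dl_fv Z z x

theorem dl_fv_self (Z : Set S) (x : Vt M) : dl M x (fv Z x) ≤ 2 * ds M Z x := by
  obtain ⟨z, hz, e⟩ := exists_dl Z x
  have := dl_tri' x z (fv Z x)
  have := dl_fv_le hz x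
  have := dl_comm' x z
  omega

theorem ds_fv_le (h : Z ⊆ Z') (x : Vt M) : ds M Z' (fv Z x) ≤ ds M Z' x := by
  obtain ⟨z, hz, e⟩ := exists_dl Z' x
  exact (ds_le_dl hz _).trans ((dl_fv_le (KV_anti h hz) x).trans e.le)

theorem rad_fv (Z : Set S) (x : Vt M) : rad M (fv Z x) ≤ rad M x := ds_fv_le (Set.subset_univ Z) x

theorem ds_fv (Z : Set S) (x : Vt M) : ds M Z (fv Z x) = 0 := ds_eq_zero.2 (fv_mem Z x)

theorem ds_gen (h : ∀ b ∈ Z', M.Γ.Adj a b) (x : Vt M) : ds M Z' (gen M.Γ a * x.1, x.2) = ds M Z' x := by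
  rw [← inl_smul]
  exact ds_smul _ (fun x => forall₂_congr fun b hb => by rw [inl_smul, Init_adj (h b hb)]) x

/-- the fold does not change the depth behind the other walls -/
theorem ds_fv_of (hd : Disjoint Z Z') (h : Z' ⊆ Init x.1) :
    ds M Z' (fv Z x) = ds M Z' x ∧ Z' ⊆ Init (fv Z x).1 := by
  generalize e : len x.1 = k
  induction k using Nat.strong_induction_on generalizing x with
  | _ k ih =>
  by_cases c : x ∈ KV M Z
  · rw [fv_eq c]; exact ⟨rfl, h⟩
  simp only [KV, Set.mem_ofPred_eq, not_forall, not_not] at c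
  obtain ⟨a, ha, c⟩ := c
  have j : ∀ b ∈ Z', M.Γ.Adj a b := fun b hb =>
    Init_clique _ c (h hb) fun e => Set.disjoint_left.1 hd ha (e ▸ hb)
  have := ih (len (gen M.Γ a * x.1)) (by have := len_mem' c; omega) (x := (gen M.Γ a * x.1, x.2))
    (fun b hb => (Init_adj (j b hb) _).2 (h hb)) rfl
  rwa [ds_gen j, show fv Z ((gen M.Γ a * x.1, x.2) : Vt M) = fv Z x from Prod.ext (fo_left ha _) rfl] at this

theorem n_fv (hb : b ∉ Z) (h : 0 < n M b x) : n M b (fv Z x) = n M b x :=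
  (ds_fv_of (Set.disjoint_singleton_right.2 hb) (Set.singleton_subset_iff.2 (n_pos.1 h))).1

theorem n_le_fv (hb : b ∉ Z) (x : Vt M) : n M b x ≤ n M b (fv Z x) := by
  rcases Nat.eq_zero_or_pos (n M b x) with e | e
  · omega
  · exact (n_fv hb e).ge

theorem fo_aut (f : F) (Z : Set S) (w : W M.Γ) :
    fo (M.ρ f '' Z) (aut (M.ρ f) w) = aut (M.ρ f) (fo Z w) := by
  induction w using ind_right with
  | one => rw [map_one, fo_one, fo_one, map_one]
  | mul w s ih =>
    have : aut (M.ρ f) (fo Z w) * gen M.Γ (M.ρ f s) ∈ KZ M.Γ (M.ρ f '' Z) ↔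
        fo Z w * gen M.Γ s ∈ KZ M.Γ Z := by
      rw [← aut_gen, ← map_mul]; simp only [KZ, Set.mem_ofPred_eq, Set.forall_mem_image, mem_Init_aut]
    rw [map_mul, aut_gen, fo_mul, fo_mul, ih, st, st]
    by_cases k : fo Z w * gen M.Γ s ∈ KZ M.Γ Z
    · rw [if_pos k, if_pos (this.2 k), map_mul, aut_gen]
    · rw [if_neg k, if_neg fun e => k (this.1 e)]

theorem fv_inr (f : F) (Z : Set S) (x : Vt M) :
    fv (M.ρ f '' Z) ((SemidirectProduct.inr f : M.G0) • x) = (SemidirectProduct.inr f : M.G0) • fv Z x := by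
  rw [inr_smul, inr_smul]; exact Prod.ext (fo_aut f Z x.1) rfl

end Crest.Agent.N255.Fa
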