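import Crest.Agent.N255.Fa.Ho
import Crest.Agent.N255.Fa.Hf
import Crest.Agent.N255.Ce.Fr
import Crest.Agent.N255.Gs.Pa

/-!
# Row 255 (helper16): (GL) pro-vanishing of compactly supported cohomology far from a quadrant
-/

set_option autoImplicit false
set_option linter.unusedSectionVars false

noncomputable section

namespace Crest.Agent.N255.Fa

open Ra Ce Ce.Mir Ce.Mir.Cell Finsupp Ch

variable {S K F Nd Ed : Type} [DecidableEq S] [Group F] [MulAction F Nd] [MulAction F Ed]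
  [LinearOrder K] {M : Mir S K F Nd Ed} {x y : M.Cell} {u v : Vt M}

/-- `v` is a vertex of the cell `x` -/
def Vc (v : Vt M) (x : M.Cell) : Prop := Has v.1 x ∧ M.tle (.inl v.2) x.c

/-- the base vertex of a cell -/
def pt (x : M.Cell) : Vt M := (x.w, M.nd true x.c)

theorem vc_pt (x : M.Cell) : Vc (pt x) x := ⟨has_self x, tle_nd _ _⟩

theorem Vc.mono (h : Vc v x) (k : x ≤ y) : Vc v y := ⟨h.1.mono k, h.2.trans k.2.1⟩

theorem pt_smul (g : M.G) (x : M.Cell) : pt (g • x) = g.1 • pt x :=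
  Prod.ext rfl (M.nd_smul _ _ _)

theorem Vc.smul (g : M.G) (h : Vc v x) : Vc (g.1 • v) (g • x) := ⟨h.1.smul g, h.2.smul g.1.right⟩

theorem dl_pr {σ : Finset S} (hσ : M.Γ.IsClique (σ : Set S)) (w : W M.Γ) {t : Nd}
    (h : σ ⊆ M.sp t) : dl M (w, t) (w * pr M.Γ σ, t) ≤ σ.card := by
  induction σ using Finset.induction_on with
  | empty => simp [dl_self']
  | insert s σ hs ih =>
    have := ih (hσ.subset (by simp)) ((Finset.subset_insert _ _).trans h)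
    have := dl_tri' (w, t) (w * pr M.Γ σ, t) (w * pr M.Γ σ * gen M.Γ s, t)
    have : dl M (w * pr M.Γ σ, t) (w * pr M.Γ σ * gen M.Γ s, t) = 1 :=
      dl_ed (b := .inl s) ⟨h (Finset.mem_insert_self _ _), rfl⟩
    rw [pr_insert hσ hs, ← mul_assoc, Finset.card_insert_of_notMem hs]
    omega

theorem dl_nd (w : W M.Γ) {t t' : Nd} {c : Nd ⊕ Ed} (h : M.tle (.inl t) c) (h' : M.tle (.inl t') c) :
    dl M (w, t) (w, t') ≤ tdim c := by
  rcases c with p | e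
  · rw [tle_inl, Sum.inl.injEq] at h h'
    rw [h, h', dl_self']
    exact Nat.zero_le _
  · simp only [tle_inr, reduceCtorEq, Sum.inl.injEq, false_or] at h h'
    rcases h with rfl | rfl <;> rcases h' with rfl | rfl
    · rw [dl_self']; exact Nat.zero_le _
    · exact le_of_eq (dl_ed (b := .inr e) ⟨rfl, .inl ⟨rfl, rfl⟩⟩)
    · exact le_of_eq (dl_ed (b := .inr e) ⟨rfl, .inr ⟨rfl, rfl⟩⟩)
    · rw [dl_self']; exact Nat.zero_le _

/-- the vertices of a cell are at distance at most four -/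
theorem Vc.dl_le (h : Vc u x) (k : Vc v x) : dl M u v ≤ 4 := by
  obtain ⟨σ, hσ, e⟩ := (mem_WT x.cl).1 (h.1.rel k.1)
  have h1 := dl_pr (x.cl.subset (Finset.coe_subset.2 hσ)) u.1 (hσ.trans (x.sub.trans h.2.sup))
  rw [← e, mul_inv_cancel_left] at h1
  have := dl_nd v.1 h.2 k.2
  have := dl_tri' u (v.1, u.2) v
  have := Finset.card_le_card hσ
  have := x.dim_le
  unfold Cell.dim at this
  change dl M u _ ≤ _ at h1
  change dl M _ v ≤ _ at *
  omega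

variable [Finite K]

theorem vc_fin (v : Vt M) : {x : M.Cell | Vc v x}.Finite :=
  (M.pg.up (M.mk' v.1 ∅ (.inl v.2) (by simp) (by simp))).subset fun _ h =>
    le_of_has (has_mk' _ _ _ _ _) h.1 (Finset.empty_subset _) h.2

theorem vc_fin' {N : Set (Vt M)} (h : N.Finite) : {x : M.Cell | ∃ v ∈ N, Vc v x}.Finite :=
  (h.biUnion fun v _ => vc_fin v).subset fun _ ⟨_, a, b⟩ => Set.mem_biUnion a b

variable (M) in
theorem met : Met M.G fun x y : M.Cell => dl M (pt x) (pt y) where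
  refl _ := dl_self' _
  symm _ _ := dl_comm' _ _
  tri _ _ _ := dl_tri' _ _ _
  inv g x y := by rw [pt_smul, pt_smul, dl_smul]
  fin x k := (vc_fin' (ball_fin (pt x) k)).subset fun y h => ⟨_, h, vc_pt y⟩

theorem fd_r0 (Z : Set S) :
    Fd M.ug (fun x y => dl M (pt x) (pt y)) 8 (r0 Z) fun x => 2 * ds M Z (pt x) + 4 where
  ch := bd_r0
  au := aug_r0
  nr x y h := by
    have := Vc.dl_le (u := fv Z (pt x)) (x := fc Z x) ⟨has_fc0 x, tle_nd _ _⟩ (vc_pt _)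
    have := dl_fv_self Z (pt x)
    have := dl_tri' (pt x) (fv Z (pt x)) (pt (fc Z x))
    rw [(r0_ne h).1]
    omega
  lip y x h := by
    have := (vc_pt y).dl_le ((vc_pt x).mono (le_of_bd h))
    have := ds_lip Z (pt y) (pt x)
    omega

/-- **controlled homotopy between the identity and the fold**, uniformly in `Z` -/
theorem fold_homot : ∃ c : ℕ → ℕ, Monotone c ∧ ∀ Z : Set S, ∃ h : M.Cell → M.Cell →₀ ℤ, ∀ x,
    M.bdL (h x) = single x 1 - r0 Z x - linearCombination ℤ h x.bd ∧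
      ∀ y, h x y ≠ 0 → dl M (pt x) (pt y) ≤ c (ds M Z (pt x)) := by
  obtain ⟨c, mc, hc⟩ := homot M.ug (met M) 8 5
  refine ⟨fun k => c (2 * k + 4), fun _ _ h => mc (by omega), fun Z => ?_⟩
  obtain ⟨h, hh⟩ := hc _ _ (fd_r0 Z)
  exact ⟨h, fun x => have := hh x (Nat.lt_succ_of_le x.dim_le); ⟨this.1, mem_Bl.1 this.2.2⟩⟩

/-- **(GL)** on cells -/
theorem gl (H : M.Cham) : ∃ c : ℕ → ℕ, Monotone c ∧ ∀ σ : Finset S, M.Γ.IsClique (σ : Set S) →
    σ.Nonempty → ∀ A A'' : Set M.Cell, Z0 M σ ⊆ A'' →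
      (∀ x ∈ A, ∀ y, dl M (pt x) (pt y) ≤ c (ds M σ (pt x)) → y ∈ A'') →
      (∀ y, {x | x ∈ A ∧ dl M (pt x) (pt y) ≤ c (ds M σ (pt x))}.Finite) →
      (∀ φ, (∀ y ∈ A'', M.ug.de φ y = 0) → ∃ χ, ∀ y ∈ A, M.ug.de χ y = φ y) ∧
        PEx M.ug H.oc A''ᶜ Aᶜ := by
  obtain ⟨c, mc, hc⟩ := gl_abs M.ug (met M) (N := 4) Cell.dim_le 8
  refine ⟨fun k => c (2 * k + 4), fun _ _ h => mc (by omega), fun σ hσ ne A A'' h1 h2 h3 => ?_⟩
  have := hc _ _ (Z0 M σ) A A'' (fd_r0 σ) (fun x y h => (r0_ne h).1 ▸ fc_mem x)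
    (fun φ h => (quad M.ug.de_apply H M.ug.de_de hσ ne φ h).imp fun _ k => k.2) h1 h2 h3
  exact ⟨this, off_of_on M.ug (H.coex M.ug.de_apply M.ug.de_de) this⟩

/-- **(GL)** for sets of vertices: from the cells meeting `V'` to the cells inside `V` -/
theorem glV (H : M.Cham) : ∃ c : ℕ → ℕ, Monotone c ∧ ∀ σ : Finset S, M.Γ.IsClique (σ : Set S) →
    σ.Nonempty → ∀ V' V : Set (Vt M), (∀ u ∈ V', ∃ a ∈ σ, a ∈ Init u.1) →
      (∀ u ∈ V', ∀ v, dl M v u ≤ c (ds M σ v) → v ∈ V) →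
      (∀ u, {v | v ∉ V ∧ dl M v u ≤ c (ds M σ v)}.Finite) →
      PEx M.ug H.oc {x | ∃ u ∈ V', Vc u x} {x | ∀ v, Vc v x → v ∈ V} := by
  obtain ⟨c, mc, hc⟩ := gl H
  refine ⟨fun k => c (k + 4) + 8, fun _ _ h => Nat.add_le_add_right (mc (by omega)) _,
    fun σ hσ ne V' V h1 h2 h3 => ?_⟩
  have key : ∀ {x y : M.Cell} {u v : Vt M}, Vc v x → Vc u y →
      dl M (pt x) (pt y) ≤ c (ds M σ (pt x)) → dl M v u ≤ c (ds M σ v + 4) + 8 := fun {x y u v} a b k => by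
    have := a.dl_le (vc_pt x)
    have := (vc_pt y).dl_le b
    have := dl_tri' v (pt x) u
    have := dl_tri' (pt x) (pt y) u
    have := mc ((ds_lip σ v (pt x)).trans (Nat.add_le_add_left (a.dl_le (vc_pt x)) _))
    omega
  refine (hc σ hσ ne {x | ∃ v, Vc v x ∧ v ∉ V} {x | ¬∃ u ∈ V', Vc u x}
    (fun x hx ⟨u, a, b⟩ => ?_) (fun x ⟨v, a, b⟩ y k ⟨u, e, f⟩ => b (h2 u e v (key a f k)))
    fun y => (vc_fin' (h3 (pt y))).subset fun x ⟨⟨v, a, b⟩, k⟩ =>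
      ⟨v, ⟨b, key a (vc_pt y) k⟩, a⟩).2.mono (fun x h k => k h)
    fun x h v a => by_contra fun b => h ⟨v, a, b⟩
  obtain ⟨a, h, k⟩ := h1 u a
  exact mem_Z0.1 hx _ b.1 a h k

/-- **(GL)** for threshold functions: `{∃ a ∈ σ, th' < n a} → {∃ a ∈ σ, th < n a}` -/
theorem glT (H : M.Cham) : ∃ c : ℕ → ℕ, Monotone c ∧ ∀ σ : Finset S, M.Γ.IsClique (σ : Set S) →
    σ.Nonempty → ∀ th' th : Vt M → ℕ, (∀ u v, dl M v u ≤ c (th v) → th v + c (th v) ≤ th' u) →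
      (∀ u, {v | dl M v u ≤ c (th v)}.Finite) →
      PEx M.ug H.oc {x | ∃ u, (∃ a ∈ σ, th' u < n M a u) ∧ Vc u x}
        {x | ∀ v, Vc v x → ∃ a ∈ σ, th v < n M a v} := by
  obtain ⟨c, mc, hc⟩ := glV H
  refine ⟨fun k => c (4 * k), fun _ _ h => mc (by omega), fun σ hσ ne th' th h1 h2 => ?_⟩
  have key : ∀ v, (¬∃ a ∈ σ, th v < n M a v) → c (ds M σ v) ≤ c (4 * th v) := fun v h =>
    mc (ds_le_of fun a ha _ => not_lt.1 fun k => h ⟨a, ha, k⟩)
  refine hc σ hσ ne {u | ∃ a ∈ σ, th' u < n M a u} {v | ∃ a ∈ σ, th v < n M a v}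
    (fun u ⟨a, h, k⟩ => ⟨a, h, n_pos.1 (by omega)⟩) (fun u ⟨a, h, k⟩ v e => by_contra fun m => ?_)
    fun u => (h2 u).subset fun v h => h.2.trans (key v h.1)
  have := key v m
  have := h1 u v (e.trans this)
  have := n_lip a v u
  exact m ⟨a, h, by beta_reduce at *; omega⟩

end Crest.Agent.N255.Fa

end
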