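import Crest.Agent.N255.Fa.Cel
import Crest.Agent.N255.Fa.Gl

/-!
# Row 255 (helper38): pro-vanishing with mixed thresholds (descent closure)
-/

set_option autoImplicit false
set_option linter.unusedSectionVars false

noncomputable section

namespace Crest.Agent.N255.Fa

open Ra Ce Ce.Mir Ce.Mir.Cell Ch Finsupp

variable {S K F Nd Ed : Type} [DecidableEq S] [Group F] [MulAction F Nd] [MulAction F Ed]
  [LinearOrder K] {M : Ce.Mir S K F Nd Ed} {σ : Finset S} {A : Set (Vt M)}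

theorem vx_iff {c : M.Cell} {x : Vt M} : Vx c x ↔ Vc x c := Iff.rfl

theorem compl_fu (V : Set (Vt M)) : (Fu Vx Vᶜ)ᶜ = {x : M.Cell | ∃ u ∈ V, Vc u x} := by
  ext c
  simp only [Fu, Set.mem_compl_iff, Set.mem_ofPred_eq, not_forall, not_not, exists_prop, vx_iff, and_comm]

/-- the descent closure of `A`, no distance to a smaller quadrant grows -/
def dcm (Z : Set S) (A : Set (Vt M)) : Set (Vt M) :=
  {y | ∃ x ∈ A, dl M x y + ds M Z y ≤ ds M Z x ∧ ∀ Z' ⊆ Z, ds M Z' y ≤ ds M Z' x}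

theorem subset_dcm (Z : Set S) (A : Set (Vt M)) : A ⊆ dcm Z A := fun x hx =>
  ⟨x, hx, by simp [dl_self'], fun _ _ => le_rfl⟩

variable [Finite K] (H : M.Cham)
include H

theorem acyc_dcm (hσ : M.Γ.IsClique (σ : Set S)) (hne : σ.Nonempty) (hA : KV M σ ⊆ A)
    (hf : ∀ y, {x ∈ A | dl M x y ≤ 5 * ds M σ x + 20}.Finite) :
    Acyc M.ug.de ⊤ (Sp (Fu Vx (dcm σ A))ᶜ) := by
  classical
  have : Nonempty (S ⊕ Ed) := ⟨.inl hne.choose⟩
  have Q := cvx (M := M) (σ : Set S)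
  refine Acyc.trans M.ug.de_de le_top (Sp_mono (Set.compl_subset_compl.2 fun c h x hx =>
    subset_dcm _ _ (hA (h x hx)))) (P2 := Sp (Fu Vx (KV M σ))ᶜ) ?_
    ((cb M).collapse_cl' M.ug.de_apply M.ug.de_de Q card_Lc_le hf (fun y h => h.imp fun _ k => ⟨k.1, k.2.1⟩) ?_)
  · rw [fu_KV]
    exact acyc_quad M.ug.de_apply H M.ug.de_de hσ hne
  · rintro y ⟨x, hx, k, k'⟩ a z h1 h2
    have : ds M σ y = ds M σ z + 1 := ns_desc (lab M) Q.ne h1 h2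
    have := dl_tri' x y z
    have := dl_ed h1
    exact ⟨x, hx, by omega, fun Z' hZ => le_trans (Set.ncard_le_ncard (sep_desc_mono (lab M) Q.ne
      (KV_anti hZ) h1 h2) (sep_finite (lab M) (cvx Z').ne y)) (k' Z' hZ)⟩

theorem qd_dcm (hσ : M.Γ.IsClique (σ : Set S)) (hne : σ.Nonempty) (hA : KV M σ ⊆ A)
    (hf : ∀ y, {x ∈ A | dl M x y ≤ 5 * ds M σ x + 20}.Finite) : Qd M.ug H.oc (Fu Vx (dcm σ A))ᶜ :=
  qd_of_acyc H (cl_fu _) (acyc_dcm H hσ hne hA hf)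

/-- an exact set between the cells meeting `V'` and the cells meeting `V` -/
theorem exists_qd (hσ : M.Γ.IsClique (σ : Set S)) (hne : σ.Nonempty) {V' V : Set (Vt M)}
    (h1 : ∀ u ∈ V, ∃ a ∈ σ, a ∈ Init u.1)
    (h2 : ∀ v u, v ∉ V → dl M v u ≤ ds M σ v → (∀ a ∈ σ, n M a u ≤ n M a v) → u ∉ V')
    (h3 : ∀ u, {v | v ∉ V ∧ dl M v u ≤ 5 * ds M σ v + 20}.Finite) :
    ∃ B, Qd M.ug H.oc B ∧ {x | ∃ u ∈ V', Vc u x} ⊆ B ∧ B ⊆ {x | ∃ u ∈ V, Vc u x} := by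
  refine ⟨_, qd_dcm H (A := Vᶜ) hσ hne (fun u hu k => (h1 u k).elim fun a ha => hu a ha.1 ha.2) h3, ?_, ?_⟩ <;>
    rw [← compl_fu] <;> refine Set.compl_subset_compl.2 fun c h x hx => ?_
  · obtain ⟨z, k1, k2, k3⟩ := h x hx
    exact h2 z x k1 (by omega) fun a ha => k3 _ (Set.singleton_subset_iff.2 ha)
  · exact subset_dcm _ _ (h x hx)

/-- **(GL) with mixed thresholds** -/
theorem gld' (hσ : M.Γ.IsClique (σ : Set S)) (hne : σ.Nonempty) {V' V : Set (Vt M)}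
    (h1 : ∀ u ∈ V, ∃ a ∈ σ, a ∈ Init u.1)
    (h2 : ∀ v u, v ∉ V → dl M v u ≤ ds M σ v → (∀ a ∈ σ, n M a u ≤ n M a v) → u ∉ V')
    (h3 : ∀ u, {v | v ∉ V ∧ dl M v u ≤ 5 * ds M σ v + 20}.Finite) :
    PEx M.ug H.oc {x | ∃ u ∈ V', Vc u x} {x | ∃ u ∈ V, Vc u x} := by
  obtain ⟨B, q, a, b⟩ := exists_qd H hσ hne h1 h2 h3
  exact PEx.mono (B := B) (B' := B) q.ex a b

theorem gld (hσ : M.Γ.IsClique (σ : Set S)) (hne : σ.Nonempty) (V' V : Set (Vt M))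
    (h1 : ∀ u ∈ V, ∃ a ∈ σ, a ∈ Init u.1)
    (h2 : ∀ v u, v ∉ V → dl M v u ≤ 10 * ds M σ v + 30 → (∀ a ∈ σ, n M a u ≤ n M a v + 30) → u ∉ V')
    (h3 : ∀ u, {v | v ∉ V ∧ dl M v u ≤ 10 * ds M σ v + 30}.Finite) :
    PEx M.ug H.oc {x | ∃ u ∈ V', Vc u x} {x | ∃ u ∈ V, Vc u x} :=
  gld' H hσ hne h1 (fun v u a b c => h2 v u a (by omega) fun a ha => (c a ha).trans (Nat.le_add_right _ _))
    fun u => (h3 u).subset fun _ h => ⟨h.1, by have := h.2; omega⟩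

end Crest.Agent.N255.Fa
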