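import Crest.Agent.N255.Ce.Ug
import Crest.Agent.N255.Ch.Abs

/-!
# Row 255 (helper16): uniform acyclicity, controlled homotopies, the abstract lemma (GL)
-/

set_option autoImplicit false

noncomputable section

namespace Crest.Agent.N255.Fa

open Ce Finsupp Gc Ch
open scoped Classical

variable {G C : Type} [Group G] [MulAction G C]

/-- an invariant proper metric on the cells -/
structure Met (G : Type) {C : Type} [Group G] [MulAction G C] (d : C → C → ℕ) : Prop where
  refl : ∀ x, d x x = 0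
  symm : ∀ x y, d x y = d y x
  tri : ∀ x y z, d x z ≤ d x y + d y z
  inv : ∀ (g : G) x y, d (g • x) (g • y) = d x y
  fin : ∀ x k, {y | d x y ≤ k}.Finite

/-- chains supported in a ball -/
def Bl (d : C → C → ℕ) (x : C) (k : ℕ) : Submodule ℤ (C →₀ ℤ) := Sp {y | d x y ≤ k}

theorem mem_Bl {d : C → C → ℕ} {x : C} {k : ℕ} {b : C →₀ ℤ} :
    b ∈ Bl d x k ↔ ∀ y, b y ≠ 0 → d x y ≤ k := mem_Sp

theorem Bl_mono {d : C → C → ℕ} {x : C} {k k' : ℕ} (h : k ≤ k') : Bl d x k ≤ Bl d x k' :=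
  fun _ hb => mem_Bl.2 fun y hy => (mem_Bl.1 hb y hy).trans h

theorem lc_mem {V : Type} [AddCommGroup V] {f : C → V} {P : Submodule ℤ V} {b : C →₀ ℤ}
    (h : ∀ y, b y ≠ 0 → f y ∈ P) : linearCombination ℤ f b ∈ P :=
  P.sum_mem fun y hy => P.smul_mem _ (h y (mem_support_iff.1 hy))

theorem lc_congr' {V : Type} [AddCommGroup V] {f g : C → V} {b : C →₀ ℤ}
    (h : ∀ y, b y ≠ 0 → f y = g y) : linearCombination ℤ f b = linearCombination ℤ g b :=
  Finset.sum_congr rfl fun y hy => show b y • f y = b y • g y by rw [h y (mem_support_iff.1 hy)]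

theorem map_lc {V V' : Type} [AddCommGroup V] [AddCommGroup V'] (T : V →ₗ[ℤ] V') (f : C → V)
    (b : C →₀ ℤ) : T (linearCombination ℤ f b) = linearCombination ℤ (fun y => T (f y)) b :=
  apply_linearCombination ℤ T f b

theorem lc_sub {V : Type} [AddCommGroup V] (f g : C → V) (b : C →₀ ℤ) :
    linearCombination ℤ (fun y => f y - g y) b = linearCombination ℤ f b - linearCombination ℤ g b := by
  simp only [linearCombination_apply, smul_sub, sum_sub]

theorem lc_add {V : Type} [AddCommGroup V] (f g : C → V) (b : C →₀ ℤ) :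
    linearCombination ℤ (fun y => f y + g y) b = linearCombination ℤ f b + linearCombination ℤ g b := by
  simp only [linearCombination_apply, smul_add, sum_add]

theorem lc_single (b : C →₀ ℤ) : linearCombination ℤ (fun y => single y (1 : ℤ)) b = b := by
  simp [linearCombination_apply]

variable (U : UG G C)

/-- the augmentation -/
def ag : (C →₀ ℤ) →ₗ[ℤ] ℤ := linearCombination ℤ fun a => if U.dim a = 0 then (1 : ℤ) else 0

include U in
theorem unif {p : C → ℕ → Prop} (mono : ∀ x k k', k ≤ k' → p x k → p x k')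
    (inv : ∀ (g : G) x k, p (g • x) k → p x k) (h : ∀ x, ∃ k, p x k) : ∃ k, ∀ x, p x k := by
  obtain ⟨s, hs, hc⟩ := U.fin
  choose f hf using h
  obtain ⟨k, hk⟩ := (hs.image f).bddAbove
  refine ⟨k, fun x => ?_⟩
  obtain ⟨g, hg⟩ := hc x
  exact inv g x k (mono _ _ _ (hk ⟨_, hg, rfl⟩) (hf _))

theorem D_map (g : G) (a : C →₀ ℤ) : U.D (mapDomain (g • ·) a) = mapDomain (g • ·) (U.D a) := by
  induction a using Finsupp.induction_linear with
  | zero => simp
  | add f g hf hg => simp only [mapDomain_add, map_add, hf, hg]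
  | single y k =>
    rw [← smul_single_one, mapDomain_smul, map_smul, map_smul, mapDomain_smul, mapDomain_single,
      U.D_single, U.D_single]
    congr 1
    ext x
    rw [mapDomain_smul_apply, ← U.eqv g y, smul_inv_smul]

theorem ag_map (g : G) (a : C →₀ ℤ) : ag U (mapDomain (g • ·) a) = ag U a := by
  rw [ag, linearCombination_mapDomain]
  exact lc_congr fun x _ => by simp [U.dim_smul]

theorem ex_ag (b : C →₀ ℤ) (h : U.D b = 0) (k : ag U b = 0) : ∃ a, U.D a = b ∧ ag U a = 0 := by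
  obtain ⟨a, ha⟩ := U.ex b h k
  refine ⟨a.filter fun x => U.dim x ≠ 0, ?_, lc_eq_zero fun x hx => if_neg ?_⟩
  · ext x
    rw [← ha]
    exact U.D_congr fun y hy => filter_apply_pos _ _ (by omega)
  · exact by_contra fun e => hx (filter_apply_neg _ _ e)

variable {d : C → C → ℕ} (hd : Met G d)
include hd

theorem Bl_map (g : G) {x : C} {k : ℕ} {b : C →₀ ℤ} (h : b ∈ Bl d x k) :
    mapDomain (g • ·) b ∈ Bl d (g • x) k := mem_Bl.2 fun y hy => by
  rw [mapDomain_smul_apply] at hy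
  rw [← smul_inv_smul g y, hd.inv]
  exact mem_Bl.1 h _ hy

theorem Bl_tri {x y : C} {k j : ℕ} (h : d x y ≤ j) : Bl d y k ≤ Bl d x (j + k) := fun _ hb =>
  mem_Bl.2 fun z hz => (hd.tri x y z).trans (add_le_add h (mem_Bl.1 hb z hz))

theorem exists_Bl (x : C) (b : C →₀ ℤ) : ∃ k, b ∈ Bl d x k :=
  ⟨b.support.sup (d x), mem_Bl.2 fun _ hy => Finset.le_sup (mem_support_iff.2 hy)⟩

/-- faces are uniformly close -/
theorem exists_face : ∃ B, ∀ y x, U.bd y x ≠ 0 → d y x ≤ B :=
  unif U (p := fun y B => ∀ x, U.bd y x ≠ 0 → d y x ≤ B)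
    (fun _ _ _ h k x hx => (k x hx).trans h)
    (fun g y _ k x hx => hd.inv g y x ▸ k (g • x) (by rwa [U.eqv]))
    fun y => (exists_Bl hd y (U.bd y)).imp fun _ => mem_Bl.1

/-- **uniform acyclicity** -/
theorem uacy (k : ℕ) : ∃ k', ∀ x, ∀ b ∈ Bl d x k, U.D b = 0 → ag U b = 0 →
    ∃ a ∈ Bl d x k', U.D a = b ∧ ag U a = 0 := by
  refine unif U (fun x _ _ h p b hb h1 h2 => (p b hb h1 h2).imp fun a ha => ⟨Bl_mono h ha.1, ha.2⟩)
    (fun g x k' p b hb h1 h2 => ?_) fun x => ?_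
  · obtain ⟨a, ha, e, e'⟩ := p _ (Bl_map hd g hb) (by rw [D_map, h1, mapDomain_zero])
      (by rw [ag_map, h2])
    refine ⟨mapDomain (g⁻¹ • ·) a, by simpa using Bl_map hd g⁻¹ ha, ?_, by rw [ag_map, e']⟩
    rw [D_map, e, ← mapDomain_comp]
    simp only [Function.comp_def, inv_smul_smul]
    exact mapDomain_id
  have h1 : (Bl d x k).FG := by
    rw [Bl, Sp, supported_eq_span_single]
    exact Submodule.fg_span ((hd.fin x k).image _)
  obtain ⟨t, ht, ht'⟩ := Submodule.fg_def.1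
    (h1.of_le (inf_le_left (b := LinearMap.ker U.D ⊓ LinearMap.ker (ag U))))
  have h3 : ∀ c : t, ∃ a, U.D a = c ∧ ag U a = 0 := fun c =>
    have : c.1 ∈ Bl d x k ⊓ (LinearMap.ker U.D ⊓ LinearMap.ker (ag U)) :=
      ht' ▸ Submodule.subset_span c.2
    ex_ag U _ this.2.1 this.2.2
  choose a ha using h3
  choose T hT using fun c => exists_Bl hd x (a c)
  have := ht.to_subtype
  obtain ⟨k', hk⟩ := (Set.finite_range T).bddAbove
  refine ⟨k', fun b hb e e' => ?_⟩
  have h4 : b ∈ Submodule.span ℤ t := ht' ▸ ⟨hb, e, e'⟩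
  obtain ⟨a, ha, e⟩ := (Submodule.span_le (p := (Bl d x k' ⊓ LinearMap.ker (ag U)).map U.D)).2
    (fun y hy => ⟨a ⟨y, hy⟩, ⟨Bl_mono (hk ⟨_, rfl⟩) (hT _), (ha _).2⟩, (ha _).1⟩) h4
  exact ⟨a, ha.1, e, ha.2⟩

omit hd in
variable (d) in
/-- a chain map `r` moving the cell `x` by at most `m x` -/
structure Fd (L : ℕ) (r : C → C →₀ ℤ) (m : C → ℕ) : Prop where
  ch : ∀ x, U.D (r x) = linearCombination ℤ r (U.bd x)
  au : ∀ x, ag U (r x) = ag U (single x 1)
  nr : ∀ x y, r x y ≠ 0 → d x y ≤ m x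
  lip : ∀ y x, U.bd y x ≠ 0 → m x ≤ m y + L

/-- **controlled homotopy** -/
theorem homot (L n : ℕ) : ∃ c : ℕ → ℕ, Monotone c ∧ ∀ r m, Fd U d L r m → ∃ h : C → C →₀ ℤ,
    ∀ x, U.dim x < n → U.D (h x) = single x 1 - r x - linearCombination ℤ h (U.bd x) ∧
      ag U (h x) = 0 ∧ h x ∈ Bl d x (c (m x)) := by
  induction n with
  | zero => exact ⟨id, monotone_id, fun _ _ _ => ⟨0, fun _ h => absurd h (by omega)⟩⟩
  | succ n ih =>
  obtain ⟨c, mc, ih⟩ := ih
  obtain ⟨B, hB⟩ := exists_face U hd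
  choose K hK using uacy U hd
  refine ⟨fun k => c k + (Finset.range (k + 1)).sup fun j => K (j + (B + c (j + L))),
    fun i j h => add_le_add (mc h) (Finset.sup_mono (Finset.range_mono (by omega))), fun r m H => ?_⟩
  obtain ⟨h, ih⟩ := ih r m H
  have key : ∀ x, ∃ a, U.dim x = n → U.D a = single x 1 - r x - linearCombination ℤ h (U.bd x) ∧
      ag U a = 0 ∧ a ∈ Bl d x (K (m x + (B + c (m x + L)))) := fun x => by
    by_cases e : U.dim x = n
    swap
    · exact ⟨0, fun k => absurd k e⟩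
    have lt : ∀ y, U.bd x y ≠ 0 → U.dim y < n := fun y hy => by have := U.dim_bd x y hy; omega
    obtain ⟨a, h1, h2, h3⟩ := hK (m x + (B + c (m x + L))) x
      (single x 1 - r x - linearCombination ℤ h (U.bd x))
      (sub_mem (sub_mem (mem_Bl.2 fun y hy => by
          rw [(single_apply_ne_zero.1 hy).1, hd.refl]; omega)
        (mem_Bl.2 fun y hy => (H.nr x y hy).trans (by omega)))
        (lc_mem fun y hy => Bl_mono (Nat.le_add_left _ _) (Bl_tri hd (hB x y hy)
          (Bl_mono (mc (H.lip x y hy)) (ih y (lt y hy)).2.2))))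
      (by
        rw [map_sub, map_sub, U.D_single, H.ch, map_lc, lc_congr' fun y hy => (ih y (lt y hy)).1,
          lc_sub, lc_sub, lc_single, ← map_lc (linearCombination ℤ h) U.bd, ← U.D_single x,
          show linearCombination ℤ U.bd (U.D (single x 1)) = 0 from U.dd _, map_zero]
        abel)
      (by
        rw [map_sub, map_sub, H.au, sub_self, map_lc, lc_eq_zero fun y hy => (ih y (lt y hy)).2.1,
          sub_zero])
    exact ⟨a, fun _ => ⟨h2, h3, h1⟩⟩
  choose a ha using key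
  refine ⟨fun x => if U.dim x = n then a x else h x, fun x hx => ?_⟩
  rw [lc_congr' (g := h) fun y hy => if_neg (by have := U.dim_bd x y hy; omega)]
  beta_reduce
  split_ifs with e
  · refine ⟨(ha x e).1, (ha x e).2.1, Bl_mono (le_add_left ?_) (ha x e).2.2⟩
    exact Finset.le_sup (f := fun j => K (j + (B + c (j + L)))) (Finset.self_mem_range_succ _)
  · have := ih x (by omega)
    exact ⟨this.1, this.2.1, Bl_mono (Nat.le_add_right _ _) this.2.2⟩

/-- **(GL)**, abstract form -/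
theorem gl_abs {N : ℕ} (hN : ∀ x, U.dim x ≤ N) (L : ℕ) : ∃ c : ℕ → ℕ, Monotone c ∧
    ∀ (r : C → C →₀ ℤ) (m : C → ℕ) (Z A A'' : Set C), Fd U d L r m → (∀ x y, r x y ≠ 0 → y ∈ Z) →
      (∀ φ, (∀ y ∈ Z, U.de φ y = 0) → ∃ ψ, ∀ y ∈ Z, U.de ψ y = φ y) → Z ⊆ A'' →
      (∀ x ∈ A, ∀ y, d x y ≤ c (m x) → y ∈ A'') → (∀ y, {x | x ∈ A ∧ d x y ≤ c (m x)}.Finite) →
      ∀ φ, (∀ y ∈ A'', U.de φ y = 0) → ∃ χ, ∀ y ∈ A, U.de χ y = φ y := by
  obtain ⟨c, mc, hc⟩ := homot U hd L (N + 1)
  obtain ⟨B, hB⟩ := exists_face U hd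
  refine ⟨fun k => B + (k + L + c (k + L)), fun i j h => by
    have := mc (Nat.add_le_add_right h L); simp only; omega,
    fun r m Z A A'' H hr hZ sub hA hf φ hφ => ?_⟩
  obtain ⟨h, hh⟩ := hc r m H
  replace hh := fun x => hh x (Nat.lt_succ_of_le (hN x))
  obtain ⟨ψ, hψ⟩ := hZ φ fun y hy => hφ y (sub hy)
  let f : C → ℤ := fun x => linearCombination ℤ ψ (r x) + linearCombination ℤ φ (h x)
  have nz : ∀ x, f x ≠ 0 → ∃ z ∈ ψ.support ∪ φ.support, d x z ≤ m x + c (m x) := fun x hx => by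
    by_contra! n
    refine hx ?_
    simp only [f]
    rw [lc_eq_zero fun z hz => by_contra fun e => ?_, lc_eq_zero fun z hz => by_contra fun e => ?_,
      add_zero]
    · have := n z (Finset.mem_union_right _ (mem_support_iff.2 e))
      have := mem_Bl.1 (hh x).2.2 z hz
      omega
    · have := n z (Finset.mem_union_left _ (mem_support_iff.2 e))
      have := H.nr x z hz
      omega
  have fin : (Function.support fun x => if ∃ y ∈ A, U.bd y x ≠ 0 then f x else 0).Finite := by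
    refine (((ψ.support ∪ φ.support).finite_toSet.biUnion fun z _ => hf z).biUnion
      fun y _ => (U.bd y).finite_support).subset fun x hx => ?_
    rw [Function.mem_support] at hx
    split_ifs at hx with e
    swap
    · exact absurd rfl hx
    obtain ⟨y, hy, e⟩ := e
    obtain ⟨z, hz, k⟩ := nz x hx
    refine Set.mem_biUnion (Set.mem_biUnion hz (x := z) ⟨hy, ?_⟩) e
    have := hd.tri y x z
    have := hB y x e
    have := H.lip y x e
    have := mc this
    beta_reduce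
    omega
  refine ⟨ofSupportFinite _ fin, fun y hy => ?_⟩
  have de : ∀ (φ a : C →₀ ℤ), linearCombination ℤ φ (U.D a) = linearCombination ℤ (U.de φ) a :=
    fun φ a => by rw [UG.D, map_lc]; exact lc_congr fun y _ => (U.de_apply φ y).symm
  have e : linearCombination ℤ h (U.bd y) = single y 1 - r y - U.D (h y) := by
    rw [(hh y).1]; abel
  rw [U.de_apply, ofSupportFinite_coe, lc_congr (g := f) fun x hx => if_pos ⟨y, hy, hx⟩, lc_add, ← map_lc, ← map_lc,
    ← H.ch, e, map_sub, map_sub, de, de, lc_congr fun z hz => hψ z (hr y z hz),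
    lc_eq_zero (φ := h y) fun z hz => hφ z (hA y hy z ?_)]
  · simp
  · have := mem_Bl.1 (hh y).2.2 z hz
    have := mc (Nat.le_add_right (m y) L)
    beta_reduce
    omega

omit hd in
/-- from exactness on `A` to exactness off `A` -/
theorem off_of_on {s : (C →₀ ℤ) →ₗ[ℤ] ℤ} (co : ∀ φ, U.de φ = 0 → s φ = 0 → ∃ ψ, U.de ψ = φ)
    {A A'' : Set C} (h : ∀ φ, (∀ y ∈ A'', U.de φ y = 0) → ∃ χ, ∀ y ∈ A, U.de χ y = φ y) :
    ∀ b ∈ Sp A''ᶜ, U.de b = 0 → s b = 0 → ∃ a ∈ Sp Aᶜ, U.de a = b := fun b hb h0 hs => by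
  obtain ⟨φ, rfl⟩ := co b h0 hs
  obtain ⟨χ, hχ⟩ := h φ fun y hy => by_contra fun e => mem_Sp.1 hb y e hy
  exact ⟨φ - U.de χ, mem_Sp.2 fun y hy k => hy (by rw [Finsupp.sub_apply, hχ y k, sub_self]),
    by rw [map_sub, U.de_de, sub_zero]⟩

end Crest.Agent.N255.Fa

end
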