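import Crest.Agent.N255.Fa.Co
import Crest.Agent.N255.Fa.Hf
import Crest.Agent.N255.Ce.Res
import Crest.Agent.N255.Lv.Pt
import Crest.Agent.N255.En.Defs
import Crest.Agent.N255.Uc.Av

/-!
# Row 255 (helper44): (PA1), the far sets cut by a level are pro-acyclic
-/

set_option autoImplicit false
set_option linter.unusedSectionVars false
open Set
open scoped Pointwise

noncomputable section

namespace Crest.Agent.N255.Fa

open Gs Tp Uc

section orb

/-- a coarsely dense, proper orbit map -/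
structure Orb {G V : Type} [Group G] (dl : V → V → ℕ) (ob : G → V) : Prop where
  symm : ∀ x y, dl x y = dl y x
  tri : ∀ x y z, dl x z ≤ dl x y + dl y z
  lip : ∀ A : Set G, A.Finite → ∃ d, ∀ g, ∀ s ∈ A, dl (ob g) (ob (g * s)) ≤ d
  near : ∀ d, ∃ A : Set G, A.Finite ∧ ∀ g g', dl (ob g) (ob g') ≤ d → g⁻¹ * g' ∈ A
  dense : ∃ d, ∀ v, ∃ g, dl (ob g) v ≤ d

variable {G Vx T : Type} [Group G] [TopologicalSpace T] [MulAction G T] {d : ℕ}
  {dl : Vx → Vx → ℕ} {ob : G → Vx}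

/-- labels of one point are close -/
theorem Orb.lab (O : Orb dl ob) (P : Pu G T) :
    ∃ e, ∀ x, ∀ g ∈ P.lab x, ∀ g' ∈ P.lab x, dl (ob g) (ob g') ≤ e := by
  obtain ⟨e, he⟩ := O.lip _ P.finite_diff
  exact ⟨e, fun x g hg g' hg' => by
    simpa using he g (g⁻¹ * g') ⟨x, g, hg, by simpa using hg'⟩⟩

/-- **transfer of pro-acyclicity along a short map** -/
theorem Orb.acy (O : Orb dl ob) [T2Space T] {m : ℕ} [ChartedSpace (EE (m + 1)) T] (hG : GM d G T)
    (P : Pu G T) (k : Type) [Field k] {Ω : Ori k m T} (hO : Ω.ND)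
    (h0 : ∀ φ ∈ Cc k (univ : Set T) k 0, cob k φ = 0 → φ = 0) :
    ∃ c : ℕ → ℕ, Monotone c ∧ ∀ f : Vx → Vx, (∀ x y, dl (f x) (f y) ≤ dl x y) →
      ∀ A V V' B : Set T, IsOpen A → A ⊆ V → A ⊆ B → Acy k V V' →
      (∀ x ∈ V', ∃ u ∈ P.lab x, ∀ y, (∀ g ∈ P.lab y, dl (f (ob u)) (ob g) ≤ c 0) → y ∈ B) →
      (∀ x ∈ A, ∃ u ∈ P.lab x, ∀ y,
        (∀ g ∈ P.lab y, dl (ob u) (ob g) ≤ c (dl (ob u) (f (ob u)))) → y ∈ B) → Acy k A B := by
  have := hG.cont
  obtain ⟨K, h⟩ := exists_FD hG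
  obtain ⟨S, c, hS, hc, H⟩ := acy_fold h k hO h0
  obtain ⟨L, hL⟩ := O.dense
  choose nr hnr using hL
  choose D hD hD' using O.near
  choose b hb using fun n => O.lip _ (hc _ (hD n))
  obtain ⟨s0, hs0⟩ := O.lip _ hS
  obtain ⟨e, he⟩ := O.lip _ (hG.shs_finite P.cpt h.cpt)
  have he' : ∀ x g u, g⁻¹ • x ∈ K → u ∈ P.lab x → dl (ob g) (ob u) ≤ e := fun x g u h1 h2 => by
    simpa using he g (g⁻¹ * u) ⟨_, h1, by simpa [smul_smul, Pu.lab] using h2⟩
  have hbb : ∀ n N, n ≤ N → b n ≤ (Finset.range (N + 1)).sup b := fun n N hn =>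
    Finset.le_sup (Finset.mem_range.2 (by omega))
  have hm : ∀ n (v g : G), dl (ob v) (ob g) ≤ n → g ∈ v • D n := fun n v g hg =>
    ⟨_, hD' n v g hg, mul_inv_cancel_left v g⟩
  refine ⟨fun n => 2 * e + L + (Finset.range (n + 2 * e + s0 + 2 * L + 1)).sup b,
    fun n n' hn => Nat.add_le_add_left (Finset.sup_mono (Finset.range_mono (by omega))) _,
    fun f hf A V V' B hA a1 a2 a3 a4 a5 => H (fun g => nr (f (ob g))) A V V' B hA a1 a2 a3
      (fun u' ⟨x, hx, hu'⟩ => ?_) fun u' ⟨x, hx, hu'⟩ => ?_⟩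
  · obtain ⟨u, hu, hy⟩ := a4 x hx
    refine ⟨nr (f (ob u')), D (2 * L + s0), hD _, ?_, ?_⟩
    · rintro _ ⟨_, ⟨s, hs, rfl⟩, rfl⟩
      refine hm _ _ _ ?_
      have h1 := O.tri (ob (nr (f (ob u')))) (f (ob u')) (ob (nr (f (ob (u' * s)))))
      have h2 := O.tri (f (ob u')) (f (ob (u' * s))) (ob (nr (f (ob (u' * s)))))
      have h3 := hnr (f (ob u'))
      have h4 := (O.symm _ _).trans_le (hnr (f (ob (u' * s))))
      have h5 := (hf _ _).trans (hs0 u' s hs)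
      show dl _ (ob (nr (f (ob (u' * s))))) ≤ _
      omega
    · rintro y ⟨_, ⟨t, ht, rfl⟩, h1⟩
      refine hy y fun g hg => ?_
      have h2 := he' y _ g h1 hg
      have h3 := (hb _ (nr (f (ob u'))) t ht).trans (hbb _ (0 + 2 * e + s0 + 2 * L) (by omega))
      have h4 := (O.symm _ _).trans_le (hnr (f (ob u')))
      have h5 := (hf _ _).trans ((O.symm _ _).trans_le (he' x u' u hu' hu))
      have h6 := O.tri (f (ob u)) (f (ob u')) (ob g)
      have h7 := O.tri (f (ob u')) (ob (nr (f (ob u')))) (ob g)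
      have h8 := O.tri (ob (nr (f (ob u')))) (ob (nr (f (ob u')) * t)) (ob g)
      simp only [smul_eq_mul] at h2
      beta_reduce
      omega
  · obtain ⟨u, hu, hy⟩ := a5 x hx
    have h5 := he' x u' u hu' hu
    refine ⟨D (dl (ob u) (f (ob u)) + 2 * e + s0 + 2 * L), hD _, union_subset ?_ ?_, ?_⟩
    · rintro _ ⟨s, hs, rfl⟩
      exact hm _ _ _ ((hs0 u' s hs).trans (by omega))
    · rintro _ ⟨_, ⟨s, hs, rfl⟩, rfl⟩
      refine hm _ _ _ ?_
      have h1 := O.tri (ob u') (ob u) (ob (nr (f (ob (u' * s)))))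
      have h2 := O.tri (ob u) (f (ob u)) (ob (nr (f (ob (u' * s)))))
      have h3 := O.tri (f (ob u)) (f (ob u')) (ob (nr (f (ob (u' * s)))))
      have h4 := O.tri (f (ob u')) (f (ob (u' * s))) (ob (nr (f (ob (u' * s)))))
      have h6 := (O.symm _ _).trans_le (hnr (f (ob (u' * s))))
      have h7 := (hf _ _).trans (hs0 u' s hs)
      have h8 := (hf _ _).trans ((O.symm _ _).trans_le h5)
      show dl _ (ob (nr (f (ob (u' * s))))) ≤ _
      omega
    · rintro y ⟨_, ⟨t, ht, rfl⟩, h1⟩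
      refine hy y fun g hg => ?_
      have h2 := he' y _ g h1 hg
      have h3 := (hb _ u' t ht).trans (hbb _ _ le_rfl)
      have h4 := (O.symm _ _).trans_le h5
      have h6 := O.tri (ob u) (ob u') (ob g)
      have h7 := O.tri (ob u') (ob (u' * t)) (ob g)
      simp only [smul_eq_mul] at h2
      beta_reduce
      omega

end orb

section vert

open Ce Ra Lv

variable {S K F Nd Ed : Type} [DecidableEq S] [Group F] [MulAction F Nd] [MulAction F Ed]
  (M : Mir S K F Nd Ed)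

theorem orb [LinearOrder K] [Finite K] (G' : Subgroup M.G) [G'.FiniteIndex] (o : Vt M) :
    Orb (dl M) fun g : G' => g.1.1 • o :=
  ⟨dl_comm', dl_tri', fun _ hA => orb_lip G' o hA, orb_near G' o, orb_dense G' o⟩

variable {c : ℕ → ℕ} (s : Slow c)

/-- the levels along the track of the fold -/
theorem track (C : ℝ) {ε : ℝ} (hε : 0 < ε) (R : ℕ) : ∃ R', ∀ (x y : Vt M) (Z : Set S),
    R' ≤ rad M x → mu M s Z x ≤ C → dl M x y ≤ c (ds M Z x) →
    R ≤ rad M y ∧ mu M s Z y ≤ mu M s Z x + ε ∧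
      ∀ a, mu M s Z x + ε ≤ nu M s a x → nu M s a y ≤ C → nu M s a x ≤ nu M s a y + ε := by
  obtain ⟨R1, h1⟩ := s.ratio (⌈C⌉₊ + 2) 2
  obtain ⟨R2, h2⟩ := s.q_slow C hε 1
  obtain ⟨R3, h3⟩ := s.j_top ⌈3 / ε⌉₊
  refine ⟨R1 + 2 * R2 + R3 + 2 * R, fun x y Z hx hC hd => ?_⟩
  have p := s.j_pos (rad M x)
  have a1 : s.lam (ds M Z x) ≤ ⌈C⌉₊ * s.j (rad M x) := by
    have : (s.lam (ds M Z x) : ℝ) ≤ ⌈C⌉₊ * s.j (rad M x) :=
      (div_le_iff₀ p).1 (hC.trans (Nat.le_ceil C))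
    exact_mod_cast this
  have a2 := s.lam_c (ds M Z x) _ le_rfl
  have a3 : 2 * (ds M Z x + c (ds M Z x) + 4 * ds M Z x + 1) < rad M x := by
    by_contra b
    have := h1 _ (by omega) _ (not_lt.1 b)
    have := s.one_le_j (rad M x)
    nlinarith
  have b1 := rad_lip x y
  have b2 := rad_lip y x
  have b3 := ds_lip Z x y
  rw [dl_comm'] at b2
  refine ⟨by omega, h2 _ (by omega) _ _ _ (s.lam_step le_rfl (by omega)) (s.j_five (by omega)) hC,
    fun a ha hy => h2 _ (by omega) _ _ _ ?_ (s.j_five (by omega)) hy⟩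
  have b4 := n_lip a y x
  rw [dl_comm'] at b4
  by_contra b5
  have b6 : ¬n M a x ≤ 5 * n M a y + 1 := fun e => b5 (s.lam_five e)
  have b7 := s.lam_five (n := ds M Z x + c (ds M Z x)) (n' := n M a x) (by omega)
  have b8 := s.lam_step (n := ds M Z x) (n' := ds M Z x + c (ds M Z x)) le_rfl le_rfl
  have b9 : (s.lam (n M a x) : ℝ) ≤ s.lam (ds M Z x) + 2 := by exact_mod_cast (by omega)
  have c1 := (Nat.le_ceil _).trans (Nat.cast_le.2 (h3 (rad M x) (by omega)))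
  rw [div_le_iff₀ hε] at c1
  rw [mu, nu, Slow.q, Slow.q, le_div_iff₀ p, add_mul, div_mul_cancel₀ _ p.ne'] at ha
  linarith

/-- the levels near the image of the fold -/
theorem image_fv (C : ℝ) {ε : ℝ} (hε : 0 < ε) (R d : ℕ) : ∃ R', ∀ (x y : Vt M) (Z : Set S) (a : S),
    R' ≤ rad M x → a ∉ Z → ε ≤ nu M s a x → dl M (fv Z x) y ≤ d →
    R ≤ rad M y ∧ mu M s Z y ≤ ε ∧ (nu M s a y ≤ C → nu M s a x ≤ nu M s a y + ε) := by
  obtain ⟨R1, h1⟩ := mu_slow M s (max C 0) hε d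
  obtain ⟨R2, h2⟩ := s.j_top ⌈(s.lam (R1 + R + d) + 1) / ε⌉₊
  refine ⟨R2, fun x y Z a hx ha he hd => ?_⟩
  have p := s.j_pos (rad M x)
  have a1 : R1 + R + d ≤ n M a x := by
    by_contra b
    have b1 : (s.lam (n M a x) : ℝ) ≤ s.lam (R1 + R + d) := Nat.cast_le.2 (s.lam_mono (by omega))
    have c1 := (Nat.le_ceil _).trans (Nat.cast_le.2 (h2 _ hx))
    rw [div_le_iff₀ hε] at c1
    rw [nu, Slow.q, le_div_iff₀ p] at he
    linarith
  have a2 := (n_le_fv ha x).trans (n_le_rad a _)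
  have a3 := rad_lip y (fv Z x)
  rw [dl_comm'] at a3
  have a4 : mu M s Z (fv Z x) = 0 := by rw [mu, ds_fv, s.q_zero]
  have a5 : nu M s a x ≤ nu M s a (fv Z x) := s.q_mono (n_le_fv ha x) (rad_fv Z x)
  refine ⟨by omega, ?_, fun hy => a5.trans ((h1 _ y (by omega) hd {a}).2 (hy.trans (le_max_left _ _)))⟩
  simpa [a4] using (h1 _ y (by omega) hd Z).1 (by simp [a4])

end vert

section pa

open Ce Ra Lv En Pt

variable {ι I Tor K : Type} [DecidableEq ι] [Fintype ι] [Fintype I] [Fintype Tor] [DecidableEq I]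
  [DecidableEq Tor] [Nonempty I] [LinearOrder K] [Finite K] (D : Dt ι I Tor K)
  (G' : Subgroup D.mir.G) [G'.FiniteIndex] (o : Vt D.mir)
  {T : Type} [TopologicalSpace T] [MulAction G' T] {d : ℕ}

/-- **(PA1)** from (PA0), for averaged levels -/
theorem pa1 [T2Space T] {m : ℕ} [ChartedSpace (EE (m + 1)) T] (hG : GM d G' T) (P : Pu G' T)
    (k : Type) [Field k] {Ω : Ori k m T} (hO : Ω.ND)
    (h0 : ∀ φ ∈ Cc k (univ : Set T) k 0, cob k φ = 0 → φ = 0) :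
    ∃ c1 : ℕ → ℕ, Monotone c1 ∧ ∀ (c : ℕ → ℕ) (s : Slow c), (∀ n, c1 n ≤ c n) →
      ∀ (w : Wl ι (St ι I Tor)) (F : Subgroup (FreeGroup ι)) [MulAction F T] (N : Lev w F T)
        (ν : St ι I Tor → C(T, ℝ)), (∀ e, w.B e = A e) →
        (∀ a x, ν a x = P.av (fun g : G' => nu D.mir s a (g.1.1 • o)) x) →
        (∀ x, N.r x = P.av (fun g : G' => (rad D.mir (g.1.1 • o) : ℝ)) x) →
        (∀ e x, N.s e x = P.av (fun g : G' => (cut D s).H e (g.1.1 • o)) x) →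
        N.PA0 k ν → N.PA1 k ν := by
  have O := orb D.mir G' o
  obtain ⟨c0, mc, H⟩ := O.acy hG P k hO h0
  obtain ⟨e0, he0⟩ := O.lab P
  refine ⟨fun n => c0 (2 * n), fun _ _ h => mc (by omega),
    fun c s hc w F _ N ν hB hν hr hs pa0 C ε R hε => ?_⟩
  have hq : 0 < ε / 4 := by positivity
  -- labels of a far point are far
  have far : ∀ (x : T) (R : ℕ), ((R + e0 : ℕ) : ℝ) < N.r x → ∀ u ∈ P.lab x,
      R ≤ rad D.mir (u.1.1 • o) := fun x R hx u hu => by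
    obtain ⟨g, hg, h1⟩ := P.exists_lt (hr x ▸ hx)
    have h2 := rad_lip (u.1.1 • o) (g.1.1 • o)
    have h3 : dl D.mir (u.1.1 • o) (g.1.1 • o) ≤ e0 := he0 x u hu g hg
    have h4 := Nat.cast_lt.1 h1
    omega
  -- membership in the target
  have tgt : ∀ e, En.pos e → ∀ t : ℝ, ε ≤ t → t + ε ≤ 1 → ∀ (σ : Finset (St ι I Tor))
      (th : St ι I Tor → ℝ), ∀ a ∈ σ, ∀ y : T, (∀ g ∈ P.lab y, ⌈R⌉₊ + 1 ≤ rad D.mir (g.1.1 • o) ∧
        mu D.mir s (A e) (g.1.1 • o) < t + ε ∧ th a < nu D.mir s a (g.1.1 • o)) →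
      y ∈ N.U ν σ th R ∩ {x | N.s e x < t + ε} := fun e he t h1 h2 σ th a ha y hy => by
    refine ⟨⟨⟨a, ha, ?_⟩, ?_⟩, ?_⟩
    · rw [hν]; exact P.lt_av fun g hg => (hy g hg).2.2
    · show R < N.r y
      rw [hr]
      exact P.lt_av fun g hg => (Nat.le_ceil R).trans_lt (Nat.cast_lt.2 (hy g hg).1)
    · show N.s e y < t + ε
      rw [hs]
      refine P.av_lt fun g hg => ((cut D s).H_lt_iff (by linarith) h2).2 ?_
      rw [h_true D s he (by have := (hy g hg).1; omega)]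
      exact (min_le_right _ _).trans_lt (hy g hg).2.1
  obtain ⟨R1, h1⟩ := image_fv D.mir s (max C 1) hq (⌈R⌉₊ + 1) (c0 0)
  obtain ⟨R2, h2⟩ := pa0 (C + ε / 2) (ε / 2) ((R1 + e0 : ℕ) : ℝ) (by positivity)
  obtain ⟨R3, h3⟩ := track D.mir s (max C 1) hq (⌈R⌉₊ + 1)
  obtain ⟨R4, h4⟩ := mu_slow D.mir s (max C 1) hq (c0 0)
  obtain ⟨R5, h5⟩ := H_slow D s hq e0
  have cm : C ≤ max C 1 := le_max_left _ _
  have cm' : (1 : ℝ) ≤ max C 1 := le_max_right _ _
  refine ⟨max (max R2 R) ((R3 + R4 + R5 + ⌈R⌉₊ + 1 + c0 0 + e0 : ℕ) : ℝ),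
    fun e he t t1 t2 σ ne cl th hth => ?_⟩
  refine H (fv (A e)) (dl_fv _) _ (N.U ν σ (fun a => th a + ε / 2 + ε / 2) R2)
    (N.U ν σ (fun a => th a + ε / 2) ((R1 + e0 : ℕ) : ℝ)) _ ?_ ?_ ?_
    (h2 σ ne cl _ fun a ha => ⟨by linarith [(hth a ha).1], by linarith [(hth a ha).2.1]⟩) ?_ ?_
  · refine (IsOpen.inter ?_ (isOpen_lt continuous_const N.r.continuous)).inter
      (isOpen_lt (N.s e).continuous continuous_const)
    rw [show {x | ∃ a ∈ σ, th a + ε < ν a x} = ⋃ a ∈ σ, {x | th a + ε < ν a x} by ext; simp]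
    exact isOpen_biUnion fun a _ => isOpen_lt continuous_const (ν a).continuous
  · rintro x ⟨⟨⟨a, ha, b1⟩, b2⟩, -⟩
    exact ⟨⟨a, ha, show th a + ε / 2 + ε / 2 < ν a x by linarith⟩,
      show R2 < N.r x from (max_lt_iff.1 (max_lt_iff.1 b2).1).1⟩
  · rintro x ⟨⟨⟨a, ha, b1⟩, b2⟩, b3⟩
    exact ⟨⟨⟨a, ha, show th a < ν a x by linarith⟩,
      show R < N.r x from (max_lt_iff.1 (max_lt_iff.1 b2).1).2⟩,
      show N.s e x < t + ε by linarith [show N.s e x < t from b3]⟩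
  · rintro x ⟨⟨a, ha, b1⟩, b2⟩
    obtain ⟨u, hu, b3⟩ := P.exists_lt (hν a x ▸ b1)
    refine ⟨u, hu, fun y hy => tgt e he t t1 t2 σ th a ha y fun g hg => ?_⟩
    obtain ⟨a1, a2, a3, -⟩ := hth a ha
    obtain ⟨d1, d2, d3⟩ := h1 _ _ (A e) a (far x R1 b2 u hu) (hB e ▸ a3) (by linarith) (hy g hg)
    refine ⟨d1, by linarith, by_contra fun b => ?_⟩
    have := d3 (by linarith)
    linarith
  · rintro x ⟨⟨⟨a, ha, b1⟩, b2⟩, b3⟩
    obtain ⟨u, hu, b4⟩ := P.exists_lt (hν a x ▸ b1)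
    obtain ⟨u', hu', b5⟩ := P.exists_gt ((hs e x).symm.trans_lt b3)
    have b6 := far x _ (max_lt_iff.1 b2).2 u hu
    have b7 := (abs_le.1 (h5 _ _ (by omega) (he0 x u hu u' hu') e)).2
    have b8 : mu D.mir s (A e) (u.1.1 • o) < t + ε / 4 := by
      have := ((cut D s).H_lt_iff (e := e) (p := u.1.1 • o) (a := t + ε / 4) (by linarith)
        (by linarith)).1 (by linarith)
      rw [h_true D s he (by omega)] at this
      exact (min_lt_iff.1 this).resolve_left (by linarith)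
    obtain ⟨a1, a2, a3, a4⟩ := hth a ha
    refine ⟨u, hu, fun y hy => tgt e he t t1 t2 σ th a ha y fun g hg => ?_⟩
    have b9 : dl D.mir (u.1.1 • o) (g.1.1 • o) ≤
        c0 (dl D.mir (u.1.1 • o) (fv (A e) (u.1.1 • o))) := hy g hg
    rcases w.tri e a with c1 | c1 | c1
    · obtain ⟨d1, d2, d3⟩ := h3 _ _ (A e) (by omega) (by linarith)
        (b9.trans ((mc (dl_fv_self _ _)).trans (hc _)))
      refine ⟨d1, by linarith, by_contra fun b => ?_⟩
      have := d3 a (by linarith [a4 c1]) (by linarith)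
      linarith
    · exact absurd c1 a3
    · have d0 := ds_A_zero D ((nu_pos s).1 (by linarith : 0 < nu D.mir s a (u.1.1 • o)))
        (hB _ ▸ c1)
      rw [rev_rev] at d0
      rw [fv_eq (ds_eq_zero.1 d0), dl_self'] at b9
      have d1 := rad_lip (g.1.1 • o) (u.1.1 • o)
      rw [dl_comm'] at d1
      have d2 := (h4 _ _ (by omega) b9 (A e)).1 (by linarith)
      refine ⟨by omega, by linarith, by_contra fun b => ?_⟩
      have := (h4 _ _ (by omega) b9 {a}).2 (by rw [← nu_eq]; linarith)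
      rw [← nu_eq] at this
      linarith

end pa

end Crest.Agent.N255.Fa

end
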